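import Vale.Agent.P011.H279.Lat6

/-!
# P011 (helper279), module (B1): the count for every lattice; the set in terms of `IsLattice`
-/

open Module IsLocalRing

namespace Vale.Agent.P011.H279

section Gen
variable {A F V : Type*} [CommRing A] [IsDomain A] [IsDiscreteValuationRing A] [Field F]
  [Algebra A F] [IsFractionRing A F] [AddCommGroup V] [Module F V] [Module A V]
  [IsScalarTower A F V]

/-- every lattice is standard in suitable coordinates -/
theorem exists_std (S : Submodule A V) [hS : S.IsLattice F] {n : ℕ} (hn : finrank F V = n) :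
    ∃ e : V ≃ₗ[F] (Fin n → F), S.map (e.restrictScalars A : V →ₗ[A] (Fin n → F)) =
      std A F (Fin n) := by
  have hfr : Module.Free A S := Submodule.IsLattice.free F S
  set b := Module.Free.chooseBasis A S with hb
  have h3 : Fintype.card (Module.Free.ChooseBasisIndex A S) = n := by
    rw [← hn, ← finrank_eq_card_basis (b.extendOfIsLattice F)]
  obtain ⟨f⟩ : Nonempty (Module.Free.ChooseBasisIndex A S ≃ Fin n) :=
    Fintype.card_eq.1 (by rw [h3, Fintype.card_fin])
  set b' := b.reindex f with hb'
  refine ⟨(b'.extendOfIsLattice F).equivFun, ?_⟩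
  have h4 : ∀ c : Fin n → A, ((b'.extendOfIsLattice F).equivFun.symm
      fun i => algebraMap A F (c i)) = ((∑ i, c i • b' i : S) : V) := by
    intro c
    rw [Basis.equivFun_symm_apply]
    push_cast
    refine Finset.sum_congr rfl fun i _ => ?_
    rw [Basis.extendOfIsLattice_apply, algebraMap_smul]
  ext x
  rw [mem_std]
  constructor
  · rintro ⟨v, hv, rfl⟩ i
    have h5 := h4 fun i => b'.repr ⟨v, hv⟩ i
    rw [b'.sum_repr] at h5
    simp only at h5
    refine ⟨b'.repr ⟨v, hv⟩ i, ?_⟩
    have h6 := congrArg (b'.extendOfIsLattice F).equivFun h5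
    rw [LinearEquiv.apply_symm_apply] at h6
    exact congrFun h6 i
  · intro h
    choose c hc using h
    have h7 : (fun i => algebraMap A F (c i)) = x := funext hc
    refine ⟨((∑ i, c i • b' i : S) : V), Subtype.property _, ?_⟩
    change (b'.extendOfIsLattice F).equivFun _ = x
    rw [← h4, LinearEquiv.apply_symm_apply, h7]

variable [Finite (ResidueField A)]

/-- the count for every lattice -/
theorem ov_lattice (S : Submodule A V) [hS : S.IsLattice F] (m : ℕ) :
    (Ov S m).Finite ∧ Nat.card (Ov S m) = cn A F (finrank F V) m := by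
  obtain ⟨e, he⟩ := exists_std S rfl
  have e' := ovEquiv (e.restrictScalars A) S m
  rw [he] at e'
  refine ⟨?_, by rw [Nat.card_congr e', cn]⟩
  have := (ov_std_finite (A := A) (F := F) (finrank F V) m).to_subtype
  exact @Set.toFinite _ _ (Finite.of_equiv _ e'.symm)

/-- the set `Ov S m` in terms of lattices -/
theorem mem_ov_iff (S N : Submodule A V) [hS : S.IsLattice F] (m : ℕ) :
    N ∈ Ov S m ↔ N.IsLattice F ∧ S ≤ N ∧ S.toAddSubgroup.relIndex N.toAddSubgroup =
      Nat.card (ResidueField A) ^ m :=
  ⟨fun h => ⟨lattice_of_mem h, h⟩, fun h => h.2⟩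

/-- values of the count -/
theorem cn_zero (m : ℕ) : cn A F 0 m = if m = 0 then 1 else 0 := (ov_std_zero m).2

theorem cn_succ (n m : ℕ) : cn A F (n + 1) m = ∑ j ∈ Finset.range (m + 1),
    Nat.card (ResidueField A) ^ (n * j) * cn A F n (m - j) := (ov_std n m).2

/-- the count depends on `q`, `n`, `m` only -/
theorem cn_congr {B G : Type*} [CommRing B] [IsDomain B] [IsDiscreteValuationRing B] [Field G]
    [Algebra B G] [IsFractionRing B G] [Finite (ResidueField B)]
    (h : Nat.card (ResidueField A) = Nat.card (ResidueField B)) (n m : ℕ) :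
    cn A F n m = cn B G n m := by
  induction n generalizing m with
  | zero => rw [cn_zero, cn_zero]
  | succ n ih => rw [cn_succ, cn_succ, h]; exact Finset.sum_congr rfl fun j _ => by rw [ih]

theorem cn_one (m : ℕ) : cn A F 1 m = 1 := by
  rw [cn_succ, Finset.sum_eq_single_of_mem m (by simp)]
  · simp [cn_zero]
  · intro j hj hjm
    rw [Finset.mem_range] at hj
    rw [cn_zero, if_neg (by omega), mul_zero]

/-- scaling: `[N : a N]`, in the form `[a⁻¹ N : N] = q ^ (n v(a))` -/
theorem ix_dl_unit {a : A} (u : Aˣ) {ϖ : A} (hϖ : Irreducible ϖ) {j : ℕ} (ha : a = u * ϖ ^ j)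
    (N : Submodule A V) [hN : N.IsLattice F] :
    ix N (dl a N) = Nat.card (ResidueField A) ^ (finrank F V * j) := by
  have h : dl a N = dl (ϖ ^ j) N := by
    ext x
    rw [mem_dl, mem_dl, ha, mul_smul]
    refine ⟨fun h => ?_, fun h => N.smul_mem _ h⟩
    have h1 := N.smul_mem (↑u⁻¹ : A) h
    rwa [smul_smul, Units.inv_mul, one_smul] at h1
  rw [h]
  by_cases hV : Module.Finite F V
  · exact ix_dl_pow hϖ N j
  · exfalso
    apply hV
    have hfr : Module.Free A N := Submodule.IsLattice.free F N
    exact Module.Finite.of_basis ((Module.Free.chooseBasis A N).extendOfIsLattice F)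

end Gen

end Vale.Agent.P011.H279
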