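import Vale.Agent.P011.Hey.Spec
import Vale.Agent.P011.H279.Lat7

/-!
# P011 (helper279): the local facts on lattices, in the letters of `Hey/Spec.lean`
-/

open Module IsLocalRing Vale.Agent.P011.Hey

namespace Vale.Agent.P011.H279

section Loc
variable {A F : Type*} [CommRing A] [IsDomain A] [Field F] [Algebra A F]

theorem heyStd_eq (n : ℕ) : Hey.std A F n = std A F (Fin n) := by
  ext x
  rw [Hey.mem_std, mem_std]

theorem heyStd_lattice (n : ℕ) : (Hey.std A F n).IsLattice F := by
  rw [heyStd_eq]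
  exact std_lattice (Fin n)

variable [IsDiscreteValuationRing A] [IsFractionRing A F] [Finite (ResidueField A)]
variable {n q : ℕ} (hq : q = Nat.card (ResidueField A))

include hq in
theorem one_lt : 1 < q := hq ▸ one_lt_q (A := A)

include hq in
theorem rix_eq_pow (M N : Submodule A (Fin n → F)) [M.IsLattice F] [N.IsLattice F] :
    rix M N = q ^ Nat.log q (rix M N) := by
  obtain ⟨m, hm⟩ := exists_ix_eq M N
  change rix M N = _ at hm
  rw [hm, ← hq, Nat.log_pow (one_lt hq)]

include hq in
theorem log_mul {M N P : Submodule A (Fin n → F)} [M.IsLattice F] [N.IsLattice F] [P.IsLattice F]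
    (h1 : M ≤ N) (h2 : N ≤ P) :
    Nat.log q (rix M P) = Nat.log q (rix M N) + Nat.log q (rix N P) := by
  have h : rix M N * rix N P = rix M P := ix_mul h1 h2
  rw [← h, rix_eq_pow hq M N, rix_eq_pow hq N P, ← pow_add, Nat.log_pow (one_lt hq),
    Nat.log_pow (one_lt hq), Nat.log_pow (one_lt hq)]

include hq in
/-- the index, computed with any common sublattice -/
theorem ind_of_le {M N : Submodule A (Fin n → F)} [hM : M.IsLattice F] [hN : N.IsLattice F]
    (h1 : M ≤ N) (h2 : M ≤ Hey.std A F n) :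
    ind N q = (Nat.log q (rix M N) : ℤ) - Nat.log q (rix M (Hey.std A F n)) := by
  have hS : (Hey.std A F n).IsLattice F := heyStd_lattice n
  have h3 : M ≤ N ⊓ Hey.std A F n := le_inf h1 h2
  rw [ind, log_mul hq h3 inf_le_left, log_mul hq h3 inf_le_right]
  push_cast
  ring

include hq in
/-- **the main formula** -/
theorem ind_sub {N N' : Submodule A (Fin n → F)} (hN : N.IsLattice F) (hN' : N'.IsLattice F)
    (h : N ≤ N') : ind N' q = ind N q + Nat.log q (rix N N') := by
  have hS : (Hey.std A F n).IsLattice F := heyStd_lattice n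
  have h1 : N ⊓ Hey.std A F n ≤ N := inf_le_left
  have h2 : N ⊓ Hey.std A F n ≤ Hey.std A F n := inf_le_right
  rw [ind_of_le hq h1 h2, ind_of_le hq (h1.trans h) h2, log_mul hq h1 h]
  push_cast
  ring

theorem ind_std' (q : ℕ) : ind (Hey.std A F n) q = 0 := by
  rw [ind, inf_idem, sub_self]

include hq in
theorem ind_mono' {N N' : Submodule A (Fin n → F)} (hN : N.IsLattice F) (hN' : N'.IsLattice F)
    (h : N ≤ N') : ind N q ≤ ind N' q := by
  rw [ind_sub hq hN hN' h]
  omega

include hq in
theorem rix_eq' {N N' : Submodule A (Fin n → F)} (hN : N.IsLattice F) (hN' : N'.IsLattice F)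
    (h : N ≤ N') : rix N N' = q ^ (ind N' q - ind N q).toNat := by
  rw [ind_sub hq hN hN' h, add_sub_cancel_left, Int.toNat_natCast]
  exact rix_eq_pow hq N N'

omit [IsDiscreteValuationRing A] [IsFractionRing A F] [Finite (ResidueField A)] in
theorem mulR_scalar (N : Submodule A (Fin n → F)) (a : A) :
    mulR N (Matrix.scalar (Fin n) (algebraMap A F a)) =
      N.map (LinearMap.lsmul A (Fin n → F) a) := by
  have h : ∀ x : Fin n → F, Matrix.toLinearMapRight' (R := F)
      (Matrix.scalar (Fin n) (algebraMap A F a)) x = a • x := by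
    intro x
    rw [Matrix.toLinearMapRight'_apply, Matrix.scalar_apply]
    ext i
    rw [Matrix.vecMul_diagonal, Pi.smul_apply, Algebra.smul_def, mul_comm]
  ext y
  constructor
  · rintro ⟨x, hx, rfl⟩
    exact ⟨x, hx, (h x).symm⟩
  · rintro ⟨x, hx, rfl⟩
    exact ⟨x, hx, h x⟩

theorem mulR_scalar_lattice (N : Submodule A (Fin n → F)) (hN : N.IsLattice F) {a : A}
    (ha : a ≠ 0) : (mulR N (Matrix.scalar (Fin n) (algebraMap A F a))).IsLattice F := by
  rw [mulR_scalar]
  refine ⟨hN.fg.map _, ?_⟩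
  have ha' : algebraMap A F a ≠ 0 := by simpa using ha
  rw [eq_top_iff, ← hN.span_eq_top, Submodule.span_le]
  intro x hx
  have h1 : a • x ∈ N.map (LinearMap.lsmul A (Fin n → F) a) := ⟨x, hx, rfl⟩
  have h2 := Submodule.smul_mem (Submodule.span F (N.map (LinearMap.lsmul A (Fin n → F) a) :
    Set (Fin n → F))) (algebraMap A F a)⁻¹ (Submodule.subset_span h1)
  rw [← algebraMap_smul F a x, smul_smul, inv_mul_cancel₀ ha', one_smul] at h2
  exact h2

include hq in
/-- multiplication by a uniformizer -/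
theorem ind_mulR_uniformizer {N : Submodule A (Fin n → F)} (hN : N.IsLattice F) {ϖ : A}
    (hϖ : Irreducible ϖ) :
    ind (mulR N (Matrix.scalar (Fin n) (algebraMap A F ϖ))) q = ind N q - n := by
  have h1 := mulR_scalar_lattice N hN hϖ.ne_zero
  rw [mulR_scalar] at h1 ⊢
  have h2 : N.map (LinearMap.lsmul A (Fin n → F) ϖ) ≤ N := by
    rintro _ ⟨x, hx, rfl⟩
    exact N.smul_mem _ hx
  have h3 := ix_map_of_injective (LinearMap.lsmul A (Fin n → F) ϖ) (lsmul_inj F hϖ.ne_zero) N
    (dl ϖ N)
  rw [map_dl F hϖ.ne_zero, ix_dl hϖ N, finrank_fin_fun, ← hq] at h3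
  have h4 := ind_sub hq h1 hN h2
  have h5 : rix (N.map (LinearMap.lsmul A (Fin n → F) ϖ)) N = q ^ n := h3
  rw [h5, Nat.log_pow (one_lt hq)] at h4
  omega

include hq in
/-- the overlattices of the standard lattice, by `ind` -/
theorem mem_ov_ind {N : Submodule A (Fin n → F)} {m : ℕ} :
    N ∈ Ov (std A F (Fin n)) m ↔ N.IsLattice F ∧ Hey.std A F n ≤ N ∧ ind N q = m := by
  have hS : (Hey.std A F n).IsLattice F := heyStd_lattice n
  rw [heyStd_eq]
  constructor
  · intro h
    have hN : N.IsLattice F := lattice_of_mem h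
    refine ⟨hN, h.1, ?_⟩
    have h1 : Hey.std A F n ≤ N := by rw [heyStd_eq]; exact h.1
    have h2 : rix (Hey.std A F n) N = q ^ m := by rw [heyStd_eq, hq]; exact h.2
    rw [ind_sub hq hS hN h1, ind_std', zero_add, h2, Nat.log_pow (one_lt hq)]
  · rintro ⟨hN, h1, h2⟩
    refine ⟨h1, ?_⟩
    have h3 : Hey.std A F n ≤ N := by rw [heyStd_eq]; exact h1
    have h4 := rix_eq' hq hS hN h3
    rw [h2, ind_std', sub_zero, Int.toNat_natCast, heyStd_eq, hq] at h4
    exact h4

include hq in
/-- finiteness and number of the overlattices of the standard lattice of index `m` -/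
theorem lc_set (m : ℕ) : {N : Submodule A (Fin n → F) | N.IsLattice F ∧ Hey.std A F n ≤ N ∧
    ind N q = m} = Ov (std A F (Fin n)) m := by
  ext N
  exact (mem_ov_ind hq).symm

include hq in
/-- the same for the type of lattices: finiteness -/
theorem lc_finite (m : ℕ) : {N : {N : Submodule A (Fin n → F) // N.IsLattice F} |
    Hey.std A F n ≤ N.1 ∧ ind N.1 q = m}.Finite := by
  have h := ov_std_finite (A := A) (F := F) n m
  rw [← lc_set hq] at h
  refine Set.Finite.of_finite_image (f := Subtype.val) (h.subset ?_) Subtype.val_injective.injOn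
  rintro _ ⟨N, hN, rfl⟩
  exact ⟨N.2, hN⟩

include hq in
/-- the same for the type of lattices: the number -/
theorem lc_card (m : ℕ) : Nat.card {N : {N : Submodule A (Fin n → F) // N.IsLattice F} //
    Hey.std A F n ≤ N.1 ∧ ind N.1 q = m} = cn A F n m := by
  rw [cn, ← lc_set hq m]
  exact Nat.card_congr
    { toFun := fun N => ⟨N.1.1, N.1.2, N.2⟩
      invFun := fun N => ⟨⟨N.1, N.2.1⟩, N.2.2⟩
      left_inv := fun _ => rfl
      right_inv := fun _ => rfl }

include hq in
/-- the generating function -/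
theorem lc_gen (R : Type*) [CommRing R] (n : ℕ) :
    (PowerSeries.mk fun m => ((Nat.card {N : {N : Submodule A (Fin n → F) // N.IsLattice F} //
      Hey.std A F n ≤ N.1 ∧ ind N.1 q = m} : ℕ) : R)) *
      ∏ i ∈ Finset.range n, (1 - PowerSeries.C ((q : R) ^ i) * PowerSeries.X) = 1 := by
  have h := gen (A := A) (F := F) R n
  rw [← hq] at h
  have e : (PowerSeries.mk fun m => ((Nat.card {N : {N : Submodule A (Fin n → F) //
      N.IsLattice F} // Hey.std A F n ≤ N.1 ∧ ind N.1 q = m} : ℕ) : R)) =
      PowerSeries.mk fun m => (cn A F n m : R) := by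
    ext m
    rw [PowerSeries.coeff_mk, PowerSeries.coeff_mk, lc_card hq]
  rw [e, h]

end Loc

end Vale.Agent.P011.H279
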