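import Vale.Agent.P011.Hey.Ops
import Vale.Agent.P011.H279.HeyLoc

/-!
# P011 (helper279), module (B2): the closed unit ball of the completion at a place is a discrete
valuation ring with residue field of order `qq v`
-/

open Module IsLocalRing Vale.Agent.P011.Hey Vale.Agent.P011.H738 Vale.Agent.P011.H271

namespace Vale.Agent.P011.H279

noncomputable section

variable {k : Type} [Field k] (v : Place k)

/-- the norm of a nonzero element is a power of `q` -/
theorem exists_norm_eq {x : v.comp} (hx : x ≠ 0) : ∃ m : ℤ, ‖x‖ = (qq v : ℝ) ^ m := by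
  obtain ⟨a, ha⟩ := dense_alg v x (norm_pos_iff.2 hx)
  have h1 : ‖algebraMap k v.comp a‖ = ‖x‖ := by
    have h2 := IsUltrametricDist.norm_add_eq_max_of_norm_ne_norm (x := x)
      (y := algebraMap k v.comp a - x) ?_
    · rw [add_sub_cancel] at h2
      rw [h2, max_eq_left]
      rw [norm_sub_rev]
      exact ha.le
    · rw [norm_sub_rev]
      exact ha.ne'
  have ha0 : a ≠ 0 := by
    rintro rfl
    rw [map_zero, norm_zero] at h1
    exact (norm_pos_iff.2 hx).ne h1
  obtain ⟨m, hm⟩ := exists_eq_zpow v ha0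
  exact ⟨m, by rw [← h1, norm_alg, hm]⟩

/-- a uniformizer of the completion -/
def varpi : cO v := ⟨algebraMap k v.comp (unif v), by
  rw [alg_mem_cO, abv_unif]
  exact inv_le_one_of_one_le₀ (one_lt_qq' v).le⟩

theorem coe_varpi : ((varpi v : cO v) : v.comp) = algebraMap k v.comp (unif v) := rfl

theorem norm_varpi : ‖((varpi v : cO v) : v.comp)‖ = (qq v : ℝ)⁻¹ := by
  rw [coe_varpi, norm_alg, abv_unif]

theorem isUnit_iff_norm (x : cO v) : IsUnit x ↔ ‖(x : v.comp)‖ = 1 := by
  constructor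
  · rintro ⟨u, rfl⟩
    have h1 : ‖((u : cO v) : v.comp)‖ ≤ 1 := (u : cO v).2
    have h2 : ‖((↑u⁻¹ : cO v) : v.comp)‖ ≤ 1 := (↑u⁻¹ : cO v).2
    have h3 : ‖((u : cO v) : v.comp)‖ * ‖((↑u⁻¹ : cO v) : v.comp)‖ = 1 := by
      rw [← norm_mul, ← MulMemClass.coe_mul, Units.mul_inv]
      exact norm_one
    nlinarith [norm_nonneg ((u : cO v) : v.comp), norm_nonneg ((↑u⁻¹ : cO v) : v.comp)]
  · intro h
    have hx0 : (x : v.comp) ≠ 0 := by
      intro h0
      rw [h0, norm_zero] at h
      exact zero_ne_one h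
    refine IsUnit.of_mul_eq_one (⟨(x : v.comp)⁻¹, by rw [mem_cO, norm_inv, h, inv_one]⟩ : cO v) ?_
    apply Subtype.ext
    exact mul_inv_cancel₀ hx0

theorem factor {x : cO v} (hx : x ≠ 0) : ∃ n : ℕ, Associated (varpi v ^ n) x := by
  have hx0 : (x : v.comp) ≠ 0 := fun h => hx (Subtype.ext h)
  obtain ⟨m, hm⟩ := exists_norm_eq v hx0
  have h1 : (qq v : ℝ) ^ m ≤ 1 := by rw [← hm]; exact x.2
  have h2 : m ≤ 0 := by
    rw [← zpow_zero (qq v : ℝ)] at h1
    exact (zpow_le_zpow_iff_right₀ (one_lt_qq' v)).1 h1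
  obtain ⟨n, hn⟩ := Int.eq_ofNat_of_zero_le (neg_nonneg.2 h2)
  have hw0 : ((varpi v : cO v) : v.comp) ≠ 0 := by
    rw [coe_varpi]
    exact (map_ne_zero _).2 (unif_ne v)
  have h3 : ‖(x : v.comp) / ((varpi v : cO v) : v.comp) ^ n‖ = 1 := by
    rw [norm_div, norm_pow, norm_varpi, hm, inv_pow, div_inv_eq_mul, ← zpow_natCast, ← zpow_add₀
      (qq_pos v).ne']
    have : m + (n : ℤ) = 0 := by omega
    rw [this, zpow_zero]
  have h4 : (x : v.comp) / ((varpi v : cO v) : v.comp) ^ n ∈ cO v := by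
    rw [mem_cO, h3]
  obtain ⟨u, hu⟩ := (isUnit_iff_norm v ⟨_, h4⟩).2 h3
  refine ⟨n, u, ?_⟩
  apply Subtype.ext
  rw [hu]
  exact mul_div_cancel₀ _ (pow_ne_zero _ hw0)

theorem irreducible_varpi : Irreducible (varpi v) := by
  have h0 := inv_lt_one_of_one_lt₀ (one_lt_qq' v)
  constructor
  · rw [isUnit_iff_norm, norm_varpi]
    exact h0.ne
  · intro a b hab
    by_contra! hcon
    have ha0 : a ≠ 0 := by
      rintro rfl
      rw [zero_mul] at hab
      have := congrArg (Subtype.val) hab
      rw [coe_varpi] at this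
      exact (map_ne_zero _).2 (unif_ne v) this
    have hb0 : b ≠ 0 := by
      rintro rfl
      rw [mul_zero] at hab
      have := congrArg (Subtype.val) hab
      rw [coe_varpi] at this
      exact (map_ne_zero _).2 (unif_ne v) this
    obtain ⟨i, u, hi⟩ := factor v ha0
    obtain ⟨j, w, hj⟩ := factor v hb0
    have hi0 : i ≠ 0 := by
      rintro rfl
      apply hcon.1
      rw [← hi, pow_zero, one_mul]
      exact u.isUnit
    have hj0 : j ≠ 0 := by
      rintro rfl
      apply hcon.2
      rw [← hj, pow_zero, one_mul]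
      exact w.isUnit
    have h1 : ∀ (c : cO v) (l : ℕ) (z : (cO v)ˣ), l ≠ 0 → varpi v ^ l * z = c →
        ‖(c : v.comp)‖ ≤ (qq v : ℝ)⁻¹ := by
      intro c l z hl hc
      have hz := (isUnit_iff_norm v (z : cO v)).1 z.isUnit
      rw [← hc, MulMemClass.coe_mul, norm_mul, hz, mul_one, SubmonoidClass.coe_pow, norm_pow,
        norm_varpi]
      exact pow_le_of_le_one (inv_nonneg.2 (qq_pos v).le) h0.le hl
    have h2 := h1 a i u hi0 hi
    have h3 := h1 b j w hj0 hj
    have h4 : (qq v : ℝ)⁻¹ = ‖(a : v.comp)‖ * ‖(b : v.comp)‖ := by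
      rw [← norm_varpi v, hab, MulMemClass.coe_mul, norm_mul]
    have h5 : 0 < (qq v : ℝ)⁻¹ := inv_pos.2 (qq_pos v)
    nlinarith [norm_nonneg (a : v.comp), norm_nonneg (b : v.comp)]

instance dvr_cO : IsDiscreteValuationRing (cO v) :=
  IsDiscreteValuationRing.ofHasUnitMulPowIrreducibleFactorization
    ⟨varpi v, irreducible_varpi v, fun hx => factor v hx⟩

theorem mem_maxIdeal_iff (x : cO v) : x ∈ maximalIdeal (cO v) ↔ ‖(x : v.comp)‖ < 1 := by
  rw [IsLocalRing.mem_maximalIdeal, mem_nonunits_iff, isUnit_iff_norm]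
  have h : ‖(x : v.comp)‖ ≤ 1 := x.2
  constructor
  · exact fun h1 => lt_of_le_of_ne h h1
  · exact fun h1 => h1.ne

/-- from the integers of `k` to the integers of the completion -/
def intMap : integers v.abv v.nonarch →+* cO v where
  toFun x := ⟨algebraMap k v.comp (x : k), alg_mem_cO.2 x.2⟩
  map_one' := Subtype.ext (map_one _)
  map_zero' := Subtype.ext (map_zero _)
  map_mul' _ _ := Subtype.ext (map_mul _ _ _)
  map_add' _ _ := Subtype.ext (map_add _ _ _)

/-- the residue fields agree -/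
def resEquiv : (integers v.abv v.nonarch ⧸ maxIdeal v.abv v.nonarch) ≃+* ResidueField (cO v) := by
  refine RingEquiv.ofBijective (Ideal.Quotient.lift _ ((residue (cO v)).comp (intMap v)) ?_) ?_
  · intro x hx
    rw [RingHom.comp_apply, residue_eq_zero_iff, mem_maxIdeal_iff]
    change ‖algebraMap k v.comp (x : k)‖ < 1
    rw [norm_alg]
    exact hx
  · constructor
    · rw [injective_iff_map_eq_zero]
      intro x hx
      obtain ⟨a, rfl⟩ := Ideal.Quotient.mk_surjective x
      rw [Ideal.Quotient.lift_mk, RingHom.comp_apply, residue_eq_zero_iff, mem_maxIdeal_iff] at hx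
      rw [Ideal.Quotient.eq_zero_iff_mem]
      change ‖algebraMap k v.comp (a : k)‖ < 1 at hx
      rw [norm_alg] at hx
      exact hx
    · intro y
      obtain ⟨x, rfl⟩ := residue_surjective y
      obtain ⟨a, ha⟩ := dense_alg v (x : v.comp) one_pos
      have hx1 : ‖(x : v.comp)‖ ≤ 1 := x.2
      have ha1 : v.abv a ≤ 1 := by
        rw [← norm_alg]
        have h1 : algebraMap k v.comp a = (x : v.comp) + (algebraMap k v.comp a - (x : v.comp)) := by
          ring
        rw [h1]
        refine (IsUltrametricDist.norm_add_le_max _ _).trans (max_le hx1 ?_)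
        rw [norm_sub_rev]
        exact ha.le
      refine ⟨Ideal.Quotient.mk _ ⟨a, ha1⟩, ?_⟩
      rw [Ideal.Quotient.lift_mk, RingHom.comp_apply, ← sub_eq_zero, ← map_sub,
        residue_eq_zero_iff, mem_maxIdeal_iff]
      change ‖algebraMap k v.comp a - (x : v.comp)‖ < 1
      rw [norm_sub_rev]
      exact ha

instance finite_res : Finite (ResidueField (cO v)) := by
  have := v.normalized.1
  exact Finite.of_equiv _ (resEquiv v).toEquiv

theorem card_res : qq v = Nat.card (ResidueField (cO v)) := Nat.card_congr (resEquiv v).toEquiv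

end

end Vale.Agent.P011.H279
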