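import Vale.Agent.P011.Hey.Sys
import Vale.Agent.P011.H279.HeyB2

/-!
# P011 (helper279): `LocFacts` and the finiteness of the places of bounded degree
-/

open Module IsLocalRing Vale.Agent.P011.Hey Vale.Agent.P011.H738 Vale.Agent.P011.H271

namespace Vale.Agent.P011.H279

variable {k : Type} [Field k]

/-- a global function field has prime characteristic -/
theorem char_prime (k : Type) [Field k] [hk : GFF k] : (ringChar k).Prime := by
  obtain ⟨F, _, _, φ, -⟩ := hk.out
  have hp : Nat.Prime (ringChar F) := CharP.char_is_prime F (ringChar F)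
  have h1 : Function.Injective (φ.comp (algebraMap F (RatFunc F))) := RingHom.injective _
  have h2 : CharP k (ringChar F) := charP_of_injective_ringHom h1 (ringChar F)
  rwa [ringChar.eq k (ringChar F)] 

theorem ringChar_res [GFF k] (v : Place k) :
    ringChar (ResidueField (cO v)) = ringChar k := by
  have hp := char_prime k
  have h1 : ((ringChar k : ℕ) : ResidueField (cO v)) = 0 := by
    have h2 : ((ringChar k : ℕ) : cO v) = 0 := by
      apply Subtype.ext
      have h3 : ((((ringChar k : ℕ) : cO v)) : v.comp) = ((ringChar k : ℕ) : v.comp) :=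
        map_natCast (cO v).subtype _
      rw [h3, ← map_natCast (algebraMap k v.comp), ringChar.Nat.cast_ringChar, map_zero]
      rfl
    rw [← map_natCast (residue (cO v)), h2, map_zero]
  have h4 := ringChar.dvd h1
  rcases (Nat.dvd_prime hp).1 h4 with h5 | h5
  · exfalso
    have h6 := ringChar.Nat.cast_ringChar (R := ResidueField (cO v))
    rw [h5, Nat.cast_one] at h6
    exact one_ne_zero h6
  · exact h5

theorem exists_qq_eq [GFF k] (v : Place k) : ∃ e : ℕ, 0 < e ∧ qq v = ringChar k ^ e := by
  have := Fintype.ofFinite (ResidueField (cO v))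
  obtain ⟨n, hp, hn⟩ := FiniteField.card (ResidueField (cO v)) (ringChar (ResidueField (cO v)))
  refine ⟨n, n.2, ?_⟩
  rw [card_res, Nat.card_eq_fintype_card, hn, ringChar_res]

theorem qq_eq' [GFF k] (v : Place k) : qq v = ringChar k ^ dg v ∧ 0 < dg v := by
  obtain ⟨e, he, hq⟩ := exists_qq_eq v
  have h1 : dg v = e := by
    rw [dg, hq, Nat.log_pow (char_prime k).one_lt]
  rw [h1]
  exact ⟨hq, he⟩

theorem ind_mulR_of_eq {A F : Type*} [CommRing A] [IsDomain A] [Field F] [Algebra A F]
    [IsDiscreteValuationRing A] [IsFractionRing A F] [Finite (ResidueField A)] {n q : ℕ}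
    (hq : q = Nat.card (ResidueField A)) {N : Submodule A (Fin n → F)} (hN : N.IsLattice F)
    {ϖ : A} (hϖ : Irreducible ϖ) (z : F) (hz : algebraMap A F ϖ = z) :
    ind (mulR N (Matrix.scalar (Fin n) z)) q = ind N q - n := by
  subst hz
  exact ind_mulR_uniformizer hq hN hϖ

theorem algebraMap_varpi (v : Place k) :
    algebraMap (cO v) v.comp (varpi v) = algebraMap k v.comp (unif v) := by
  have h : algebraMap (cO v) v.comp (varpi v) = ((varpi v : cO v) : v.comp) := rfl
  rw [h, coe_varpi]

/-- **the local facts** -/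
theorem locFacts (k : Type) [Field k] [GFF k] (n : ℕ) : LocFacts k n where
  qq_eq v := (qq_eq' v).1
  dg_pos v := (qq_eq' v).2
  char_gt := (char_prime k).one_lt
  ind_std v := ind_std' (qq v)
  ind_mono v N N' hN hN' h := ind_mono' (card_res v) hN hN' h
  rix_eq v N N' hN hN' h := rix_eq' (card_res v) hN hN' h
  ind_unif v N hN := by
    have h1 := ind_mulR_of_eq (A := cO v) (F := v.comp) (card_res v) hN (irreducible_varpi v) _
      (algebraMap_varpi v)
    exact h1

/-- an element which is not algebraic over the prime field -/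
theorem exists_pole' (k : Type) [Field k] [hk : GFF k] :
    ∃ f : k, f ≠ 0 ∧ ∀ m : ℕ, 1 < m → f ^ m - f ≠ 0 := by
  obtain ⟨F, _, _, φ, -⟩ := hk.out
  refine ⟨φ RatFunc.X, (map_ne_zero φ).2 RatFunc.X_ne_zero, fun m hm h => ?_⟩
  rw [← map_pow, ← map_sub, map_eq_zero, sub_eq_zero, ← RatFunc.algebraMap_X, ← map_pow] at h
  have h1 := RatFunc.algebraMap_injective F h
  have h2 := congrArg Polynomial.natDegree h1
  rw [Polynomial.natDegree_X_pow, Polynomial.natDegree_X] at h2
  omega

/-- **the places of bounded degree are finite in number** -/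
theorem hpl (k : Type) [Field k] [GFF k] (B : ℕ) : {v : Place k | dg v ≤ B}.Finite := by
  obtain ⟨f, hf0, hf⟩ := exists_pole' k
  have hp := char_prime k
  have h1 : ({v : Place k | v.abv f ≠ 1} ∪ ⋃ j ∈ Finset.Icc 1 B,
      {v : Place k | v.abv (f ^ ringChar k ^ j - f) ≠ 1}).Finite := by
    refine (place_finite hf0).union (Set.Finite.biUnion (Finset.finite_toSet _) fun j hj => ?_)
    have hj1 : 1 ≤ j := (Finset.mem_Icc.1 hj).1
    exact place_finite (hf _ (Nat.one_lt_pow (by omega) hp.one_lt))
  refine h1.subset fun v hv => ?_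
  have hv' : dg v ≤ B := hv
  rw [Set.mem_union]
  by_cases h2 : v.abv f = 1
  · right
    have h3 : dg v ∈ Finset.Icc 1 B := Finset.mem_Icc.2 ⟨(qq_eq' v).2, hv'⟩
    refine Set.mem_biUnion h3 ?_
    rw [Set.mem_ofPred_eq]
    intro h4
    have hfm : algebraMap k v.comp f ∈ cO v := alg_mem_cO.2 h2.le
    have h5 : (residue (cO v) ⟨algebraMap k v.comp f, hfm⟩) ^ (ringChar k ^ dg v) =
        residue (cO v) ⟨algebraMap k v.comp f, hfm⟩ := by
      have := Fintype.ofFinite (ResidueField (cO v))
      rw [← (qq_eq' v).1, card_res, Nat.card_eq_fintype_card]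
      exact FiniteField.pow_card _
    rw [← map_pow, ← sub_eq_zero, ← map_sub, residue_eq_zero_iff, mem_maxIdeal_iff] at h5
    have h6 : (((⟨algebraMap k v.comp f, hfm⟩ : cO v) ^ (ringChar k ^ dg v) -
        ⟨algebraMap k v.comp f, hfm⟩ : cO v) : v.comp) =
        algebraMap k v.comp (f ^ ringChar k ^ dg v - f) := by
      rw [map_sub, map_pow]
      rfl
    rw [h6, norm_alg, h4] at h5
    exact lt_irrefl _ h5
  · left
    exact h2

end Vale.Agent.P011.H279
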