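import Vale.Agent.P011.H279.SqrtA
import Vale.Agent.P011.Hey.Final
import Vale.Agent.P011.H961.SplitAE
import Vale.Agent.P011.H929.E.Model
import Vale.Agent.P011.H496.NumF
import Vale.Agent.P011.H167.RhoFA

/-!
A central division algebra of even degree over a global function field with an involution of the
second kind contains square roots of elements of the fixed field.
-/

set_option linter.unusedSectionVars false

open Module Polynomial TensorProduct

namespace Vale.Agent.P011.H279.Sq

open Vale.Agent.P011.H738 Vale.Agent.P011.H271 Vale.Agent.P011.H305 Vale.Agent.P011.W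
open Vale.Agent.P011.H63.FB (LSF exists_close norm_eq_of_close)

/-- **The theorem of Albert, Brauer, Hasse and Noether for splitting fields.** -/
theorem spl_of_local {K D : Type} [Field K] [DivisionRing D] [Algebra K D] [FiniteDimensional K D]
    [Algebra.IsCentral K D] {n : ℕ} (hD : finrank K D = n ^ 2) (E : Type) [Field E] [GFF E]
    [Algebra K E] (h : ∀ W : Place E, Spl D n ((algebraMap E W.comp).comp (algebraMap K E))) :
    Spl D n (algebraMap K E) := by
  obtain ⟨r, q, Δ, _, _, _, _, hrq, hr0, hΔ, hiff⟩ := H505.Wang.exists_part hD E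
  have hloc : ∀ W : Place E, Spl Δ q (algebraMap E W.comp) := fun W =>
    (hiff W.comp (algebraMap E W.comp)).mp (h W)
  have hq0 : 0 < q := deg_pos hΔ
  by_cases hq2 : 2 ≤ q
  · exact (Hey.abhn E Δ q hq2 hΔ (fun W => (hloc W).choose)
      (fun W c => (hloc W).choose_spec c)).elim
  · have hq1 : q = 1 := by omega
    subst hq1
    have h1 : Spl Δ 1 (algebraMap E E) := spl_of_maxfield hΔ (L := E) (finrank_self E)
      (Algebra.ofId E Δ)
    exact (hiff E (RingHom.id E)).mpr h1

section quad

open IntermediateField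

/-- Homomorphisms of a quadratic extension. -/
theorem exists_hom {F L M : Type} [Field F] [Field L] [Algebra F L] [Field M] [Algebra F M]
    (hL : finrank F L = 2) {t : L} {e : F} (he : ¬ IsSquare e) (ht : t ^ 2 = algebraMap F L e)
    {u : M} (hu : u ^ 2 = algebraMap F M e) : ∃ ψ : L →ₐ[F] M, ψ t = u := by
  have hfin : FiniteDimensional F L := Module.finite_of_finrank_pos (by rw [hL]; norm_num)
  have hint : IsIntegral F t := IsIntegral.of_finite F t
  have hnr : t ∉ (algebraMap F L).range := by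
    rintro ⟨c, hc⟩
    refine he ⟨c, (algebraMap F L).injective ?_⟩
    rw [← ht, ← hc, map_mul, pow_two]
  have h2 : 2 ≤ (minpoly F t).natDegree := (minpoly.two_le_natDegree_iff hint).mpr hnr
  have h3 : (minpoly F t).natDegree ≤ finrank F L := minpoly.natDegree_le t
  have h4 : (minpoly F t).natDegree = finrank F L := le_antisymm h3 (by rw [hL]; exact h2)
  have h5 : minpoly F t ∣ X ^ 2 - C e := minpoly.dvd F t (by
    rw [map_sub, map_pow, aeval_X, aeval_C, ht, sub_self])
  have h6 : X ^ 2 - C e = minpoly F t :=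
    eq_of_monic_of_dvd_of_natDegree_le (minpoly.monic hint) (monic_X_pow_sub_C e two_ne_zero) h5
      (by rw [natDegree_X_pow_sub_C, h4, hL])
  have h1 : F⟮t⟯ = ⊤ := (Field.primitive_element_iff_minpoly_natDegree_eq F t).mpr h4
  have h7 : aeval u (minpoly F (adjoin.powerBasis hint).gen) = 0 := by
    rw [adjoin.powerBasis_gen, minpoly_gen, ← h6, map_sub, map_pow, aeval_X, aeval_C, hu, sub_self]
  refine ⟨((adjoin.powerBasis hint).lift u h7).comp
    ((equivOfEq h1).symm.toAlgHom.comp (topEquiv (F := F) (E := L)).symm.toAlgHom), ?_⟩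
  have h8 : ((equivOfEq h1).symm.toAlgHom.comp (topEquiv (F := F) (E := L)).symm.toAlgHom) t =
      (adjoin.powerBasis hint).gen := by
    rw [adjoin.powerBasis_gen]
    rfl
  rw [AlgHom.comp_apply, h8, PowerBasis.lift_gen]

end quad

section global

variable {k K D : Type} [Field k] [Field K] [StarRing K] [DivisionRing D] [StarRing D]
  [Algebra k K] [Algebra k D] [Algebra K D] [IsScalarTower k K D] {d : kˣ} {s : K} {n : ℕ}

/-- Homomorphisms of `K` are determined by the images of `k` and of `s`. -/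
theorem hom_ext (hS : SetF k K D d s) {M : Type} [Field M] {f g : K →+* M}
    (h1 : ∀ c : k, f (algebraMap k K c) = g (algebraMap k K c)) (h2 : f s = g s) : f = g := by
  have h2K : (2 : K) ≠ 0 := by
    rw [← map_ofNat (algebraMap k K) 2]
    exact (_root_.map_ne_zero _).mpr hS.two_ne
  ext x
  obtain ⟨a, ha⟩ := (hS.fix (x + star x)).mp (by rw [star_add, star_star, add_comm])
  obtain ⟨b, hb⟩ := (hS.fix ((x - star x) / s)).mp (by
    rw [star_div₀, star_sub, star_star, hS.star_s, div_neg, neg_eq_iff_eq_neg, ← neg_div,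
      neg_sub])
  have hx : 2 * x = algebraMap k K a + algebraMap k K b * s := by
    rw [ha, hb, div_mul_cancel₀ _ hS.s_ne]
    ring
  have h3 : f (2 * x) = g (2 * x) := by
    rw [hx, map_add, map_mul, map_add, map_mul, h1, h1, h2]
  rw [map_mul, map_mul, map_ofNat, map_ofNat] at h3
  have h4 : (2 : M) ≠ 0 := by
    rw [← map_ofNat f 2]
    exact (_root_.map_ne_zero _).mpr h2K
  exact mul_left_cancel₀ h4 h3

/-- `c` is a uniformizer at `v`. -/
def Uni (v : Place k) (c : k) : Prop := c ≠ 0 ∧ v.abv c < 1 ∧ ∀ y : k, v.abv y < 1 → v.abv y ≤ v.abv c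

theorem Uni.comp [GFF k] {v : Place k} {c : k} (h : Uni v c) (y : v.comp) (hy : ‖y‖ < 1) :
    ‖y‖ ≤ ‖algebraMap k v.comp c‖ := by
  rcases eq_or_ne y 0 with rfl | hy0
  · rw [norm_zero]
    exact norm_nonneg _
  · obtain ⟨a, ha⟩ := exists_close v hy0
    have h1 := norm_eq_of_close ha
    rw [norm_alg] at h1 ⊢
    rw [← h1] at hy ⊢
    exact h.2.2 _ hy

theorem exists_uni [GFF k] (v : Place k) : ∃ c : k, Uni v c := by
  obtain ⟨x, hx0, hx⟩ := Hey.exists_unif v
  have h1 := one_lt_qq' v
  refine ⟨x, hx0, ?_, fun y hy => ?_⟩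
  · rw [hx]
    exact inv_lt_one_of_one_lt₀ h1
  · rw [hx]
    rcases eq_or_ne y 0 with rfl | hy0
    · rw [map_zero]
      positivity
    · obtain ⟨m, hm⟩ := exists_eq_zpow v hy0
      rw [hm] at hy ⊢
      have h2 : m < 0 := by
        by_contra hcon
        rw [not_lt] at hcon
        exact absurd hy (not_lt.mpr (one_le_zpow₀ h1.le hcon))
      calc (qq v : ℝ) ^ m ≤ (qq v : ℝ) ^ (-1 : ℤ) := zpow_le_zpow_right₀ h1.le (by omega)
        _ = (qq v : ℝ)⁻¹ := zpow_neg_one _

theorem Uni.near [GFF k] {v : Place k} {c c' : k} (h : Uni v c) (hc : v.abv (c' - c) < v.abv c) :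
    Uni v c' := by
  have h1 : v.abv c' = v.abv c := H63.FB.abv_eq_of_close hc
  refine ⟨?_, ?_, ?_⟩
  · intro h0
    rw [h0, map_zero, eq_comm, v.abv.eq_zero] at h1
    exact h.1 h1
  · rw [h1]; exact h.2.1
  · rw [h1]; exact h.2.2

/-- A uniformizer is not a square in the completion. -/
theorem Uni.not_sq [GFF k] {v : Place k} {c : k} (h : Uni v c) :
    ¬ IsSquare (algebraMap k v.comp c) := by
  rintro ⟨y, hy⟩
  have hc0 : algebraMap k v.comp c ≠ 0 := (_root_.map_ne_zero _).mpr h.1
  have h1 : ‖y‖ * ‖y‖ = v.abv c := by rw [← norm_mul, ← hy, norm_alg]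
  have hy1 : ‖y‖ < 1 := by
    by_contra hcon
    rw [not_lt] at hcon
    have h2 : 1 ≤ ‖y‖ * ‖y‖ := by nlinarith
    rw [h1] at h2
    exact absurd h.2.1 (not_lt.mpr h2)
  have h2 := h.comp y hy1
  rw [norm_alg, ← h1] at h2
  have hy0 : 0 < ‖y‖ := by
    rw [norm_pos_iff]
    rintro rfl
    rw [mul_zero] at hy
    exact hc0 hy
  nlinarith

/-- The bad places: the places of split type at which `D` does not split. -/
def Bad (k K D : Type) [Field k] [Field K] [DivisionRing D] [Algebra k K] [Algebra K D]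
    (n : ℕ) : Set (Place k) :=
  {v | ∃ ι : K →ₐ[k] v.comp, ¬ Spl D n (ι : K →+* v.comp)}

theorem bad_finite [GFF k] (hS : SetF k K D d s) (hn : n ≠ 0) (hdeg : finrank K D = n ^ 2) :
    (Bad k K D n).Finite := by
  have := hS.fin
  have := hS.cen
  obtain ⟨T, hT⟩ := H961.exists_split_ae (k := k) (K := K) (A := D) hS.fix hn hdeg
  refine T.finite_toSet.subset ?_
  rintro v ⟨ι, hι⟩
  by_contra hv
  obtain ⟨g, hg⟩ := @hT v (fun h => hv (Finset.mem_coe.mpr h)) v.comp (nnfPlace v) _ _
    (ι : K →+* v.comp) fun c => by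
      rw [AlgHom.coe_toRingHom, AlgHom.commutes]
      exact norm_alg v c
  exact hι ⟨g, hg⟩

/-- The splitting at a place of nonsplit type. -/
theorem spl_nonsplit [GFF k] (hS : SetF k K D d s) (hdeg : finrank K D = n ^ 2) {v : Place k}
    (hv : d ∉ LSF v) {M : Type} [Field M] (Φ : K →+* M) (φ : v.comp →+* M)
    (hφ : ∀ c : k, φ (algebraMap k v.comp c) = Φ (algebraMap k K c)) : Spl D n Φ := by
  obtain ⟨L, _, _, _, ρ, φL, G, -, hL2, -, -, -, hρ, -, hφL⟩ := H929.E.exists_model hS hdeg v hv
  let _ : Algebra v.comp M := φ.toAlgebra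
  have h1 : Spl D n φL :=
    ⟨(ρ : v.comp ⊗[k] D →+* Matrix (Fin n) (Fin n) L).comp
      ((Algebra.TensorProduct.includeRight : D →ₐ[k] v.comp ⊗[k] D) : D →+* v.comp ⊗[k] D),
      fun c => hρ c⟩
  obtain ⟨ψ, hψ⟩ := exists_hom (F := v.comp) (L := L) (M := M) hL2 (t := φL s)
    (e := algebraMap k v.comp d) hv (by rw [← map_pow, hS.sq, hφL]) (u := Φ s) (by
      rw [← map_pow, hS.sq]
      exact (hφ d).symm)
  have h2 := h1.comp (ψ : L →+* M)
  have h3 : (ψ : L →+* M).comp φL = Φ := by
    refine hom_ext hS (fun c => ?_) hψ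
    rw [RingHom.comp_apply, hφL]
    change ψ (algebraMap v.comp L (algebraMap k v.comp c)) = _
    rw [ψ.commutes]
    exact hφ c
  rwa [h3] at h2

/-- **The splitting at every place of an extension containing a root.** -/
theorem spl_place [GFF k] (hS : SetF k K D d s) (hdeg : finrank K D = n ^ 2) {c : k}
    (hc : ∀ v ∈ Bad k K D n, Uni v c) (E : Type) [Field E] [GFF E] [Algebra K E] [Algebra k E]
    [IsScalarTower k K E] [Algebra.IsAlgebraic k E]
    (hθ : ∀ W : Place E, (∃ v ∈ Bad k K D n, ∃ e : ℝ, 0 < e ∧ ∀ x : k,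
      W.abv (algebraMap k E x) = v.abv x ^ e) → ∃ θ : E, θ ^ n = algebraMap k E c)
    (W : Place E) : Spl D n ((algebraMap E W.comp).comp (algebraMap K E)) := by
  have := hS.fin
  have := hS.cen
  obtain ⟨v, e, he, hvW⟩ := Hey.H63.exists_below (k := k) W
  obtain ⟨φ, hφ⟩ := Hey.H63.exists_compHom v W he hvW
  have hφ' : ∀ c : k, φ (algebraMap k v.comp c) =
      ((algebraMap E W.comp).comp (algebraMap K E)) (algebraMap k K c) := by
    intro c
    rw [hφ, RingHom.comp_apply, ← IsScalarTower.algebraMap_apply k K E]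
  by_cases hv : d ∈ LSF v
  · obtain ⟨r, hr⟩ := hv
    have hΦs : ((algebraMap E W.comp).comp (algebraMap K E)) s ^ 2 = φ r ^ 2 := by
      rw [← map_pow, hS.sq, ← hφ', hr, map_mul, pow_two]
    obtain ⟨r', hr', hrs⟩ : ∃ r' : v.comp, r' ^ 2 = algebraMap k v.comp d ∧
        φ r' = ((algebraMap E W.comp).comp (algebraMap K E)) s := by
      rcases sq_eq_sq_iff_eq_or_eq_neg.mp hΦs with h | h
      · exact ⟨r, by rw [hr, pow_two], h.symm⟩
      · exact ⟨-r, by rw [neg_sq, hr, pow_two], by rw [map_neg, h]⟩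
    obtain ⟨ι, hι⟩ := exists_hom (F := k) (L := K) (M := v.comp) hS.rank hS.ns hS.sq hr'
    have hcomp : φ.comp (ι : K →+* v.comp) = (algebraMap E W.comp).comp (algebraMap K E) := by
      refine hom_ext hS (fun c => ?_) ?_
      · rw [RingHom.comp_apply]
        change φ (ι (algebraMap k K c)) = _
        rw [ι.commutes, hφ']
      · rw [RingHom.comp_apply]
        change φ (ι s) = _
        rw [hι, hrs]
    by_cases hsp : Spl D n (ι : K →+* v.comp)
    · have h1 := hsp.comp φ
      rwa [hcomp] at h1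
    · have hbad : v ∈ Bad k K D n := ⟨ι, hsp⟩
      have hu := hc v hbad
      obtain ⟨θ, hθ1⟩ := hθ W ⟨v, hbad, e, he, hvW⟩
      let _ : NontriviallyNormedField v.comp := nnfPlace v
      have h1 := spl_step (F := v.comp) (M := W.comp) hdeg (ι : K →+* v.comp)
        (c := algebraMap k v.comp c) ((_root_.map_ne_zero _).mpr hu.1)
        (by
          have h2 := hu.2.1
          rw [← norm_alg] at h2
          exact h2)
        (fun y hy => hu.comp y hy) φ (θ := algebraMap E W.comp θ) (by
          rw [← map_pow, hθ1, hφ])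
      rwa [hcomp] at h1
  · exact spl_nonsplit hS hdeg hv _ φ hφ'

end global

end Vale.Agent.P011.H279.Sq
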