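import Vale.Agent.P011.H279.NoRootN

/-!
Roots of uniformizers in division algebras with an involution of the second kind over global
function fields, every characteristic.
-/

set_option linter.unusedSectionVars false

open Module Polynomial

namespace Vale.Agent.P011.H279.Art

open Vale.Agent.P011.H738 Vale.Agent.P011.H271 Vale.Agent.P011.W Vale.Agent.P011.H279.Sq
open Vale.Agent.P011.H961 (SetG)

variable {k K D : Type} [Field k] [Field K] [StarRing K] [DivisionRing D] [StarRing D]
  [Algebra k K] [Algebra k D] [Algebra K D] [IsScalarTower k K D] {n : ℕ}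

/-- The splitting at a bad place by the roots of a uniformizer. -/
theorem spl_uni [GFF k] (hS : SetG k K D) (hdeg : finrank K D = n ^ 2) {v : Place k}
    (ι : K →ₐ[k] v.comp) {c : k} (hc : Uni v c) {M : Type} [Field M] (φ : v.comp →+* M) {θ : M}
    (hθ : θ ^ n = φ (algebraMap k v.comp c)) : Spl D n (φ.comp (ι : K →+* v.comp)) := by
  have := hS.fin
  have := hS.cen
  let _ : NontriviallyNormedField v.comp := nnfPlace v
  have hc1 : ‖algebraMap k v.comp c‖ < 1 := by
    have h3 : ‖algebraMap k v.comp c‖ = v.abv c := norm_alg v _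
    rw [h3]
    exact hc.2.1
  exact spl_step hdeg (ι : K →+* v.comp) ((_root_.map_ne_zero _).mpr hc.1) hc1
    (fun y hy => hc.comp y hy) φ hθ

/-- **Roots in `D`, every characteristic.** If `c` is a uniformizer at the places of split type at
which `D` does not split, then `X ^ n - c` is the minimal polynomial of an element of `D`. -/
theorem exists_nth_rootG [GFF k] (hS : SetG k K D) (hdeg : finrank K D = n ^ 2)
    {c : k} (hc : ∀ v ∈ Bad k K D n, Uni v c) :
    ∃ y : D, y ^ n = algebraMap K D (algebraMap k K c) ∧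
      minpoly K y = X ^ n - C (algebraMap k K c) ∧
      Irreducible (X ^ n - C (algebraMap k K c) : K[X]) := by
  have := hS.fin
  have := hS.cen
  have := hS.finK
  have hn0 : 0 < n := deg_pos hdeg
  have hn : n ≠ 0 := hn0.ne'
  have hP : (X ^ n - C (algebraMap k K c) : K[X]).natDegree ≠ 0 := by
    rw [natDegree_X_pow_sub_C]
    exact hn
  have hPm : (X ^ n - C (algebraMap k K c) : K[X]).Monic := monic_X_pow_sub_C _ hn
  have hP0 : (X ^ n - C (algebraMap k K c) : K[X]) ≠ 0 := hPm.ne_zero
  obtain ⟨f, hf, hfP⟩ := exists_irreducible_of_natDegree_ne_zero hP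
  have : Fact (Irreducible f) := ⟨hf⟩
  have hfin : FiniteDimensional K (AdjoinRoot f) := (AdjoinRoot.powerBasis hf.ne_zero).finite
  have hrk : finrank K (AdjoinRoot f) = f.natDegree := by
    rw [(AdjoinRoot.powerBasis hf.ne_zero).finrank, AdjoinRoot.powerBasis_dim]
  have hle : f.natDegree ≤ n := by
    have h1 := natDegree_le_of_dvd hfP hP0
    rwa [natDegree_X_pow_sub_C] at h1
  have : FiniteDimensional k (AdjoinRoot f) := Module.Finite.trans K (AdjoinRoot f)
  have : GFF (AdjoinRoot f) := Hey.H63.gff_of_finite (k := k)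
  have hθ : (AdjoinRoot.root f) ^ n = algebraMap K (AdjoinRoot f) (algebraMap k K c) := by
    have h1 : aeval (AdjoinRoot.root f) (X ^ n - C (algebraMap k K c) : K[X]) = 0 := by
      obtain ⟨g, hg⟩ := hfP
      rw [hg, map_mul]
      have h2 : aeval (AdjoinRoot.root f) f = 0 := by
        rw [AdjoinRoot.aeval_eq, AdjoinRoot.mk_self]
      rw [h2, zero_mul]
    rwa [map_sub, map_pow, aeval_X, aeval_C, sub_eq_zero] at h1
  have hspl : Spl D n (algebraMap K (AdjoinRoot f)) := spl_of_local hdeg _ fun W =>
    spl_placeG hS hdeg (AdjoinRoot f) W (by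
      intro v ι φ hv hφ
      refine spl_uni hS hdeg ι (hc v hv) φ
        (θ := algebraMap (AdjoinRoot f) W.comp (AdjoinRoot.root f)) ?_
      rw [← map_pow, hθ]
      have h3 := RingHom.congr_fun hφ (algebraMap k K c)
      rw [RingHom.comp_apply, RingHom.comp_apply] at h3
      rw [← h3]
      congr 1
      exact ι.commutes c)
  have h3 := H505.Wang.dvd_of_spl hdeg _ hspl
  have h4 : finrank K (AdjoinRoot f) = n := by
    refine le_antisymm (by rw [hrk]; exact hle) (Nat.le_of_dvd ?_ h3)
    rw [hrk]
    exact hf.natDegree_pos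
  obtain ⟨j⟩ := embed_of_spl hdeg h4 hspl
  -- the polynomial is irreducible
  have hirr : Irreducible (X ^ n - C (algebraMap k K c) : K[X]) := by
    obtain ⟨g, hg⟩ := hfP
    have h5 : g.natDegree = 0 := by
      have h6 := congrArg natDegree hg
      have hg0 : g ≠ 0 := by
        rintro rfl
        rw [mul_zero] at hg
        exact hP0 hg
      rw [natDegree_mul hf.ne_zero hg0, natDegree_X_pow_sub_C] at h6
      rw [hrk] at h4
      omega
    have hg0 : g ≠ 0 := by
      rintro rfl
      rw [mul_zero] at hg
      exact hP0 hg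
    have hgu : IsUnit g := by
      rw [eq_C_of_natDegree_eq_zero h5] at hg0 ⊢
      exact isUnit_C.mpr (isUnit_iff_ne_zero.mpr fun h => hg0 (by rw [h, C_0]))
    rw [hg]
    exact (irreducible_mul_isUnit hgu).mpr hf
  have hy : j (AdjoinRoot.root f) ^ n = algebraMap K D (algebraMap k K c) := by
    rw [← map_pow, hθ, j.commutes]
  refine ⟨j (AdjoinRoot.root f), hy, ?_, hirr⟩
  refine (minpoly.eq_of_irreducible_of_monic hirr ?_ hPm).symm
  rw [map_sub, map_pow, aeval_X, aeval_C, hy, sub_self]

/-- A uniformizer at the bad places, prescribed at other places. -/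
theorem exists_uniG [GFF k] (hS : SetG k K D) (hdeg : finrank K D = n ^ 2)
    (S : Finset (Place k)) (b : Place k → k) {ε : ℝ} (hε : 0 < ε) :
    ∃ c : k, (∀ v ∈ Bad k K D n, Uni v c) ∧ ∀ v ∈ S, v ∉ Bad k K D n → v.abv (c - b v) < ε := by
  classical
  have hn : n ≠ 0 := by
    have := hS.fin
    exact (deg_pos hdeg).ne'
  have hbf := bad_finiteG hS hn hdeg
  choose π hπ using fun v : Place k => exists_uni v
  obtain ⟨q, hq⟩ := H167.RhoF.exists_notMem (k := k) (hbf.toFinset ∪ S)
  obtain ⟨c, hc, -⟩ := H496.NumF.near_int_fam (S := ((hbf.toFinset ∪ S : Finset (Place k)) :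
    Set (Place k))) (Finset.finite_toSet _) q (fun h => hq (Finset.mem_coe.mp h))
    (fun v => if v ∈ Bad k K D n then π v else b v)
    (fun v => if v ∈ Bad k K D n then v.abv (π v) else ε) (by
      intro v _
      split_ifs
      · exact v.abv.pos (hπ v).1
      · exact hε)
  refine ⟨c, fun v hv => ?_, fun v hv hvb => ?_⟩
  · have h1 := hc v (by
      rw [Finset.coe_union, Set.mem_union, Finset.mem_coe, hbf.mem_toFinset]
      exact Or.inl hv)
    simp only [if_pos hv] at h1
    exact (hπ v).near h1
  · have h1 := hc v (by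
      rw [Finset.coe_union, Set.mem_union]
      exact Or.inr (Finset.mem_coe.mpr hv))
    simp only [if_neg hvb] at h1
    exact h1

end Vale.Agent.P011.H279.Art
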