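import Vale.Agent.P011.H279.X2C
import Vale.Agent.P011.H169.C2.Cent
import Vale.Agent.P011.H308.L2.Final
import Vale.Agent.P011.H167.CnB
import Vale.Agent.P011.Two.MainTwo

/-!
Symmetric Artin-Schreier elements of division algebras of even degree over global function fields
of characteristic two.
-/

open Module

set_option linter.unusedSectionVars false

namespace Vale.Agent.P011.H279.X2

open Vale.Agent.P011.H738 Vale.Agent.P011.H271 Vale.Agent.P011.W Vale.Agent.P011.H279.Sq
open Vale.Agent.P011.H279.Art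
open Vale.Agent.P011.H961 (SetG)
open Vale.Agent.P011.H477.C2 (nf nf_mul)
open Vale.Agent.P011.H169.C2 (IsCent2 exists_isCent2D)
open Vale.Agent.P011.Two (twistStar)

/-- The norm of an Artin-Schreier extension. -/
theorem norm_art {F E : Type} [Field F] [Field E] [Algebra F E] (h2 : (2 : F) = 0)
    (hE : finrank F E = 2) {a : F} {T : E} (hT : T * T + T = algebraMap F E a)
    (hT' : ∀ c : F, algebraMap F E c ≠ T) (u v : F) :
    Algebra.norm F (algebraMap F E u + algebraMap F E v * T) = nf a u v := by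
  have : FiniteDimensional F E := Module.finite_of_finrank_pos (by rw [hE]; exact two_pos)
  have h2E : (2 : E) = 0 := by rw [← map_ofNat (algebraMap F E) 2, h2, map_zero]
  have hli : LinearIndependent F ![(1 : E), T] := by
    rw [LinearIndependent.pair_iff]
    intro x y hxy
    have hy : y = 0 := by
      by_contra hy
      apply hT' (-x / y)
      have hy' : algebraMap F E y ≠ 0 := (_root_.map_ne_zero _).mpr hy
      rw [Algebra.smul_def, Algebra.smul_def, mul_one] at hxy
      rw [map_div₀, map_neg, div_eq_iff hy']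
      linear_combination -hxy
    subst hy
    rw [zero_smul, add_zero, smul_eq_zero] at hxy
    exact ⟨hxy.resolve_right one_ne_zero, rfl⟩
  let b : Basis (Fin 2) F E := basisOfLinearIndependentOfCardEqFinrank hli (by simp [hE])
  have hb0 : b 0 = 1 := by simp [b]
  have hb1 : b 1 = T := by simp [b]
  have hrepr : ∀ x y : F, b.repr (algebraMap F E x + algebraMap F E y * T) 0 = x ∧
      b.repr (algebraMap F E x + algebraMap F E y * T) 1 = y := by
    intro x y
    have h1 : algebraMap F E x + algebraMap F E y * T = x • b 0 + y • b 1 := by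
      rw [hb0, hb1, Algebra.smul_def, Algebra.smul_def, mul_one]
    rw [h1, map_add, map_smul, map_smul, b.repr_self, b.repr_self]
    constructor <;> simp
  rw [Algebra.norm_eq_matrix_det b, Matrix.det_fin_two]
  simp only [Algebra.leftMulMatrix_eq_repr_mul, hb0, hb1, mul_one]
  have h3 : (algebraMap F E u + algebraMap F E v * T) * T =
      algebraMap F E (a * v) + algebraMap F E (u + v) * T := by
    rw [map_mul, map_add, ← hT]
    linear_combination (-algebraMap F E v * T) * h2E
  rw [h3, (hrepr _ _).1, (hrepr _ _).2, (hrepr _ _).1, (hrepr _ _).2, nf]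
  linear_combination (- a * v ^ 2) * h2

section tor

variable {k K D : Type} [Field k] [GFF k] [Field K] [StarRing K] [DivisionRing D] [StarRing D]
  [Algebra k K] [Algebra k D] [Algebra K D] [IsScalarTower k K D]

/-- Symmetric elements commuting with a symmetric Artin-Schreier element, with given reduced
norm. -/
theorem exists_tor (hS : SetG k K D) (h2 : (2 : k) = 0) {m : ℕ} (hm : 0 < m)
    (hdeg : finrank K D = (2 * m) ^ 2) {Ω : Type} [Field Ω] [Algebra K Ω]
    (f : D →ₐ[K] Matrix (Fin (2 * m)) (Fin (2 * m)) Ω) {κ : K} (hκ : star κ = κ + 1) {ν : k}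
    (hν : κ * κ + κ = algebraMap k K ν) {a : k} (ha : ∀ z : k, z * z + z ≠ a)
    (haν : ∀ z : k, z * z + z ≠ a + ν) {x : D} (hxs : star x = x)
    (hx : x * x + x = algebraMap k D a) {p q : k} (hpq : nf a p q ≠ 0) :
    ∃ y : D, star y = y ∧ y ≠ 0 ∧ y * x = x * y ∧
      (f y).det = algebraMap K Ω (algebraMap k K (nf a p q)) := by
  have i1 := hS.fin
  have i2 := hS.cen
  have i5 := hS.finK
  have hK : GFF K := Hey.H63.gff_of_finite (k := k)
  have hKinf : Infinite K := Vale.Agent.P011.Hey.gff_infinite K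
  obtain ⟨L, _, _, _, K', _, _, _, _, C, _, _, _, _, _, _, T, j, hSC, hdC, h⟩ :=
    exists_isCent2D (m := m) h2 hS hdeg hxs hx ha
  have i3 := hSC.fin
  have i4 := hSC.cen
  have i6 := hSC.starModule
  obtain ⟨g'⟩ := H268.exists_split_sepClosed (K := K') (A := C) (E := AlgebraicClosure K') hdC
  obtain ⟨l, hl⟩ : ∃ l, l = algebraMap k L p + algebraMap k L q * T := ⟨_, rfl⟩
  obtain ⟨c, hcs, hcN⟩ := H308.C2.exists_sym_nrdG (hSC.anis hdC) hm.ne' g' l
  have h2K : (2 : K) = 0 := by rw [← map_ofNat (algebraMap k K) 2, h2, map_zero]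
  have hTK' : algebraMap L K' T * algebraMap L K' T + algebraMap L K' T =
      algebraMap K K' (algebraMap k K a) := by
    rw [← map_mul, ← map_add, h.sqT, ← h.comp]
  have hTne : ∀ c : K, algebraMap K K' c ≠ algebraMap L K' T := by
    intro c hc
    refine root_ne hS h2 hκ hν ha haν hx c ?_
    rw [← h.jK, hc, ← IsScalarTower.algebraMap_apply, h.jT]
  have h1 := H167.Cn.det_cent hdeg hdC (by rw [h.rkK]) j h.jK f g' hcN
  have hnorm : Algebra.norm K (algebraMap L K' l) = algebraMap k K (nf a p q) := by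
    rw [hl, map_add, map_mul, ← h.comp, ← h.comp, norm_art h2K h.rkK hTK' hTne]
    simp only [nf, map_add, map_mul, map_pow]
  rw [hnorm] at h1
  refine ⟨j c, ?_, ?_, h.comm c, h1⟩
  · rw [← h.star c, hcs]
  · intro h0
    have : Nonempty (Fin (2 * m)) := ⟨⟨0, by omega⟩⟩
    rw [h0, map_zero, Matrix.det_zero] at h1
    have h3 := (_root_.map_eq_zero _).mp h1.symm
    exact hpq ((_root_.map_eq_zero _).mp h3)

/-- The letters of the twisted involution. -/
theorem setting_twistG (hS : SetG k K D) {g : D} (hg : star g = g) (hg0 : g ≠ 0) :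
    @SetG k K D _ _ _ _ (twistStar hg hg0) _ _ := by
  refine @SetG.mk k K D _ _ _ _ (twistStar hg hg0) _ _ hS.fix hS.star_ne hS.fin hS.cen ?_
  intro x y
  change g * star (x • y) * g⁻¹ = star x • (g * star y * g⁻¹)
  rw [hS.star_smul, mul_smul_comm, smul_mul_assoc]

/-- **Symmetric Artin-Schreier elements**: if `a` is of the form `x * x + x` in a division algebra
of even degree, then `x` may be taken symmetric, as soon as `a` is small at finitely many
nonsplit places. -/
theorem exists_symm (hS : SetG k K D) (h2 : (2 : k) = 0) {m : ℕ} (hm : 0 < m)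
    (hdeg : finrank K D = (2 * m) ^ 2) {κ : K} (hκ : star κ = κ + 1) {ν : k}
    (hν : κ * κ + κ = algebraMap k K ν) :
    ∃ S : Set (Place k), S.Finite ∧ ∀ (a : k) (x : D), x * x + x = algebraMap k D a →
      (∀ z : k, z * z + z ≠ a) → (∀ z : k, z * z + z ≠ a + ν) →
      (∀ v ∈ S, IsEmpty (K →ₐ[k] v.comp) → v.abv a < 1) →
      ∃ t : D, star t = t ∧ t * t + t = algebraMap k D a := by
  have i1 := hS.fin
  have i2 := hS.cen
  have i5 := hS.finK
  have hK : GFF K := Hey.H63.gff_of_finite (k := k)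
  have hKinf : Infinite K := Vale.Agent.P011.Hey.gff_infinite K
  obtain ⟨f⟩ := H268.exists_split_sepClosed (K := K) (A := D) (E := AlgebraicClosure K) hdeg
  obtain ⟨S, hSf, hS2⟩ := exists_ref hS h2 hdeg f hκ hν
  have hfin : {v : Place k | 1 < v.abv ν}.Finite := by
    rcases eq_or_ne ν 0 with rfl | hc
    · refine Set.finite_empty.subset fun v hv => ?_
      rw [Set.mem_ofPred_eq, map_zero] at hv
      exact absurd hv (by norm_num)
    · exact (place_finite hc).subset fun v hv => ne_of_gt hv
  refine ⟨S ∪ {v | 1 < v.abv ν}, hSf.union hfin, fun a x hx ha haν hcond => ?_⟩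
  have hxK := root_ne hS h2 hκ hν ha haν hx
  obtain ⟨g, hg0, hg, hgx⟩ := exists_sig hS h2 hx hxK
  obtain ⟨r, hr0, hr⟩ := exists_nrdG hS hdeg f hg hg0
  obtain ⟨p, q, z, w, hpq, hzw, hN⟩ := exists_mu h2 (a := a) (ν := ν) hr0 (by
    intro v hvν hva
    have hemp : IsEmpty (K →ₐ[k] v.comp) := by
      refine ⟨fun ι => hvν (ι κ) ?_⟩
      rw [← map_mul, ← map_add, hν, ι.commutes]
    have hv : v ∉ S ∪ {v | 1 < v.abv ν} := by
      intro hvS
      obtain ⟨z, hz⟩ := exists_wp_of_small h2 (hcond v hvS hemp)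
      exact hva z hz
    rw [Set.mem_union, not_or, Set.mem_ofPred_eq, not_lt] at hv
    exact ⟨hv.2, fun hz => hS2 v hv.1 hemp a x g hx hxK hz hg hg0 hgx r hr⟩)
  -- the twisted involution
  have hg' : star g⁻¹ = g⁻¹ := by rw [star_inv₀, hg]
  have hg0' : g⁻¹ ≠ 0 := inv_ne_zero hg0
  have hxs' : @star D (twistStar hg' hg0').toStar x = x := by
    change g⁻¹ * star x * g⁻¹⁻¹ = x
    rw [inv_inv, mul_assoc, ← hgx, ← mul_assoc, inv_mul_cancel₀ hg0, one_mul]
  obtain ⟨y, hys, hy0, hyx, hy⟩ :=
    @exists_tor k K D _ _ _ _ _ (twistStar hg' hg0') _ _ _ _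
      (setting_twistG hS hg' hg0') h2 m hm hdeg _ _ _ f κ hκ ν hν a ha haν x hxs' hx p q hpq
  change g⁻¹ * star y * g⁻¹⁻¹ = y at hys
  rw [inv_inv] at hys
  have hsy : star y = g * y * g⁻¹ := by
    have h1 : g * (g⁻¹ * star y * g) * g⁻¹ = star y := by
      rw [mul_assoc g⁻¹, mul_inv_cancel_left₀ hg0, mul_assoc, mul_inv_cancel₀ hg0, mul_one]
    rw [← h1, hys]
  obtain ⟨c, hc⟩ : ∃ c, c = g * y := ⟨_, rfl⟩
  have hcs : star c = c := by
    rw [hc, star_mul, hsy, hg, mul_assoc, inv_mul_cancel₀ hg0, mul_one]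
  have hc0 : c ≠ 0 := by rw [hc]; exact mul_ne_zero hg0 hy0
  have hcx : c * x = star x * c := by
    rw [hc, mul_assoc, hyx, ← mul_assoc, hgx, mul_assoc]
  have hfixk : ∀ b : k, star (algebraMap k K b) = algebraMap k K b := hS.star_algebraMap
  obtain ⟨t, ht0, ht⟩ := H308.L2.landG hS hdeg f (c := 1) (e := c) (star_one D) hcs one_ne_zero
    hc0 (z := algebraMap k K z + algebraMap k K w * κ) (by
      rw [hc, map_mul, Matrix.det_mul, hr, hy, ← map_mul, ← map_mul, hN, map_one,
        Matrix.det_one, one_mul]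
      congr 1
      rw [star_add, star_mul', hfixk, hfixk, hκ]
      have h2K : (2 : K) = 0 := by rw [← map_ofNat (algebraMap k K) 2, h2, map_zero]
      simp only [nf, map_add, map_mul, map_pow]
      rw [← hν]
      linear_combination (-(algebraMap k K z * algebraMap k K w * κ)) * h2K)
  rw [mul_one] at ht
  have hst0 : star t ≠ 0 := star_ne_zero.mpr ht0
  refine ⟨star t * x * (star t)⁻¹, ?_, ?_⟩
  · have h1 : star (star t * x * (star t)⁻¹) = t⁻¹ * (star x * t) := by
      rw [star_mul, star_mul, star_inv₀, star_star]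
    have h2 : star x * t * star t = t * (star t * x) := by
      rw [mul_assoc, ← ht, ← hcx, ht, mul_assoc]
    rw [h1, eq_mul_inv_iff_mul_eq₀ hst0, mul_assoc, h2, ← mul_assoc, inv_mul_cancel₀ ht0, one_mul]
  · calc star t * x * (star t)⁻¹ * (star t * x * (star t)⁻¹) + star t * x * (star t)⁻¹ =
        star t * x * ((star t)⁻¹ * star t) * (x * (star t)⁻¹) + star t * x * (star t)⁻¹ := by
          simp only [mul_assoc]
      _ = star t * (x * x + x) * (star t)⁻¹ := by
        rw [inv_mul_cancel₀ hst0, mul_one]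
        noncomm_ring
      _ = algebraMap k D a := by
        rw [hx, ← Algebra.commutes, mul_assoc, mul_inv_cancel₀ hst0, mul_one]

/-- **(X) in characteristic two, division algebras**: symmetric Artin-Schreier elements exist in
every even degree, and may be taken with `a` small at given nonsplit places. -/
theorem exists_t2D (hS : SetG k K D) (h2 : (2 : k) = 0) {m : ℕ}
    (hdeg : finrank K D = (2 * m) ^ 2) (hm : 0 < m) {κ : K} (hκ : star κ = κ + 1) {ν : k}
    (hν : κ * κ + κ = algebraMap k K ν) (S₁ : Finset (Place k)) {ε : ℝ} (hε : 0 < ε) :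
    ∃ (a : k) (t : D), star t = t ∧ t * t + t = algebraMap k D a ∧
      (∀ z : k, z * z + z ≠ a) ∧ (∀ z : k, z * z + z ≠ a + ν) ∧
      ∀ v ∈ S₁, IsEmpty (K →ₐ[k] v.comp) → v.abv a < ε := by
  classical
  obtain ⟨S, hSf, h⟩ := exists_symm hS h2 hm hdeg hκ hν
  obtain ⟨a, x, hx, ha, haν, hclose⟩ := exists_artF hS h2 hdeg hm hν (hSf.toFinset ∪ S₁)
    (fun _ => 0) (lt_min hε one_pos)
  rw [← IsScalarTower.algebraMap_apply] at hx
  obtain ⟨t, ht1, ht2⟩ := h a x hx ha haν (fun v hv hemp => by
    have h1 := hclose v (Finset.mem_union_left _ (hSf.mem_toFinset.mpr hv)) hemp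
    rw [sub_zero] at h1
    exact h1.trans_le (min_le_right _ _))
  refine ⟨a, t, ht1, ht2, ha, haν, fun v hv hemp => ?_⟩
  have h1 := hclose v (Finset.mem_union_right _ hv) hemp
  rw [sub_zero] at h1
  exact h1.trans_le (min_le_left _ _)

end tor

end Vale.Agent.P011.H279.X2
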