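import Vale.Agent.P011.H279.SqrtA
import Vale.Agent.P011.Hey.H63.Hensel

/-!
Quadratic elements of local central division algebras in characteristic two.
-/

set_option linter.unusedSectionVars false

open Module Polynomial

namespace Vale.Agent.P011.H279.Art

open Vale.Agent.P011.Even.LocDiv Vale.Agent.P011.W Vale.Agent.P011.H279.Sq

theorem sum_two_mul {M : Type*} [AddCommMonoid M] (f : ℕ → M) (h : ℕ) :
    ∑ i ∈ Finset.range (2 * h), f i =
      ∑ i ∈ Finset.range h, f (2 * i) + ∑ i ∈ Finset.range h, f (2 * i + 1) := by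
  induction h with
  | zero => simp
  | succ h ih =>
    rw [Nat.mul_succ, Finset.sum_range_succ, Finset.sum_range_succ, ih, Finset.sum_range_succ,
      Finset.sum_range_succ]
    abel

section half

variable {k E : Type} [NontriviallyNormedField k] [NormedDivisionRing E] [NormedAlgebra k E]
  {R : Frame E} {W : Type} [Field W] [Algebra k W] (C : Cyc k E W R) [IsUltrametricDist E]

theorem T_mul (c : k) (w : W) : C.T (algebraMap k W c * w) = algebraMap k W c * C.T w := by
  rw [Cyc.T, Cyc.T, Finset.mul_sum]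
  exact Finset.sum_congr rfl fun i _ => by rw [C.σ_mul, C.σ_alg]

/-- The relative trace of an element of trace one. -/
theorem exists_half {h : ℕ} (hm : C.m = 2 * h) : ∃ w : W, C.σ w = 1 - w ∧ ‖C.ι w‖ ≤ 1 := by
  obtain ⟨l, τ, hτ, hτ1⟩ := C.exists_trace
  have hτ0 : τ ≠ 0 := by
    rintro rfl
    rw [norm_zero] at hτ1
    exact zero_ne_one hτ1
  obtain ⟨θ, hθ⟩ : ∃ θ : W, θ = algebraMap k W τ⁻¹ * C.ω ^ l := ⟨_, rfl⟩
  have hT : C.T θ = 1 := by
    rw [hθ, T_mul, ← hτ, ← map_mul, inv_mul_cancel₀ hτ0, map_one]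
  have hn : ∀ i, ‖C.ι (C.σ^[i] θ)‖ ≤ 1 := by
    intro i
    rw [C.norm_σ, hθ, map_mul, norm_mul, C.norm_alg, C.norm_ω, norm_inv, hτ1, inv_one, one_mul]
  obtain ⟨w, hw⟩ : ∃ w : W, w = ∑ i ∈ Finset.range h, C.σ^[2 * i] θ := ⟨_, rfl⟩
  have hσw : C.σ w = ∑ i ∈ Finset.range h, C.σ^[2 * i + 1] θ := by
    rw [hw, map_sum]
    exact Finset.sum_congr rfl fun i _ => (Function.iterate_succ_apply' _ _ _).symm
  refine ⟨w, ?_, ?_⟩
  · have h1 : w + C.σ w = 1 := by
      rw [hw, ← hw, hσw, hw, ← sum_two_mul (fun i => C.σ^[i] θ), ← hm]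
      exact hT
    rw [← h1]
    ring
  · rw [hw, map_sum]
    exact norm_sum_le' _ _ zero_le_one fun i _ => hn _

end half

section locfield

variable {k : Type} [NormedField k] [IsUltrametricDist k] [CompleteSpace k]

/-- Hensel's lemma for `z ^ 2 + z`. -/
theorem hensel_art {e : k} (he : ‖e‖ < 1) : ∃ z : k, z * z + z = e ∧ ‖z‖ < 1 := by
  have heO : -e ∈ Hey.H63.OK k := by
    rw [Hey.H63.mem_OK, norm_neg]
    exact he.le
  obtain ⟨P, hP⟩ : ∃ P : (Hey.H63.OK k)[X], P = X ^ 2 + X + C ⟨-e, heO⟩ := ⟨_, rfl⟩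
  have h0 : P.coeff 0 = ⟨-e, heO⟩ := by
    rw [hP]
    simp [coeff_X_pow]
  have h1 : P.coeff 1 = 1 := by
    rw [hP]
    simp [coeff_X_pow]
  obtain ⟨z, hz, hev⟩ := Hey.H63.hensel P (by rw [h0]; change ‖-e‖ < 1; rwa [norm_neg])
    (by rw [h1]; exact norm_one)
  refine ⟨z, ?_, hz⟩
  rw [hP, eval_add, eval_add, eval_pow, eval_X, eval_C] at hev
  have h2 := congrArg (fun x : Hey.H63.OK k => (x : k)) hev
  change (z : k) ^ 2 + z + -e = 0 at h2
  linear_combination h2

end locfield

section two

variable {k : Type} [NontriviallyNormedField k] [IsUltrametricDist k] [ProperSpace k]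

/-- The Artin-Schreier map of the residue field. -/
noncomputable def wp (h2 : (2 : k) = 0) : Res k →+ Res k where
  toFun x := x * x + x
  map_zero' := by rw [mul_zero, add_zero]
  map_add' x y := by
    have h3 : (2 : Res k) = 0 := by
      have h4 : (2 : ringO k) = 0 := by
        apply Subtype.ext
        exact h2
      have h5 := congrArg (Ideal.Quotient.mk (idealM k)) h4
      rwa [map_zero, map_ofNat] at h5
    have h6 : x * y + y * x = 2 * (x * y) := by ring
    have h7 : (x + y) * (x + y) + (x + y) = (x * x + x) + (y * y + y) + (x * y + y * x) := by ring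
    rw [h7, h6, h3, zero_mul, add_zero]

/-- The sum of two integers outside the image of the Artin-Schreier map is in the image. -/
theorem index_two (h2 : (2 : k) = 0) {a b : k} (ha : ‖a‖ ≤ 1) (hb : ‖b‖ ≤ 1)
    (ha' : ∀ z : k, z * z + z ≠ a) (hb' : ∀ z : k, z * z + z ≠ b) :
    ∃ z : k, z * z + z = a + b := by
  have hwp : ∀ x : Res k, wp h2 x = x * x + x := fun x => rfl
  -- lifting
  have hlift : ∀ c : ringO k, Ideal.Quotient.mk (idealM k) c ∈ (wp h2).range →
      ∃ z : k, z * z + z = (c : k) := by
    rintro c ⟨x, hx⟩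
    obtain ⟨z, rfl⟩ := Ideal.Quotient.mk_surjective x
    rw [hwp, ← map_mul, ← map_add, Ideal.Quotient.eq, mem_idealM] at hx
    obtain ⟨t, ht, -⟩ := hensel_art hx
    refine ⟨(z : k) + t, ?_⟩
    have h3 : ((z * z + z - c : ringO k) : k) = (z : k) * z + z - c := rfl
    rw [h3] at ht
    have h4 : ((z : k) + t) * (z + t) + (z + t) = (z * z + z) + (t * t + t) + 2 * (z * t) := by ring
    rw [h4, ht, h2]
    linear_combination ((z : k) * z + z - c) * h2
  -- the index
  have hker : Nat.card (wp h2).ker = 2 := by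
    rw [Nat.card_eq_two_iff]
    refine ⟨⟨0, by rw [AddMonoidHom.mem_ker, map_zero]⟩, ⟨1, ?_⟩, ?_, ?_⟩
    · rw [AddMonoidHom.mem_ker, hwp, mul_one]
      have h4 : (2 : ringO k) = 0 := by
        apply Subtype.ext
        exact h2
      have h5 := congrArg (Ideal.Quotient.mk (idealM k)) h4
      rw [map_zero, map_ofNat] at h5
      rw [← h5]
      norm_num
    · intro h
      exact zero_ne_one (congrArg Subtype.val h)
    · rw [Set.eq_univ_iff_forall]
      rintro ⟨x, hx⟩
      rw [AddMonoidHom.mem_ker, hwp] at hx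
      rw [Set.mem_insert_iff, Set.mem_singleton_iff]
      have h3 : x * (x + 1) = 0 := by rw [mul_add, mul_one]; exact hx
      rcases res_isUnit_or k x with h4 | h4
      · right
        apply Subtype.ext
        change x = 1
        have h5 : x + 1 = 0 := (h4.mul_right_eq_zero).mp h3
        have h6 : (2 : Res k) = 0 := by
          have h4 : (2 : ringO k) = 0 := by
            apply Subtype.ext
            exact h2
          have h5 := congrArg (Ideal.Quotient.mk (idealM k)) h4
          rwa [map_zero, map_ofNat] at h5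
        linear_combination h5 - h6
      · left
        apply Subtype.ext
        exact h4
  have hidx : (wp h2).range.index = 2 := by
    have e1 : Nat.card (wp h2).ker * Nat.card (wp h2).range = Nat.card (Res k) := by
      rw [← AddSubgroup.index_ker, AddSubgroup.card_mul_index]
    have e2 : Nat.card (wp h2).range * (wp h2).range.index = Nat.card (Res k) :=
      AddSubgroup.card_mul_index _
    have hne : Nonempty (wp h2).range := ⟨⟨0, ⟨0, map_zero _⟩⟩⟩
    have hpos : 0 < Nat.card (wp h2).range := Nat.card_pos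
    rw [hker] at e1
    have e3 : Nat.card (wp h2).range * (wp h2).range.index = Nat.card (wp h2).range * 2 := by
      rw [e2, ← e1, mul_comm]
    exact Nat.eq_of_mul_eq_mul_left hpos e3
  obtain ⟨z, hz⟩ := hlift (⟨a, ha⟩ + ⟨b, hb⟩) (by
    rw [map_add, AddSubgroup.add_mem_iff_of_index_two hidx]
    have h3 : Ideal.Quotient.mk (idealM k) ⟨a, ha⟩ ∉ (wp h2).range := by
      intro h
      obtain ⟨z, hz⟩ := hlift _ h
      exact ha' z hz
    have h4 : Ideal.Quotient.mk (idealM k) ⟨b, hb⟩ ∉ (wp h2).range := by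
      intro h
      obtain ⟨z, hz⟩ := hlift _ h
      exact hb' z hz
    exact ⟨fun h => absurd h h3, fun h => absurd h h4⟩)
  exact ⟨z, hz⟩

/-- There are integers outside the image of the Artin-Schreier map. -/
theorem exists_notMem_wp (h2 : (2 : k) = 0) : ∃ a : k, ‖a‖ ≤ 1 ∧ ∀ z : k, ‖z * z + z - a‖ < 1 → False := by
  have hwp : ∀ x : Res k, wp h2 x = x * x + x := fun x => rfl
  have hns : ¬ Function.Surjective (wp h2) := by
    intro hs
    have hi : Function.Injective (wp h2) := Finite.injective_iff_surjective.mpr hs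
    have h3 : wp h2 1 = wp h2 0 := by
      rw [hwp, hwp, mul_one, mul_zero, add_zero]
      have h4 : (2 : ringO k) = 0 := by
        apply Subtype.ext
        exact h2
      have h5 := congrArg (Ideal.Quotient.mk (idealM k)) h4
      rw [map_zero, map_ofNat] at h5
      rw [← h5]
      norm_num
    exact one_ne_zero (hi h3)
  rw [Function.Surjective] at hns
  push Not at hns
  obtain ⟨x, hx⟩ := hns
  obtain ⟨a, rfl⟩ := Ideal.Quotient.mk_surjective x
  refine ⟨a, a.2, fun z hz => ?_⟩
  have hz1 : ‖z‖ ≤ 1 := by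
    by_contra hcon
    rw [not_le] at hcon
    have h3 : ‖z + 1‖ = ‖z‖ := by
      rw [IsUltrametricDist.norm_add_eq_max_of_norm_ne_norm (by rw [norm_one]; exact hcon.ne'),
        norm_one, max_eq_left hcon.le]
    have h4 : ‖z * z + z‖ = ‖z‖ * ‖z‖ := by
      have e : z * z + z = z * (z + 1) := by ring
      rw [e, norm_mul, h3]
    have h5 : 1 < ‖z‖ * ‖z‖ := by nlinarith
    have h6 : ‖z * z + z‖ ≤ 1 := by
      have e : z * z + z = (z * z + z - a) + a := by ring
      rw [e]
      exact (IsUltrametricDist.norm_add_le_max _ _).trans (max_le hz.le a.2)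
    rw [h4] at h6
    linarith
  apply hx (Ideal.Quotient.mk _ ⟨z, hz1⟩)
  rw [hwp, ← map_mul, ← map_add, Ideal.Quotient.eq, mem_idealM]
  exact hz

end two

section divalg

variable {k E : Type} [NontriviallyNormedField k] [IsUltrametricDist k] [ProperSpace k]
  [DivisionRing E] [Algebra k E] [FiniteDimensional k E] [Algebra.IsCentral k E]

/-- A local central division algebra of even degree contains an Artin-Schreier element. -/
theorem exists_elt {q : ℕ} (hq : finrank k E = q ^ 2) (hev : Even q) (h2 : (2 : k) = 0) :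
    ∃ (y : E) (a : k), y * y + y = algebraMap k E a ∧ ‖a‖ ≤ 1 ∧ ∀ z : k, z * z + z ≠ a := by
  let _ : NormedDivisionRing E := ndr k
  let _ : NormedAlgebra k E :=
    { (inferInstance : Algebra k E) with
      norm_smul_le := fun c x => by
        change nm k (c • x) ≤ ‖c‖ * nm k x
        rw [Algebra.smul_def, nm_mul, nm_algebraMap] }
  have hU : IsUltrametricDist E := IsUltrametricDist.isUltrametricDist_of_forall_norm_add_le_max_norm
    (fun x y => nm_add_le_max k x y)
  have : ProperSpace E := FiniteDimensional.proper k E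
  obtain ⟨c, hc0, hc1⟩ := NormedField.exists_norm_lt_one k
  have hc : ‖algebraMap k E c‖ = ‖c‖ := nm_algebraMap k c
  have hcne : algebraMap k E c ≠ 0 := by
    rw [← norm_ne_zero_iff, hc]
    exact hc0.ne'
  obtain ⟨R⟩ := exists_frame (algebraMap k E c) hcne (by rw [hc]; exact hc1)
  obtain ⟨W, _, _, _, ⟨C⟩⟩ := exists_cyc (k := k) R
  have hm : C.m = q := m_eq C hq
  obtain ⟨h, hh⟩ := hev
  obtain ⟨w, hw, hw1⟩ := exists_half C (h := h) (by omega)
  have h2W : (2 : W) = 0 := by rw [← map_ofNat (algebraMap k W) 2, h2, map_zero]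
  have h2E : (2 : E) = 0 := by rw [← map_ofNat (algebraMap k E) 2, h2, map_zero]
  obtain ⟨a, ha⟩ := C.exists_base (w := w * w + w) (by
    rw [map_add, map_mul, hw]
    linear_combination (1 - 2 * w) * h2W)
  have hya : C.ι w * C.ι w + C.ι w = algebraMap k E a := by
    rw [← map_mul, ← map_add, ← ha, C.ι.commutes]
  refine ⟨C.ι w, a, hya, ?_, fun z hz => ?_⟩
  · have hna : ‖algebraMap k E a‖ = ‖a‖ := nm_algebraMap k a
    rw [← hna, ← hya]
    refine (IsUltrametricDist.norm_add_le_max _ _).trans (max_le ?_ hw1)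
    rw [norm_mul]
    exact mul_le_one₀ hw1 (norm_nonneg _) hw1
  · have h3 : (w - algebraMap k W z) * (w - algebraMap k W z + 1) = 0 := by
      have h4 : algebraMap k W z * algebraMap k W z + algebraMap k W z = algebraMap k W a := by
        rw [← map_mul, ← map_add, hz]
      linear_combination (-1 : W) * ha - h4 + (algebraMap k W z * algebraMap k W z -
        algebraMap k W z * w) * h2W
    have h5 : C.σ w = w := by
      rcases mul_eq_zero.mp h3 with h6 | h6
      · have h7 : w = algebraMap k W z := by linear_combination h6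
        rw [h7, C.σ.commutes]
      · have h7 : w = algebraMap k W (z - 1) := by
          rw [map_sub, map_one]
          linear_combination h6
        rw [h7, C.σ.commutes]
    rw [h5] at hw
    have h6 : (1 : W) = 0 := by linear_combination (-1 : W) * hw + w * h2W
    exact one_ne_zero h6

end divalg

end Vale.Agent.P011.H279.Art
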