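import Vale.Agent.P011.H279.ArtA

/-!
Splitting of local central division algebras in characteristic two by a quadratic extension
followed by the extraction of a root of a uniformizer.
-/

set_option linter.unusedSectionVars false
set_option linter.style.haveILetI false

open Module Polynomial

namespace Vale.Agent.P011.H279.Art

open Vale.Agent.P011.Even.LocDiv Vale.Agent.P011.W Vale.Agent.P011.H279.Sq

section quad

open IntermediateField

/-- The coordinates of a quadratic extension. -/
theorem exists_rep {F L : Type} [Field F] [Field L] [Algebra F L] (hL : finrank F L = 2) {t : L}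
    (ht : t ∉ (algebraMap F L).range) (u : L) :
    ∃ α β : F, u = algebraMap F L α + algebraMap F L β * t := by
  have hli : LinearIndependent F ![(1 : L), t] := by
    rw [LinearIndependent.pair_iff]
    intro a b hab
    rw [Algebra.smul_def, mul_one, Algebra.smul_def] at hab
    have hb : b = 0 := by
      by_contra hb
      refine ht ⟨-(a / b), ?_⟩
      have hb' : algebraMap F L b ≠ 0 := (_root_.map_ne_zero _).mpr hb
      rw [map_neg, map_div₀]
      field_simp
      linear_combination -hab
    subst hb
    rw [map_zero, zero_mul, add_zero, map_eq_zero] at hab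
    exact ⟨hab, rfl⟩
  have hsp := hli.span_eq_top_of_card_eq_finrank (by rw [hL]; rfl)
  have hu : u ∈ Submodule.span F (Set.range ![(1 : L), t]) := by rw [hsp]; trivial
  rw [Matrix.range_cons, Matrix.range_cons, Matrix.range_empty, Set.union_empty,
    Set.singleton_union, Submodule.mem_span_pair] at hu
  obtain ⟨α, β, h⟩ := hu
  refine ⟨α, β, ?_⟩
  rw [← h, Algebra.smul_def, Algebra.smul_def, mul_one]

/-- Homomorphisms of a quadratic extension. -/
theorem exists_hom' {F L M : Type} [Field F] [Field L] [Algebra F L] [Field M] [Algebra F M]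
    (hL : finrank F L = 2) {t : L} (ht : t ∉ (algebraMap F L).range) {P : F[X]} (hP : P.Monic)
    (hd : P.natDegree = 2) (h1 : aeval t P = 0) {u : M} (hu : aeval u P = 0) :
    ∃ ψ : L →ₐ[F] M, ψ t = u := by
  have hfin : FiniteDimensional F L := Module.finite_of_finrank_pos (by rw [hL]; norm_num)
  have hint : IsIntegral F t := IsIntegral.of_finite F t
  have h2 : 2 ≤ (minpoly F t).natDegree := (minpoly.two_le_natDegree_iff hint).mpr ht
  have h3 : (minpoly F t).natDegree ≤ finrank F L := minpoly.natDegree_le t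
  have h4 : (minpoly F t).natDegree = finrank F L := le_antisymm h3 (by rw [hL]; exact h2)
  have h5 : minpoly F t ∣ P := minpoly.dvd F t h1
  have h6 : P = minpoly F t :=
    eq_of_monic_of_dvd_of_natDegree_le (minpoly.monic hint) hP h5 (by rw [hd, h4, hL])
  have h1 : F⟮t⟯ = ⊤ := (Field.primitive_element_iff_minpoly_natDegree_eq F t).mpr h4
  have h7 : aeval u (minpoly F (adjoin.powerBasis hint).gen) = 0 := by
    rw [adjoin.powerBasis_gen, minpoly_gen, ← h6, hu]
  refine ⟨((adjoin.powerBasis hint).lift u h7).comp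
    ((equivOfEq h1).symm.toAlgHom.comp (topEquiv (F := F) (E := L)).symm.toAlgHom), ?_⟩
  have h8 : ((equivOfEq h1).symm.toAlgHom.comp (topEquiv (F := F) (E := L)).symm.toAlgHom) t =
      (adjoin.powerBasis hint).gen := by
    rw [adjoin.powerBasis_gen]
    rfl
  rw [AlgHom.comp_apply, h8, PowerBasis.lift_gen]

/-- The Artin-Schreier polynomial. -/
noncomputable def ap {F : Type} [Field F] (a : F) : F[X] := X ^ 2 + (X - C a)

theorem ap_monic {F : Type} [Field F] (a : F) : (ap a).Monic := by
  refine monic_X_pow_add ?_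
  rw [degree_X_sub_C]
  norm_num

theorem ap_deg {F : Type} [Field F] (a : F) : (ap a).natDegree = 2 := by
  have h1 : (X ^ 2 + (X - C a) : F[X]).natDegree = (X ^ 2 : F[X]).natDegree := by
    refine natDegree_add_eq_left_of_natDegree_lt ?_
    rw [natDegree_X_sub_C, natDegree_X_pow]
    norm_num
  rw [ap, h1, natDegree_X_pow]

theorem aeval_ap {F M : Type} [Field F] [Field M] [Algebra F M] {a : F} {u : M} :
    aeval u (ap a) = 0 ↔ u * u + u = algebraMap F M a := by
  rw [ap, map_add, map_sub, map_pow, aeval_X, aeval_C, pow_two]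
  constructor
  · intro h
    linear_combination h
  · intro h
    linear_combination h

theorem ap_irr {F : Type} [Field F] {a : F} (ha : ∀ z : F, z * z + z ≠ a) : Irreducible (ap a) := by
  have hm := ap_monic a
  rw [hm.irreducible_iff_roots_eq_zero_of_degree_le_three (by rw [ap_deg]) (by rw [ap_deg]; norm_num)]
  by_contra hcon
  obtain ⟨z, hz⟩ := Multiset.exists_mem_of_ne_zero hcon
  rw [mem_roots hm.ne_zero, IsRoot.def] at hz
  refine ha z ?_
  have h1 : aeval z (ap a) = 0 := by rw [← hz]; rfl
  rw [aeval_ap] at h1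
  exact h1

/-- The quadratic extension. -/
theorem exists_quad {F : Type} [Field F] {a : F} (ha : ∀ z : F, z * z + z ≠ a) :
    ∃ (L : Type) (_ : Field L) (_ : Algebra F L) (x : L), finrank F L = 2 ∧
      x * x + x = algebraMap F L a := by
  have : Fact (Irreducible (ap a)) := ⟨ap_irr ha⟩
  refine ⟨AdjoinRoot (ap a), inferInstance, inferInstance, AdjoinRoot.root _, ?_, ?_⟩
  · rw [(AdjoinRoot.powerBasis (ap_irr ha).ne_zero).finrank, AdjoinRoot.powerBasis_dim, ap_deg]
  · rw [← aeval_ap, AdjoinRoot.aeval_eq, AdjoinRoot.mk_self]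

theorem notMem_range {F L : Type} [Field F] [Field L] [Algebra F L] {a : F}
    (ha : ∀ z : F, z * z + z ≠ a) {x : L} (hx : x * x + x = algebraMap F L a) :
    x ∉ (algebraMap F L).range := by
  rintro ⟨z, rfl⟩
  refine ha z ((algebraMap F L).injective ?_)
  rw [map_add, map_mul, hx]

end quad

section unr

variable {F : Type} [NontriviallyNormedField F] [IsUltrametricDist F] [ProperSpace F]

/-- The quadratic extension is unramified. -/
theorem norm_unr (h2 : (2 : F) = 0) {a : F} (ha1 : ‖a‖ ≤ 1) (ha : ∀ z : F, z * z + z ≠ a)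
    {L : Type} [Field L] [Algebra F L] (hL : finrank F L = 2) {x : L}
    (hx : x * x + x = algebraMap F L a) (u : L) :
    ∃ e : F, spectralNorm F L u = ‖e‖ := by
  haveI : FiniteDimensional F L := Module.finite_of_finrank_pos (by rw [hL]; norm_num)
  have hxr := notMem_range ha hx
  have h2L : (2 : L) = 0 := by rw [← map_ofNat (algebraMap F L) 2, h2, map_zero]
  obtain ⟨σ, hσ⟩ := exists_hom' hL hxr (ap_monic a) (ap_deg a) (aeval_ap.mpr hx) (u := x + 1)
    (by rw [aeval_ap, ← hx]; linear_combination (x + 1) * h2L)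
  letI iN : NontriviallyNormedField L := spectralNorm.nontriviallyNormedField F L
  letI iA : NormedSpace F L := spectralNorm.normedSpace F L
  haveI : IsUltrametricDist L :=
    IsUltrametricDist.isUltrametricDist_of_forall_norm_add_le_max_norm fun x y =>
      isNonarchimedean_spectralNorm x y
  have hnorm : ∀ y : L, ‖y‖ = spectralNorm F L y := fun _ => rfl
  have hext : ∀ y : F, ‖algebraMap F L y‖ = ‖y‖ := fun y => spectralNorm_extends y
  have hbij : Function.Bijective σ := Algebra.IsAlgebraic.algHom_bijective σ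
  have hσn : ∀ y : L, ‖σ y‖ = ‖y‖ := fun y => by
    rw [hnorm, hnorm]
    exact (spectralNorm_eq_of_equiv (AlgEquiv.ofBijective σ hbij) y).symm
  have hx1 : ‖x‖ ≤ 1 := by
    by_contra hcon
    rw [not_le] at hcon
    have h3 : ‖x + 1‖ = ‖x‖ := by rw [← hσ, hσn]
    have h4 : ‖x‖ * ‖x‖ ≤ 1 := by
      have e : x * (x + 1) = algebraMap F L a := by rw [← hx]; ring
      rw [← h3]
      nth_rewrite 1 [h3]
      rw [← norm_mul, e, hext]
      exact ha1
    nlinarith
  obtain ⟨α, β, rfl⟩ := exists_rep hL hxr u
  rcases eq_or_ne β 0 with rfl | hβ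
  · exact ⟨α, by rw [map_zero, zero_mul, add_zero]; exact hext α⟩
  · have hβ' : algebraMap F L β ≠ 0 := (_root_.map_ne_zero _).mpr hβ
    obtain ⟨γ, hγ⟩ : ∃ γ : F, γ = α / β := ⟨_, rfl⟩
    have hu : algebraMap F L α + algebraMap F L β * x =
        algebraMap F L β * (algebraMap F L γ + x) := by
      rw [hγ, map_div₀]
      field_simp
    have key : ∃ e : F, ‖algebraMap F L γ + x‖ = ‖e‖ := by
      rcases lt_or_ge 1 ‖γ‖ with h | h
      · refine ⟨γ, ?_⟩
        have h3 : ‖algebraMap F L γ‖ ≠ ‖x‖ := by
          rw [hext]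
          exact (hx1.trans_lt h).ne'
        rw [IsUltrametricDist.norm_add_eq_max_of_norm_ne_norm h3, hext,
          max_eq_left (hx1.trans h.le)]
      · refine ⟨1, ?_⟩
        rw [norm_one]
        have h3 : ‖algebraMap F L γ + x‖ ≤ 1 :=
          (IsUltrametricDist.norm_add_le_max _ _).trans (max_le (by rw [hext]; exact h) hx1)
        refine le_antisymm h3 (not_lt.mp fun h4 => ?_)
        have h5 : ‖algebraMap F L γ + (x + 1)‖ < 1 := by
          have h6 := hσn (algebraMap F L γ + x)
          rw [map_add, σ.commutes, hσ] at h6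
          rw [h6]
          exact h4
        have h6 : (1 : L) = (algebraMap F L γ + (x + 1)) + -(algebraMap F L γ + x) := by ring
        have h7 : ‖(1 : L)‖ < 1 := by
          rw [h6]
          refine (IsUltrametricDist.norm_add_le_max _ _).trans_lt (max_lt h5 ?_)
          rwa [norm_neg]
        rw [norm_one] at h7
        exact lt_irrefl _ h7
    obtain ⟨e, he⟩ := key
    refine ⟨β * e, ?_⟩
    rw [← hnorm, hu, norm_mul, hext, he, norm_mul]

/-- **Splitting of a local division algebra in characteristic two.** -/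
theorem spl_art {Δ : Type} [DivisionRing Δ] [Algebra F Δ] [FiniteDimensional F Δ]
    [Algebra.IsCentral F Δ] {q m : ℕ} (hΔ : finrank F Δ = q ^ 2) (hqm : q ∣ 2 * m)
    (h2 : (2 : F) = 0) {a : F} (ha1 : ‖a‖ ≤ 1) (ha : ∀ z : F, z * z + z ≠ a) {c : F}
    (hc0 : c ≠ 0) (hc1 : ‖c‖ < 1) (hcm : ∀ y : F, ‖y‖ < 1 → ‖y‖ ≤ ‖c‖) {M : Type} [Field M]
    [Algebra F M] {x θ : M} (hx : x * x + x = algebraMap F M a)
    (hθ : θ ^ m = algebraMap F M c) : Spl Δ q (algebraMap F M) := by
  rcases Nat.even_or_odd q with hev | hod
  · obtain ⟨h, hh⟩ := hev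
    have hhm : h ∣ m := by
      have h3 : 2 * h ∣ 2 * m := by rwa [two_mul, ← hh]
      exact (Nat.mul_dvd_mul_iff_left (by norm_num)).mp h3
    obtain ⟨L, _, _, t, hL, ht⟩ := exists_quad ha
    haveI : FiniteDimensional F L := Module.finite_of_finrank_pos (by rw [hL]; norm_num)
    have htr := notMem_range ha ht
    obtain ⟨j0, hj0⟩ := exists_hom' hL htr (ap_monic a) (ap_deg a) (aeval_ap.mpr ht) (u := x)
      (aeval_ap.mpr hx)
    obtain ⟨r, q', Δ', _, _, _, _, hrq, hr0, hΔ', hiff⟩ := H505.Wang.exists_part hΔ L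
    -- the maximal subfield
    obtain ⟨y, a0, hy, ha01, ha0⟩ := exists_elt hΔ ⟨h, hh⟩ h2
    obtain ⟨z, hz⟩ := index_two h2 ha01 ha1 ha0 ha
    have hy' : (y + algebraMap F Δ z) * (y + algebraMap F Δ z) + (y + algebraMap F Δ z) =
        algebraMap F Δ a := by
      have h2Δ : (2 : Δ) = 0 := by rw [← map_ofNat (algebraMap F Δ) 2, h2, map_zero]
      have e1 : algebraMap F Δ z * y = y * algebraMap F Δ z := Algebra.commutes z y
      have e2 : algebraMap F Δ z * algebraMap F Δ z + algebraMap F Δ z =
          algebraMap F Δ a0 + algebraMap F Δ a := by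
        rw [← map_mul, ← map_add, hz, map_add]
      have e3 : (y + algebraMap F Δ z) * (y + algebraMap F Δ z) + (y + algebraMap F Δ z) =
          (y * y + y) + (algebraMap F Δ z * algebraMap F Δ z + algebraMap F Δ z) +
            (y * algebraMap F Δ z + algebraMap F Δ z * y) := by noncomm_ring
      rw [e3, hy, e2, e1, ← two_mul, h2Δ, zero_mul, add_zero, ← add_assoc, ← two_mul, h2Δ,
        zero_mul, zero_add]
    obtain ⟨P, _, _, _, j, u, hP, hu⟩ := exists_maxfield hΔ (y + algebraMap F Δ z)
    have hu' : u * u + u = algebraMap F P a := by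
      apply j.injective
      change j (u * u + u) = j (algebraMap F P a)
      rw [map_add, map_mul, hu, hy', j.commutes]
    obtain ⟨ψ, hψ⟩ := exists_hom' hL htr (ap_monic a) (ap_deg a) (aeval_ap.mpr ht) (u := u)
      (aeval_ap.mpr hu')
    have hq'h : q' ∣ h := by
      letI : Algebra L P := ψ.toAlgebra
      haveI : IsScalarTower F L P := IsScalarTower.of_algebraMap_eq fun w => (ψ.commutes w).symm
      haveI : FiniteDimensional L P := Module.Finite.of_restrictScalars_finite F L P
      have h3 : finrank L P = h := by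
        have h4 := finrank_mul_finrank F L P
        rw [hL, hP, hh, ← two_mul] at h4
        exact Nat.eq_of_mul_eq_mul_left (by norm_num) h4
      have h5 : Spl Δ q (algebraMap F P) := spl_of_maxfield hΔ hP j
      have h6 : Spl Δ' q' (algebraMap L P) := by
        rw [← hiff, ← IsScalarTower.algebraMap_eq]
        exact h5
      have h7 := H505.Wang.dvd_of_spl hΔ' P h6
      rwa [h3] at h7
    obtain ⟨m', hm'⟩ := hq'h.trans hhm
    letI : Algebra L M := j0.toAlgebra
    haveI : IsScalarTower F L M := IsScalarTower.of_algebraMap_eq fun w => (j0.commutes w).symm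
    letI iN : NontriviallyNormedField L := spectralNorm.nontriviallyNormedField F L
    letI iA : NormedSpace F L := spectralNorm.normedSpace F L
    haveI : IsUltrametricDist L :=
      IsUltrametricDist.isUltrametricDist_of_forall_norm_add_le_max_norm fun x y =>
        isNonarchimedean_spectralNorm x y
    haveI : ProperSpace L := FiniteDimensional.proper F L
    have hext : ∀ y : F, ‖algebraMap F L y‖ = ‖y‖ := fun y => spectralNorm_extends y
    have h8 : Spl Δ' q' (algebraMap L M) := by
      refine spl_root hΔ' (c := algebraMap F L c) ((_root_.map_ne_zero _).mpr hc0) ?_ ?_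
        (θ := θ ^ m') ?_
      · rw [hext]
        exact hc1
      · intro w hw
        obtain ⟨e, he⟩ := norm_unr h2 ha1 ha hL ht w
        have he' : ‖w‖ = ‖e‖ := he
        rw [he'] at hw ⊢
        rw [hext]
        exact hcm e hw
      · rw [← pow_mul, mul_comm, ← hm', hθ, ← IsScalarTower.algebraMap_apply F L M]
    have h9 := (hiff M (algebraMap L M)).mpr h8
    rwa [← IsScalarTower.algebraMap_eq] at h9
  · have h3 : q ∣ m := by
      have h4 : Nat.Coprime q 2 := Nat.coprime_two_right.mpr hod
      exact h4.dvd_of_dvd_mul_left hqm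
    obtain ⟨t, rfl⟩ := h3
    exact spl_root hΔ hc0 hc1 hcm (θ := θ ^ t) (by rw [← pow_mul, mul_comm, hθ])

end unr

end Vale.Agent.P011.H279.Art
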