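import Vale.Agent.P011.H279.SplG

/-!
Artin-Schreier elements of division algebras with an involution of the second kind over global
function fields of characteristic two.
-/

set_option linter.unusedSectionVars false

open Module Polynomial

namespace Vale.Agent.P011.H279.Art

open Vale.Agent.P011.H738 Vale.Agent.P011.H271 Vale.Agent.P011.W Vale.Agent.P011.H279.Sq
open Vale.Agent.P011.H961 (SetG)
open Vale.Agent.P011.Even.LocDiv (exists_gen)

/-- The extension. -/
theorem exists_ext {K : Type} [Field K] {a c : K} (ha : ∀ z : K, z * z + z ≠ a) {m : ℕ}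
    (hm : m ≠ 0) : ∃ (E : Type) (_ : Field E) (_ : Algebra K E) (_ : FiniteDimensional K E)
      (x θ : E), x * x + x = algebraMap K E a ∧ θ ^ m = algebraMap K E c ∧
      finrank K E ≤ 2 * m := by
  obtain ⟨L, _, _, x, hL, hx⟩ := exists_quad ha
  have hfinL : FiniteDimensional K L := Module.finite_of_finrank_pos (by rw [hL]; norm_num)
  have hP : (X ^ m - C (algebraMap K L c) : L[X]).natDegree ≠ 0 := by
    rw [natDegree_X_pow_sub_C]
    exact hm
  have hP0 : (X ^ m - C (algebraMap K L c) : L[X]) ≠ 0 := (monic_X_pow_sub_C _ hm).ne_zero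
  obtain ⟨f, hf, hfP⟩ := exists_irreducible_of_natDegree_ne_zero hP
  have : Fact (Irreducible f) := ⟨hf⟩
  have hfin : FiniteDimensional L (AdjoinRoot f) := (AdjoinRoot.powerBasis hf.ne_zero).finite
  have hrk : finrank L (AdjoinRoot f) = f.natDegree := by
    rw [(AdjoinRoot.powerBasis hf.ne_zero).finrank, AdjoinRoot.powerBasis_dim]
  have hle : f.natDegree ≤ m := by
    have h1 := natDegree_le_of_dvd hfP hP0
    rwa [natDegree_X_pow_sub_C] at h1
  have hfK : FiniteDimensional K (AdjoinRoot f) := Module.Finite.trans L (AdjoinRoot f)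
  refine ⟨AdjoinRoot f, inferInstance, inferInstance, hfK, algebraMap L (AdjoinRoot f) x,
    AdjoinRoot.root f, ?_, ?_, ?_⟩
  · rw [← map_mul, ← map_add, hx, ← IsScalarTower.algebraMap_apply K L (AdjoinRoot f)]
  · have h1 : aeval (AdjoinRoot.root f) (X ^ m - C (algebraMap K L c) : L[X]) = 0 := by
      obtain ⟨g, hg⟩ := hfP
      rw [hg, map_mul]
      have h2 : aeval (AdjoinRoot.root f) f = 0 := by
        rw [AdjoinRoot.aeval_eq, AdjoinRoot.mk_self]
      rw [h2, zero_mul]
    rw [map_sub, map_pow, aeval_X, aeval_C, sub_eq_zero] at h1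
    rw [h1, ← IsScalarTower.algebraMap_apply K L (AdjoinRoot f)]
  · have h1 := finrank_mul_finrank K L (AdjoinRoot f)
    rw [hL, hrk] at h1
    rw [← h1]
    exact Nat.mul_le_mul_left _ hle

section local_

variable {k : Type} [Field k]

/-- `a` defines the unramified quadratic extension at `v`. -/
def AS (v : Place k) (a : k) : Prop :=
  v.abv a ≤ 1 ∧ ∀ z : v.comp, z * z + z ≠ algebraMap k v.comp a

variable [GFF k]

/-- Such elements exist. -/
theorem exists_as (h2 : (2 : k) = 0) (v : Place k) : ∃ a : k, v.abv a ≤ 1 ∧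
    ∀ b : k, v.abv (b - a) < 1 → AS v b := by
  let _ : NontriviallyNormedField v.comp := nnfPlace v
  have h2v : (2 : v.comp) = 0 := by
    rw [← map_ofNat (algebraMap k v.comp) 2, h2, map_zero]
  obtain ⟨α, hα, hα'⟩ := exists_notMem_wp (k := v.comp) h2v
  obtain ⟨a, ha⟩ := dense_alg v α one_pos
  have ha1 : v.abv a ≤ 1 := by
    rw [← norm_alg]
    have e : algebraMap k v.comp a = -(α - algebraMap k v.comp a) + α := by ring
    rw [e]
    refine (IsUltrametricDist.norm_add_le_max _ _).trans (max_le ?_ hα)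
    rw [norm_neg]
    exact ha.le
  refine ⟨a, ha1, fun b hb => ⟨?_, fun z hz => ?_⟩⟩
  · have e : b = (b - a) + a := by ring
    rw [e]
    exact (v.nonarch _ _).trans (max_le hb.le ha1)
  · refine hα' z ?_
    rw [hz]
    have e : algebraMap k v.comp b - α =
        algebraMap k v.comp (b - a) + -(α - algebraMap k v.comp a) := by
      rw [map_sub]
      ring
    rw [e]
    refine (IsUltrametricDist.norm_add_le_max _ _).trans_lt (max_lt ?_ ?_)
    · have h3 : ‖algebraMap k v.comp (b - a)‖ = v.abv (b - a) := norm_alg v _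
      rw [h3]
      exact hb
    · rw [norm_neg]
      exact ha

end local_

section main

variable {k K D : Type} [Field k] [Field K] [StarRing K] [DivisionRing D] [StarRing D]
  [Algebra k K] [Algebra k D] [Algebra K D] [IsScalarTower k K D] {n : ℕ}

/-- The splitting at a bad place. -/
theorem spl_bad [GFF k] (hS : SetG k K D) {m : ℕ} (hdeg : finrank K D = (2 * m) ^ 2)
    (h2 : (2 : k) = 0) {v : Place k} (ι : K →ₐ[k] v.comp) {a c : k} (ha : AS v a) (hc : Uni v c)
    {M : Type} [Field M] (φ : v.comp →+* M) {x θ : M}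
    (hx : x * x + x = φ (algebraMap k v.comp a)) (hθ : θ ^ m = φ (algebraMap k v.comp c)) :
    Spl D (2 * m) (φ.comp (ι : K →+* v.comp)) := by
  have := hS.fin
  have := hS.cen
  let _ : NontriviallyNormedField v.comp := nnfPlace v
  have h2v : (2 : v.comp) = 0 := by
    rw [← map_ofNat (algebraMap k v.comp) 2, h2, map_zero]
  let _ : Algebra K v.comp := (ι : K →+* v.comp).toAlgebra
  obtain ⟨r, q, Δ, _, _, _, _, hrq, hr0, hΔ, hiff⟩ := H505.Wang.exists_part hdeg v.comp
  refine (hiff M φ).mpr ?_
  let _ : Algebra v.comp M := φ.toAlgebra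
  have ha1 : ‖algebraMap k v.comp a‖ ≤ 1 := by
    have h3 : ‖algebraMap k v.comp a‖ = v.abv a := norm_alg v _
    rw [h3]
    exact ha.1
  have hc1 : ‖algebraMap k v.comp c‖ < 1 := by
    have h3 : ‖algebraMap k v.comp c‖ = v.abv c := norm_alg v _
    rw [h3]
    exact hc.2.1
  exact spl_art (F := v.comp) (M := M) hΔ ⟨r, by rw [← hrq, mul_comm]⟩ h2v ha1 ha.2
    ((_root_.map_ne_zero _).mpr hc.1) hc1 (fun y hy => hc.comp y hy) hx hθ

/-- **Artin-Schreier elements of `D` over the fixed field**, with approximation at the places of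
nonsplit type. -/
theorem exists_artF [GFF k] (hS : SetG k K D) (h2 : (2 : k) = 0) {m : ℕ}
    (hdeg : finrank K D = (2 * m) ^ 2) (hm : 0 < m) {κ : K} {ν : k}
    (hν : κ * κ + κ = algebraMap k K ν) (S : Finset (Place k)) (b : Place k → k) {ε : ℝ}
    (hε : 0 < ε) : ∃ (a : k) (x : D), x * x + x = algebraMap K D (algebraMap k K a) ∧
      (∀ z : k, z * z + z ≠ a) ∧ (∀ z : k, z * z + z ≠ a + ν) ∧
      ∀ v ∈ S, IsEmpty (K →ₐ[k] v.comp) → v.abv (a - b v) < ε := by
  classical
  have hn : 2 * m ≠ 0 := by omega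
  have hbf := bad_finiteG hS hn hdeg
  obtain ⟨v0, hv0⟩ := bad_nonemptyG hS (by omega) hdeg
  choose π hπ using fun v : Place k => exists_uni v
  choose α hα1 hα using fun v : Place k => exists_as h2 v
  obtain ⟨q, hq⟩ := H167.RhoF.exists_notMem (k := k) (hbf.toFinset ∪ S)
  -- the two numbers
  obtain ⟨c, hc, -⟩ := H496.NumF.near_int_fam (S := ((hbf.toFinset ∪ S : Finset (Place k)) :
    Set (Place k))) (Finset.finite_toSet _) q (fun h => hq (Finset.mem_coe.mp h)) π
    (fun v => v.abv (π v)) (fun v _ => v.abv.pos (hπ v).1)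
  have hbadc : ∀ v ∈ Bad k K D (2 * m), Uni v c := by
    intro v hv
    exact (hπ v).near (hc v (by
      rw [Finset.coe_union, Set.mem_union, Finset.mem_coe, hbf.mem_toFinset]
      exact Or.inl hv))
  obtain ⟨a, ha, -⟩ := H496.NumF.near_int_fam (S := ((hbf.toFinset ∪ S : Finset (Place k)) :
    Set (Place k))) (Finset.finite_toSet _) q (fun h => hq (Finset.mem_coe.mp h))
    (fun v => if v ∈ Bad k K D (2 * m) then α v else b v)
    (fun v => if v ∈ Bad k K D (2 * m) then 1 else ε) (by
      intro v _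
      split_ifs
      · exact one_pos
      · exact hε)
  have hbada : ∀ v ∈ Bad k K D (2 * m), AS v a := by
    intro v hv
    have h1 := ha v (by
      rw [Finset.coe_union, Set.mem_union, Finset.mem_coe, hbf.mem_toFinset]
      exact Or.inl hv)
    simp only [if_pos hv] at h1
    exact hα v a h1
  obtain ⟨ι0, -⟩ := id hv0
  have haK : ∀ z : K, z * z + z ≠ algebraMap k K a := by
    intro z hz
    refine (hbada v0 hv0).2 (ι0 z) ?_
    rw [← map_mul, ← map_add, hz, ι0.commutes]
  have hak : ∀ z : k, z * z + z ≠ a := by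
    intro z hz
    refine haK (algebraMap k K z) ?_
    rw [← map_mul, ← map_add, hz]
  have haν : ∀ z : k, z * z + z ≠ a + ν := by
    intro z hz
    have h2K : (2 : K) = 0 := by rw [← map_ofNat (algebraMap k K) 2, h2, map_zero]
    have h3 : algebraMap k K z * algebraMap k K z + algebraMap k K z =
        algebraMap k K a + algebraMap k K ν := by
      rw [← map_mul, ← map_add, hz, map_add]
    refine haK (algebraMap k K z + κ) ?_
    linear_combination h3 + hν + (algebraMap k K z * κ + algebraMap k K ν) * h2K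
  obtain ⟨E, _, _, _, x, θ, hx, hθ, hE⟩ := exists_ext (c := algebraMap k K c) haK hm.ne'
  obtain ⟨j⟩ := exists_embG hS hdeg E hE (by
    intro v ι hv M _ φ ψ hφψ
    have h1 : ∀ y : k, φ (algebraMap k v.comp y) = ψ (algebraMap K E (algebraMap k K y)) := by
      intro y
      have h3 := RingHom.congr_fun hφψ (algebraMap k K y)
      rw [RingHom.comp_apply, RingHom.comp_apply] at h3
      rw [← h3]
      congr 1
      exact (ι.commutes y).symm
    refine spl_bad hS hdeg h2 ι (hbada v hv) (hbadc v hv) φ (x := ψ x) (θ := ψ θ) ?_ ?_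
    · rw [h1, ← hx, map_add, map_mul]
    · rw [h1, ← hθ, map_pow])
  refine ⟨a, j x, ?_, hak, haν, ?_⟩
  · rw [← map_mul, ← map_add, hx, j.commutes]
  · intro v hv hv'
    have hnb : v ∉ Bad k K D (2 * m) := fun ⟨ι, _⟩ => hv'.false ι
    have h1 := ha v (by
      rw [Finset.coe_union, Set.mem_union]
      exact Or.inr (Finset.mem_coe.mpr hv))
    simp only [if_neg hnb] at h1
    exact h1

end main

end Vale.Agent.P011.H279.Art
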