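import Vale.Agent.P011.H775.M3b
import Vale.Agent.P011.H182.Conic
import Vale.Agent.P011.H271.ConF3

/-!
# The conic in the parameter quadric and the Skolem equation over function fields

(Twin of `H775/M10a.lean`.)
-/

set_option linter.unusedSectionVars false

open Module Polynomial Matrix

namespace Vale.Agent.P011.H279.Asm

open Vale.Agent.P011.H738 Vale.Agent.P011.H271 Vale.Agent.P011.H775
open Vale.Agent.P011.H182.Conic (pt apoly exists_conic coeff_apoly eval_apoly)

section e2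

variable {k F : Type} [Field k] [Field F] [Algebra k F] [Algebra.IsSeparable k F]

theorem exists_three (h3 : finrank k F = 3) : ∃ σ : Fin 3 → (F →ₐ[k] AlgebraicClosure k),
    ∀ x : F, algebraMap k (AlgebraicClosure k) (Algebra.trace k F x) = σ 0 x + σ 1 x + σ 2 x := by
  have : FiniteDimensional k F := FiniteDimensional.of_finrank_pos (by rw [h3]; norm_num)
  have hcard : Fintype.card (F →ₐ[k] AlgebraicClosure k) = 3 := by
    rw [AlgHom.card, h3]
  let e := (Fintype.equivFinOfCardEq hcard).symm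
  refine ⟨e, fun x => ?_⟩
  rw [trace_eq_sum_embeddings (AlgebraicClosure k), ← e.sum_comp, Fin.sum_univ_three]

theorem two_ne (h : (2 : k) ≠ 0) : (2 : AlgebraicClosure k) ≠ 0 := by
  have h1 := (_root_.map_ne_zero (algebraMap k (AlgebraicClosure k))).2 h
  rwa [map_ofNat] at h1

theorem three_ne (h : (3 : k) ≠ 0) : (3 : AlgebraicClosure k) ≠ 0 := by
  have h1 := (_root_.map_ne_zero (algebraMap k (AlgebraicClosure k))).2 h
  rwa [map_ofNat] at h1

/-- A vector orthogonal to both points at infinity. -/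
theorem exists_orth (c2 : (2 : k) ≠ 0) (c3 : (3 : k) ≠ 0) (h3 : finrank k F = 3) {a b : F}
    (ha : Algebra.trace k F a = 0) (hb : Algebra.trace k F b = 0) (h0 : D0 k a b ≠ 0) :
    ∃ c : F, e2p k (sh k a) c = 0 ∧ e2p k (sh k b) c = 0 ∧ e2 k c ≠ 0 := by
  obtain ⟨σ, hσ⟩ := exists_three h3
  have h1 : σ 0 a + σ 1 a + σ 2 a = 0 := by rw [← hσ, ha, map_zero]
  have h2 : σ 2 a = -(σ 0 a + σ 1 a) := by linear_combination h1
  have h1' : σ 0 b + σ 1 b + σ 2 b = 0 := by rw [← hσ, hb, map_zero]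
  have h2' : σ 2 b = -(σ 0 b + σ 1 b) := by linear_combination h1'
  have h20 : (2 : AlgebraicClosure k) ≠ 0 := two_ne c2
  have h30 : (3 : AlgebraicClosure k) ≠ 0 := three_ne c3
  have hab : Algebra.trace k F (a + b) = 0 := by rw [map_add, ha, hb, add_zero]
  refine ⟨sh k (a + b) - sh k a - sh k b, ?_, ?_, fun h => h0 ?_⟩
  · apply (algebraMap k (AlgebraicClosure k)).injective
    simp only [e2p, e2, sh, ha, hb, hab, map_zero, zero_mul, sub_zero, map_div₀, map_sub, map_pow,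
      hσ, map_add, map_mul, AlgHom.commutes, map_ofNat, h2, h2']
    field_simp
    ring
  · apply (algebraMap k (AlgebraicClosure k)).injective
    simp only [e2p, e2, sh, ha, hb, hab, map_zero, zero_mul, sub_zero, map_div₀, map_sub, map_pow,
      hσ, map_add, map_mul, AlgHom.commutes, map_ofNat, h2, h2']
    field_simp
    ring
  · have h4 : e2 k (sh k (a + b) - sh k a - sh k b) = - D0 k a b := by
      apply (algebraMap k (AlgebraicClosure k)).injective
      simp only [e2, D0, sh, ha, hb, hab, map_zero, zero_mul, sub_zero, map_div₀, map_sub,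
        map_pow, map_neg, hσ, map_add, map_mul, AlgHom.commutes, map_ofNat, h2, h2']
      field_simp
      ring
    rw [h4, neg_eq_zero] at h
    exact h

omit [Algebra.IsSeparable k F] in
theorem polar_inf (c2 : (2 : k) ≠ 0) (Q : QuadraticForm k (F × k)) {c₁ : k}
    (hQ : ∀ t, Q (t, 0) = c₁ * e2 k t) (t u : F) :
    QuadraticMap.polar Q (t, 0) (u, 0) = c₁ * e2p k t u := by
  rw [QuadraticMap.polar, Prod.mk_add_mk, add_zero, hQ, hQ, hQ, e2, e2, e2, e2p]
  simp only [map_add, add_mul, mul_add, pow_two]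
  rw [mul_comm u t]
  field_simp
  ring

end e2

theorem infinite_of_pl {k : Type} [Field k] (q : Place k) : Infinite k := by
  obtain ⟨z, hz, hz1⟩ := ConF.exists_small q one_pos
  refine Infinite.of_injective (fun m : ℕ => z ^ m) fun a b hab => ?_
  have h1 : q.abv z ^ a = q.abv z ^ b := by
    rw [← map_pow, ← map_pow]
    exact congrArg q.abv hab
  exact (pow_right_strictAnti₀ (q.abv.pos hz) hz1).injective h1

variable {k K F D : Type} [Field k] [GFF k] [Field K] [Field F]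
  [Algebra k K] [Algebra k F]

variable [StarRing K] [DivisionRing D] [StarRing D] [Algebra k D] [Algebra K D]
  [FiniteDimensional K D] [Algebra.IsCentral K D] [IsScalarTower k K D]
  [FiniteDimensional k F] [Algebra.IsSeparable k F]

variable {C : Cub K D} {φ : F →ₐ[k] D}

/-- **From a point of the parameter quadric to a Skolem surface which is solvable everywhere
locally.**  The predicates `Good` and `Lp` are the local criteria. -/
theorem exists_of_localF (M : Dat C φ)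
    (Good : Place k → k → k → Prop)
    (Lp : Place k → F → k → Prop)
    {S₀ : Set (Place k)} (hS₀ : S₀.Finite)
    (hsk : ∀ A : F, A ≠ 0 → ∀ G : k, (∀ v : Place k,
      Nonempty (F →ₐ[k] v.comp) ∨ ∃ c : k, c ≠ 0 ∧
        (Good v (c ^ 6 * Algebra.norm k A) (c ^ 3 * G) ∨
          (v ∉ S₀ ∧ v.abv (c ^ 6 * Algebra.norm k A) = 1 ∧
            v.abv (c ^ 3 * G) ≤ 1))) →
      ∃ f : F, Algebra.norm k f + Algebra.trace k F (A * f) + G = 0)
    (hnear : ∀ (v : Place k) (a : F[X]) (g : k[X]), a.natDegree ≤ 4 →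
      g.natDegree ≤ 6 → a.eval 0 ≠ 0 → Lp v (a.eval 0) (g.eval 0) →
      ¬ Nonempty (F →ₐ[k] v.comp) → ∃ γ : ℝ, 0 < γ ∧ ∀ t : k,
        v.abv t < γ → ∃ c : k, c ≠ 0 ∧
          Good v (c ^ 6 * Algebra.norm k (a.eval (algebraMap k F t))) (c ^ 3 * g.eval t))
    (hfar : ∀ (v : Place k) (a : F[X]) (g : k[X]), a.natDegree ≤ 4 →
      g.natDegree ≤ 6 → a.coeff 4 ≠ 0 → Lp v (a.coeff 4) (g.coeff 6) →
      ¬ Nonempty (F →ₐ[k] v.comp) → ∃ γ : ℝ, ∀ t : k,
        γ < v.abv t → ∃ c : k, c ≠ 0 ∧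
          Good v (c ^ 6 * Algebra.norm k (a.eval (algebraMap k F t))) (c ^ 3 * g.eval t))
    {T : Set (Place k)} (hT : T.Finite) (v0 : Place k) {ρ : F × k} (hρ : M.Q ρ = 0)
    (hρp : QuadraticMap.polar M.Q ρ (sh k M.a, 0) ≠ 0) (hρA : M.A ρ ≠ 0)
    (h0 : ∀ v ∈ T, Nonempty (F →ₐ[k] v.comp) ∨ Lp v (M.A ρ) (M.G ρ))
    (hinf : ∀ v ∉ T, Nonempty (F →ₐ[k] v.comp) ∨
      ∀ t : F, t ≠ 0 → Lp v (M.A (t, 0)) (M.G (t, 0))) :
    ∃ z : F × k, z ≠ 0 ∧ M.Q z = 0 ∧ ∃ e : F,
      Algebra.norm k e + Algebra.trace k F (e * M.A z) + M.G z = 0 := by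
  classical
  have : Infinite k := infinite_of_pl v0
  have ha0 : M.a ≠ 0 := by
    intro h0
    apply M.D00
    rw [h0, D0]
    simp
  have hsh : sh k M.a ≠ 0 := M.H.sh_ne_zero ha0
  have hQ0 : ∀ t, M.Q (t, 0) = M.c₁ * e2 k t := fun t => by
    rw [M.Q_apply]
    simp
  have hc₁ : M.c₁ ≠ 0 := by
    rw [Dat.c₁]
    refine mul_ne_zero (mul_ne_zero M.d0 M.D00) ?_
    intro h1
    have h2 := M.H.rk_eq M.star_N_h
    rw [h1, map_zero] at h2
    have h3 : M.h ≠ 0 := by
      intro h4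
      apply M.prh0
      change pr C φ (C.adj M.h) = 0
      rw [h4, C.adj_zero, map_zero]
    exact C.N_ne_zero h3 h2.symm
  have hy : ∃ y, QuadraticMap.polar M.Q (sh k M.a, 0) y = 0 ∧ M.Q y ≠ 0 := by
    obtain ⟨c, h1, -, h2⟩ := exists_orth M.H.h2 M.h3 M.H.hF M.ha M.hb M.D00
    refine ⟨(c, 0), ?_, ?_⟩
    · rw [polar_inf M.H.h2 M.Q hQ0, h1, mul_zero]
    · rw [hQ0]
      exact mul_ne_zero hc₁ h2
  have hA : ∀ z : F × k, M.A z = M.al * z.1 ^ 2 + M.be * algebraMap k F z.2 ^ 2 := fun z => by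
    rw [Dat.A, map_pow]
  obtain ⟨μ, c, hc, hQt, hdeg, hcoef, hco, hev⟩ := exists_conic M.Q (by rw [M.H.hF])
    (M.Q_inf M.ha) hρ hρp hy M.al_ne_zero (by rw [← hA]; exact hρA)
    (by
      simp only [map_zero, ne_eq, OfNat.ofNat_ne_zero, not_false_eq_true, zero_pow, mul_zero,
        add_zero]
      exact mul_ne_zero M.al_ne_zero (pow_ne_zero 2 hsh))
  set ap := apoly M.al M.be ρ μ (sh k M.a, 0) c with hap
  obtain ⟨g, hg, hg6, hgev⟩ := M.exists_G_poly ![ρ, μ, (-c) • (sh k M.a, 0)]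
  have hpt : ∀ t : k, ∑ j : Fin 3, t ^ (j : ℕ) • (![ρ, μ, (-c) • (sh k M.a, 0)] :
      Fin 3 → F × k) j = pt ρ μ (sh k M.a, 0) c t := fun t => by
    rw [Fin.sum_univ_three, pt]
    simp only [Matrix.cons_val_zero, Matrix.cons_val_one, Matrix.cons_val_two, Matrix.tail_cons,
      Matrix.head_cons, Fin.val_zero, Fin.val_one, Fin.val_two, pow_zero, one_smul, pow_one,
      smul_smul]
    congr 2
    ring
  have hev' : ∀ t : k, ap.eval (algebraMap k F t) = M.A (pt ρ μ (sh k M.a, 0) c t) := fun t => by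
    rw [hev, hA]
  have hgev' : ∀ t : k, g.eval t = M.G (pt ρ μ (sh k M.a, 0) c t) := fun t => by
    rw [← hgev, hpt]
  have hpt0 : pt ρ μ (sh k M.a, 0) c 0 = ρ := by
    rw [pt]
    simp
  have hap0 : ap.eval 0 = M.A ρ := by
    have h := hev' 0
    rwa [map_zero, hpt0] at h
  have hg0 : g.eval 0 = M.G ρ := by rw [hgev', hpt0]
  have hap4 : ap.coeff 4 = M.A ((-c) • sh k M.a, 0) := by
    rw [hap, coeff_apoly, hA]
    simp only [map_zero, ne_eq, OfNat.ofNat_ne_zero, not_false_eq_true, zero_pow, mul_zero,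
      add_zero, Algebra.smul_def, map_neg]
    ring
  have hg6' : g.coeff 6 = M.G ((-c) • sh k M.a, 0) := by
    rw [hg6]
    simp
  have htinf : (-c) • sh k M.a ≠ 0 := smul_ne_zero (neg_ne_zero.2 hc) hsh
  obtain ⟨t, -, -, ht⟩ := ConF.exists_goodF M.H.hF ap hdeg hcoef hco g hg
    (fun v t => Nonempty (F →ₐ[k] v.comp) ∨ ∃ c : k, c ≠ 0 ∧
      Good v (c ^ 6 * Algebra.norm k (ap.eval (algebraMap k F t))) (c ^ 3 * g.eval t))
    hS₀ hT Set.finite_empty
    (fun v hv => by
      by_cases hp : Nonempty (F →ₐ[k] v.comp)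
      · exact ⟨1, one_pos, fun t _ => Or.inl hp⟩
      · obtain ⟨γ, h1, h2⟩ := hnear v ap g hdeg hg (by rw [hap0]; exact hρA)
          (by rw [hap0, hg0]; exact (h0 v hv).resolve_left hp) hp
        exact ⟨γ, h1, fun t ht => Or.inr (h2 t ht)⟩)
    (fun v hv => by
      by_cases hp : Nonempty (F →ₐ[k] v.comp)
      · exact Or.inl hp
      · obtain ⟨γ, h2⟩ := hfar v ap g hdeg hg hcoef
          (by rw [hap4, hg6']; exact (hinf v hv).resolve_left hp _ htinf) hp
        exact Or.inr ⟨γ, fun t ht => Or.inr (h2 t ht)⟩) v0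
  have hAt : M.A (pt ρ μ (sh k M.a, 0) c t) ≠ 0 := by
    intro h1
    obtain ⟨σ, hσ⟩ := hco (algebraMap k _ t)
    apply hσ
    have h2 : algebraMap k (AlgebraicClosure k) t =
        (σ : F →+* AlgebraicClosure k) (algebraMap k F t) := (σ.commutes t).symm
    rw [h2, Polynomial.eval_map, Polynomial.eval₂_hom, hev', h1, map_zero]
  refine ⟨pt ρ μ (sh k M.a, 0) c t, ?_, hQt t, ?_⟩
  · intro h1
    apply hAt
    rw [h1, hA]
    simp
  · obtain ⟨f, hf⟩ := hsk _ hAt (M.G (pt ρ μ (sh k M.a, 0) c t)) fun v => by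
      rcases ht v with (h1 | ⟨c', hc', h1⟩) | h1 | ⟨h1, h2, h3⟩
      · exact Or.inl h1
      · right
        refine ⟨c', hc', Or.inl ?_⟩
        rw [← hev', ← hgev']
        exact h1
      · exact Or.inl h1
      · right
        obtain ⟨c', hc', h4, h5⟩ := ConF.exists_scale M.H.hF h2 h3
        refine ⟨c', hc', Or.inr ⟨h1, ?_, ?_⟩⟩
        · rw [← hev', ← h4, map_mul (Algebra.norm k), Algebra.norm_algebraMap, M.H.hF, ← pow_mul]
        · rw [← hgev']
          exact h5
    refine ⟨f, ?_⟩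
    rw [mul_comm f]
    exact hf

end Vale.Agent.P011.H279.Asm
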