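import Vale.Agent.P011.H279.PatF

/-!
Controlling sets of places for a norm class over a global function field.
-/

open Module

set_option linter.unusedSectionVars false

namespace Vale.Agent.P011.H279.RB

open Vale.Agent.P011.H738 Vale.Agent.P011.H271 Vale.Agent.P011.H63.FB
open Vale.Agent.P011.Arith (NF)
open Vale.Agent.P011.H271.S3 (Ab below_unique)

variable {F : Type} [Field F] [GFF F]

/-- A finite set of places which controls the norm class of `a` from `F(√d)`. -/
structure CtrlF (d a : Fˣ) (V : Set (Place F)) : Prop where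
  fin : V.Finite
  nonsplit : ∀ v ∈ V, d ∉ LSF v
  bad : ∀ v : Place F, a ∉ NF d ⊔ LSF v → v ∈ V
  jet : ∃ p ∈ V, ¬ IsolF d p

theorem CtrlF.nonempty {d a : Fˣ} {V : Set (Place F)} (h : CtrlF d a V) : V.Nonempty := by
  obtain ⟨p, hp, -⟩ := h.jet
  exact ⟨p, hp⟩

/-- Such sets exist. -/
theorem exists_ctrlF (h2 : (2 : F) ≠ 0) {d : Fˣ} (hd : ¬ IsSquare (d : F)) (a : Fˣ) :
    ∃ V : Set (Place F), CtrlF d a V := by
  obtain ⟨p, hp, hJ⟩ := exists_not_isolF h2 hd
  refine ⟨badF d a ∪ {p}, (badF_finite h2 d a).union (Set.finite_singleton p), ?_,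
    fun v hv => Or.inl hv, p, Or.inr rfl, hJ⟩
  rintro v (hv | rfl)
  · exact notMem_LSF_of_bad h2 hv
  · exact hp

/-- Such sets exist, and contain any finite set of nonsplit places. -/
theorem exists_ctrlF' (h2 : (2 : F) ≠ 0) {d : Fˣ} (hd : ¬ IsSquare (d : F)) (a : Fˣ)
    {S : Set (Place F)} (hS : S.Finite) (hS' : ∀ v ∈ S, d ∉ LSF v) :
    ∃ V : Set (Place F), S ⊆ V ∧ CtrlF d a V := by
  obtain ⟨V, hV⟩ := exists_ctrlF h2 hd a
  refine ⟨S ∪ V, Set.subset_union_left, hS.union hV.fin, ?_, fun v hv => Or.inr (hV.bad v hv), ?_⟩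
  · rintro v (hv | hv)
    · exact hS' v hv
    · exact hV.nonsplit v hv
  · obtain ⟨p, hp, h⟩ := hV.jet
    exact ⟨p, Or.inr hp, h⟩

end Vale.Agent.P011.H279.RB
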