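import Vale.Agent.P011.H279.PartIF
import Vale.Agent.P011.H948.DatF

/-!
# The chart data with the twist taken from the isotropic element, over function fields

(Twin of `H321/DatS.lean`.)
-/

set_option linter.unusedSectionVars false

open Module Polynomial Matrix

namespace Vale.Agent.P011.H279.DatSF

open Vale.Agent.P011.H948 Vale.Agent.P011.H775 Vale.Agent.P011.H305 Vale.Agent.P011.H271
open Vale.Agent.P011.H279.PartI Vale.Agent.P011.H279.Asm

variable {k K D : Type} [Field k] [Field K] [StarRing K]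
    [DivisionRing D] [StarRing D] [Algebra k K] [Algebra k D] [Algebra K D] [IsScalarTower k K D]

/-- The element `r p⁻¹` has trace zero. -/
theorem T_mul_inv_pp {d : kˣ} {s : K} (hS : SetF k K D d s) (h3k : (3 : k) ≠ 0)
    (hdeg : finrank K D = 3 ^ 2) (C : Cub K D) {g : D} (hg : star g = g)
    (hgc : ∀ c : K, g ≠ c • (1 : D)) {r : D} (hr : star r = r) (h1 : C.T r = 0)
    (h2 : C.T (g * r) = 0) (h3 : C.T (g * g * r) = 0) : C.T (r * (pp g)⁻¹) = 0 := by
  obtain ⟨E, _, _, _, _, φ, σ, _, _, hσ, H, hsp⟩ := NdF.exists_cfd hS h3k hdeg C hg hgc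
  have hr' := (NdF.inV_iff H hσ hsp hr).2 ⟨h1, h2, h3⟩
  have e : φ (3 + σ⁻¹)⁻¹ = (pp g)⁻¹ := by
    rw [map_inv₀, map_add, map_inv₀, hσ, map_ofNat, pp]
  rw [C.T_comm, ← e, H.T_mul_pr hr'.sy, hr'.pr0, mul_zero, map_zero, map_zero]

section tc

variable {F Ω : Type} [Field F] [Algebra k F] [Field Ω] [Algebra K Ω] {C : Cub K D}
  {φ : F →ₐ[k] D} (S : DSpl C φ Ω)

theorem trace_bb (h3 : (3 : k) ≠ 0) (hF : finrank k F = 3) (σ : F) :
    Algebra.trace k F (bb k σ) = 0 := by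
  rw [bb, map_sub, Algebra.trace_algebraMap, hF, nsmul_eq_mul]
  push_cast
  field_simp
  ring

include S in
theorem D0_ne_zero (h3k : (3 : k) ≠ 0) (hF : finrank k F = 3) {σ : F}
    (hσ : Algebra.trace k F σ = 0)
    (hsp : ∀ x : F, ∃ a b c : k, x = algebraMap k F a + algebraMap k F b * σ +
        algebraMap k F c * σ ^ 2) : D0 k σ (bb k σ) ≠ 0 := by
  intro h0
  have h1 := S.tc_sq (k := k) h3k hσ (trace_bb h3k hF σ)
  rw [h0, map_zero, map_zero] at h1
  have h2 : S.tc σ (bb k σ) = 0 := pow_eq_zero_iff two_ne_zero |>.1 h1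
  have h3 : (3 : Ω) ≠ 0 := by
    have h := (_root_.map_ne_zero ((algebraMap K Ω).comp (algebraMap k K))).2 h3k
    rwa [map_ofNat] at h
  have hne : ∀ i j, i ≠ j → S.σ i σ ≠ S.σ j σ := by
    intro i j hij h
    apply hij
    apply S.σinj
    ext x
    obtain ⟨a, b, c, rfl⟩ := hsp x
    simp only [map_add, map_mul, map_pow, S.base, h]
  have ht := S.trace_eq σ
  rw [hσ, map_zero, map_zero] at ht
  have e2 : S.σ 2 σ = -(S.σ 0 σ + S.σ 1 σ) := by linear_combination -ht
  have hb : ∀ i, S.σ i (bb k σ) = S.σ i σ ^ 2 -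
      (S.σ 0 σ ^ 2 + S.σ 1 σ ^ 2 + S.σ 2 σ ^ 2) / 3 := by
    intro i
    rw [bb, map_sub, map_pow, S.base, map_div₀, map_div₀, S.trace_eq, map_ofNat, map_ofNat,
      map_pow, map_pow, map_pow]
  have e3 : S.tc σ (bb k σ) = (S.σ 1 σ - S.σ 0 σ) * (S.σ 0 σ - S.σ 2 σ) *
      (S.σ 1 σ - S.σ 2 σ) / 3 := by
    rw [DSpl.tc, hb, hb, e2]
    field_simp
    ring
  rw [e3] at h2
  have h4 := hne 1 0 (by decide)
  have h5 := hne 0 2 (by decide)
  have h6 := hne 1 2 (by decide)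
  exact (div_ne_zero (mul_ne_zero (mul_ne_zero (sub_ne_zero.2 h4) (sub_ne_zero.2 h5))
    (sub_ne_zero.2 h6)) h3) h2

end tc

/-- **The chart attached to a unitary element and an isotropic element**, with the twist given by
the isotropic element. -/
theorem f1S [GFF k] {d : kˣ} {s : K} (hS : SetF k K D d s) (h3 : (3 : k) ≠ 0)
    (hdeg : finrank K D = 3 ^ 2) (C : Cub K D) : F1S C d s := by
  intro x u hu hT
  have := hS.fin
  have := hS.cen
  have h20 : (2 : K) ≠ 0 := by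
    have h := (_root_.map_ne_zero (algebraMap k K)).2 hS.two_ne
    rwa [map_ofNat] at h
  have h30 : (3 : K) ≠ 0 := by
    have h := (_root_.map_ne_zero (algebraMap k K)).2 h3
    rwa [map_ofNat] at h
  have hC := sCub_of C hdeg hS.star_smul
  have hs0 : s ≠ 0 := by
    intro h0
    have h := hS.sq
    rw [h0, zero_pow (by norm_num)] at h
    exact (_root_.map_ne_zero (algebraMap k K)).2 d.ne_zero h.symm
  obtain ⟨g, y, hg, hy, hTg, hTy, h2, hw⟩ := hC.exists_chart h20 hs0 hS.star_s hS.sq hu hT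
  refine ⟨g, y, ⟨hg, hy, hTg, hTy, h2⟩, ?_⟩
  rintro r hgc hSg hr0 ⟨hr, e1, e2, e3, e4⟩
  rw [map_zero] at e4
  have hfix : ∀ c : K, star c = c → ∃ c' : k, algebraMap k K c' = c := fun c hc =>
    (hS.fix c).1 hc
  have hkfix : ∀ c : k, star (algebraMap k K c) = algebraMap k K c := fun c =>
    (hS.fix _).2 ⟨c, rfl⟩
  have hg0 : g ≠ 0 := fun h0 => hgc 0 (by rw [h0, zero_smul])
  have hp0 : pp g ≠ 0 := hC.pp_ne_zero h30 hgc
  have hps : star (pp g) = pp g := hC.pp_symm hg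
  obtain ⟨F, _, _, _, φ, σ, hF, hσ, hsp, hsy, ho, -⟩ := hC.exists_E_gen h20 hfix hkfix hp0 hps
    pp_comm (T_mul_pp C hg0 hTg) hr (ne_smul_pp h30 hg0 hp0 hr0 e1 e2 e3) e2 e4
  have hsep : Algebra.IsSeparable k F := NdF.isSeparable_of_three h3 hF
  have H : Cfd C φ (pp g) :=
    { hD := hdeg
      hss := fun c => by
        rw [Algebra.algebraMap_eq_smul_one, hS.star_smul, star_one,
          ← Algebra.algebraMap_eq_smul_one]
      hfix := fun c hc => (hS.fix c).1 hc
      hfix' := hkfix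
      hF := hF
      hK := hS.rank
      h2 := hS.two_ne
      hp := hps
      hp0 := hp0
      hφ := hsy }
  have hne : C.T (C.adj (pp g * g)) ≠ 0 := by
    have h3D : (3 : D) = (3 : K) • (1 : D) := by
      rw [ofNat_smul_eq_nsmul, nsmul_eq_mul, mul_one]
      rfl
    have e : pp g * g = (3 : K) • g + 1 := by
      rw [pp, add_mul, inv_mul_cancel₀ hg0, h3D, smul_mul_assoc, one_mul]
    have e' : C.T (C.adj (pp g * g)) = 9 * C.S g - 3 := by
      rw [e, C.adj_add, C.adj_smul, C.adj_one, map_add, map_add, map_smul, C.T_one, C.T_cr,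
        map_smul, mul_one, map_smul, hTg, C.T_one, smul_eq_mul, smul_eq_mul, Cub.S]
      ring
    rw [e']
    intro h0
    apply hSg
    have h5 : (3 : K) * (3 * C.S g - 1) = 0 := by linear_combination h0
    exact sub_eq_zero.1 ((mul_eq_zero.1 h5).resolve_left h30)
  have htr : Algebra.trace k F σ = 0 := by
    have h5 := T_mul_inv_pp hS h3 hdeg C hg hgc hr e1 e2 e3
    rw [← hσ, H.T_φ] at h5
    exact (_root_.map_eq_zero (algebraMap k K)).1 h5
  obtain ⟨M₀, hMp, hMg, hMy, hMδ, hMd⟩ := H.exists_dat hS.star_s hS.sq d.ne_zero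
    h3 hg hy ho hne
  obtain ⟨Ω, _, _, ⟨S⟩⟩ := H.exists_dspl
  let M : Dat C φ :=
    { M₀ with
      a := σ
      b := bb k σ
      ha := htr
      hb := trace_bb h3 hF σ
      D00 := D0_ne_zero S h3 hF htr hsp }
  refine ⟨F, inferInstance, inferInstance, inferInstance, hsep, φ, σ, hS.fin, hS.cen, M,
    ⟨hF, hσ, htr, rfl, rfl, hMp, hMg, hMy, hMδ, hMd⟩, ?_⟩
  intro z hz hQ e he
  obtain ⟨hq, hc⟩ := M.main hQ he
  have hz2 := M.x₀_ne_zero hz hc
  refine hw (algebraMap k K z.2) (M.xi z e) (hkfix _) (M.star_xi z e)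
    (Or.inl ((_root_.map_ne_zero _).2 hz2)) ?_ ?_
  · rw [← hMg, ← hMy, ← hMd]
    exact hc
  · rw [← hMg, ← hMy, ← hMd]
    exact hq

end Vale.Agent.P011.H279.DatSF
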