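import Vale.Agent.P011.H279.SpecI
import Vale.Agent.P011.H167.RhoFC

/-!
# The adapter for the point of the parameter quadric
-/

open Module

namespace Vale.Agent.P011.H279.Asm

open Vale.Agent.P011.H738 Vale.Agent.P011.H271 Vale.Agent.P011.H775

theorem f7 {k F : Type} [Field k] [GFF k] [Field F] [Algebra k F] [Algebra.IsSeparable k F]
    (h2 : (2 : k) ≠ 0) (h3 : (3 : k) ≠ 0) (hF : finrank k F = 3) : F7Stmt k F := by
  intro Q c₁ hc₁ hQ a b ha hb h0 al hal be m B T hT z y hP hN γ hγ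
  obtain ⟨ρ, hρ, h, h4, h5⟩ := H167.RhoF.exists_rho h2 h3 hF Q hc₁ hQ ha hb h0 hal be B
    hT.toFinset z y (fun v hv => hP v (hT.mem_toFinset.mp hv))
    (fun v hv => hN v (hT.mem_toFinset.mp hv)) γ (fun v hv => hγ v (hT.mem_toFinset.mp hv))
  exact ⟨ρ, hρ, fun v hv => h v (hT.mem_toFinset.mpr hv), h4, h5⟩

end Vale.Agent.P011.H279.Asm
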