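import Mathlib

/-!
# P011 (helper279), module (B1) of the Hasse norm theorem over function fields: indices of lattices
over a discrete valuation ring
-/

open Module IsLocalRing

namespace Vale.Agent.P011.H279

section Idx
variable {G H : Type*} [AddCommGroup G] [AddCommGroup H]

/-- the index along a homomorphism -/
theorem relIndex_split (f : G →+ H) {K N : AddSubgroup G} (h : K ≤ N) :
    K.relIndex N = (K.map f).relIndex (N.map f) * (K ⊓ f.ker).relIndex (N ⊓ f.ker) := by
  rw [AddSubgroup.relIndex_map_map]
  have hK : K ≤ K ⊔ (N ⊓ f.ker) := le_sup_left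
  have hN : K ⊔ (N ⊓ f.ker) ≤ N := sup_le h inf_le_left
  rw [← AddSubgroup.relIndex_mul_relIndex _ _ _ hK hN, AddSubgroup.relIndex_sup_left, mul_comm]
  congr 1
  · have e1 : N ⊔ f.ker = N ⊔ (K ⊔ f.ker) := by
      rw [← sup_assoc, sup_of_le_left h]
    rw [e1, AddSubgroup.relIndex_sup_right, ← AddSubgroup.inf_relIndex_right (K ⊔ f.ker)]
    congr 1
    rw [inf_comm N, sup_inf_assoc_of_le _ h]
  · rw [← AddSubgroup.inf_relIndex_right]
    congr 1
    rw [← inf_assoc, inf_of_le_left h]

end Idx

section Ix
variable {A V W : Type*} [CommRing A] [AddCommGroup V] [Module A V] [AddCommGroup W] [Module A W]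

/-- the index of a submodule in another one -/
noncomputable abbrev ix (M N : Submodule A V) : ℕ := M.toAddSubgroup.relIndex N.toAddSubgroup

theorem ix_mul {M N P : Submodule A V} (h1 : M ≤ N) (h2 : N ≤ P) : ix M N * ix N P = ix M P :=
  AddSubgroup.relIndex_mul_relIndex _ _ _ (Submodule.toAddSubgroup_mono h1)
    (Submodule.toAddSubgroup_mono h2)

theorem ix_self (M : Submodule A V) : ix M M = 1 := AddSubgroup.relIndex_self _

theorem ix_eq_card (M N : Submodule A V) : ix M N = Nat.card (N.map M.mkQ) := by
  have h := AddSubgroup.relIndex_ker N.toAddSubgroup M.mkQ.toAddMonoidHom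
  have e : AddMonoidHom.ker M.mkQ.toAddMonoidHom = M.toAddSubgroup := by
    ext x
    rw [AddMonoidHom.mem_ker, LinearMap.toAddMonoidHom_coe, Submodule.mkQ_apply,
      Submodule.Quotient.mk_eq_zero]
    rfl
  rw [e] at h
  exact h

theorem ix_map_of_injective (f : V →ₗ[A] W) (hf : Function.Injective f) (M N : Submodule A V) :
    ix (M.map f) (N.map f) = ix M N := by
  have h := AddSubgroup.relIndex_map_map_of_injective (f := f.toAddMonoidHom) M.toAddSubgroup
    N.toAddSubgroup hf
  have e : ∀ P : Submodule A V, (P.map f).toAddSubgroup =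
      P.toAddSubgroup.map f.toAddMonoidHom := fun P => rfl
  rw [ix, e, e, h]

theorem ix_split (f : V →ₗ[A] W) {K N : Submodule A V} (h : K ≤ N) :
    ix K N = ix (K.map f) (N.map f) * ix (K ⊓ LinearMap.ker f) (N ⊓ LinearMap.ker f) := by
  exact relIndex_split (f : V →+ W) (Submodule.toAddSubgroup_mono h)

end Ix

section Fin
variable {A : Type*} [CommRing A] [IsLocalRing A] [Finite (ResidueField A)]

/-- a finite module over a local ring with residue field of order `q` has order a power of `q` -/
theorem card_eq_pow (M : Type*) [AddCommGroup M] [Module A M] [Finite M] :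
    ∃ m, Nat.card M = Nat.card (ResidueField A) ^ m := by
  obtain ⟨k, hk⟩ : ∃ k, Nat.card M = k := ⟨_, rfl⟩
  induction k using Nat.strong_induction_on generalizing M with
  | _ k ih =>
    rcases subsingleton_or_nontrivial M with hs | hn
    · exact ⟨0, by simp⟩
    · obtain ⟨S, hS⟩ := IsAtomic.exists_atom (Submodule A M)
      have hSs : IsSimpleModule A S := isSimpleModule_iff_isAtom.2 hS
      obtain ⟨I, hI, ⟨e⟩⟩ := isSimpleModule_iff_quot_maximal.1 hSs
      have hI' : I = maximalIdeal A := IsLocalRing.eq_maximalIdeal hI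
      subst hI'
      have hfin : Finite (M ⧸ S) := Finite.of_surjective _ S.mkQ_surjective
      have h1 : Nat.card S = Nat.card (ResidueField A) := Nat.card_congr e.toEquiv
      have h2 := Submodule.card_eq_card_quotient_mul_card S
      have h3 : Nat.card (M ⧸ S) < k := by
        rw [← hk, h2, h1]
        have : 0 < Nat.card (M ⧸ S) := Nat.card_pos
        have h4 : 1 < Nat.card (ResidueField A) := Finite.one_lt_card
        nlinarith
      obtain ⟨m, hm⟩ := ih _ h3 (M ⧸ S) rfl
      exact ⟨m + 1, by rw [h2, h1, hm, pow_succ']⟩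

end Fin

end Vale.Agent.P011.H279
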