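import Vale.Agent.P011.H279.Lat1

/-!
# P011 (helper279), module (B1): indices of lattices over a discrete valuation ring with finite
residue field
-/

open Module IsLocalRing

namespace Vale.Agent.P011.H279

section Lat
variable {A F V : Type*} [CommRing A] [IsDomain A] [IsDiscreteValuationRing A] [Field F]
  [Algebra A F] [IsFractionRing A F] [AddCommGroup V] [Module F V] [Module A V]
  [IsScalarTower A F V]

variable (F) in
include F in
theorem smul_inj {a : A} (ha : a ≠ 0) {x y : V} (h : a • x = a • y) : x = y := by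
  have h1 : algebraMap A F a ≠ 0 := by simpa using ha
  rw [← algebraMap_smul F a x, ← algebraMap_smul F a y] at h
  exact smul_right_injective V h1 h

variable (F) in
include F in
theorem smul_surj {a : A} (ha : a ≠ 0) (x : V) : ∃ y : V, a • y = x := by
  have h1 : algebraMap A F a ≠ 0 := by simpa using ha
  refine ⟨(algebraMap A F a)⁻¹ • x, ?_⟩
  rw [← algebraMap_smul F a, smul_inv_smul₀ h1]

/-- every vector is in `ϖ^{-k} N` for some `k` -/
theorem exists_pow_smul_mem {ϖ : A} (hϖ : Irreducible ϖ) (N : Submodule A V)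
    [hN : N.IsLattice F] (x : V) : ∃ k : ℕ, ϖ ^ k • x ∈ N := by
  have hx : x ∈ Submodule.span F (N : Set V) := by rw [hN.span_eq_top]; trivial
  induction hx using Submodule.span_induction with
  | mem x hx => exact ⟨0, by simpa using hx⟩
  | zero => exact ⟨0, by simp⟩
  | add x y _ _ hx hy =>
    obtain ⟨k, hk⟩ := hx
    obtain ⟨l, hl⟩ := hy
    refine ⟨k + l, ?_⟩
    rw [smul_add]
    refine N.add_mem ?_ ?_
    · rw [add_comm, pow_add, mul_smul]
      exact N.smul_mem _ hk
    · rw [pow_add, mul_smul]
      exact N.smul_mem _ hl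
  | smul a x _ hx =>
    obtain ⟨k, hk⟩ := hx
    obtain ⟨r, s, hs, rfl⟩ := IsFractionRing.div_surjective (A := A) a
    have hs0 : s ≠ 0 := by simpa using hs
    obtain ⟨m, u, hu⟩ := IsDiscreteValuationRing.eq_unit_mul_pow_irreducible hs0 hϖ
    refine ⟨k + m, ?_⟩
    have h1 : ϖ ^ (k + m) • (algebraMap A F r / algebraMap A F s) • x =
        ((↑u⁻¹ : A) * r) • ϖ ^ k • x := by
      rw [← algebraMap_smul F (ϖ ^ (k + m)), ← algebraMap_smul F ((↑u⁻¹ : A) * r),
        ← algebraMap_smul F (ϖ ^ k), smul_smul, smul_smul]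
      congr 1
      have h2 : algebraMap A F s ≠ 0 := by simpa using hs0
      have h3 : algebraMap A F (↑u⁻¹ : A) * algebraMap A F (u : A) = 1 := by
        rw [← map_mul]; simp
      field_simp
      rw [hu, map_mul, map_mul, map_pow, map_pow, map_pow, pow_add]
      linear_combination (- (algebraMap A F ϖ) ^ k * (algebraMap A F ϖ) ^ m * algebraMap A F r) * h3
    rw [h1]
    exact N.smul_mem _ hk

theorem exists_pow_smul_le {ϖ : A} (hϖ : Irreducible ϖ) (N N' : Submodule A V)
    [hN : N.IsLattice F] (hN' : N'.FG) : ∃ k : ℕ, ∀ x ∈ N', ϖ ^ k • x ∈ N := by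
  obtain ⟨s, rfl⟩ := hN'
  choose k hk using fun x : V => exists_pow_smul_mem hϖ N x
  refine ⟨s.sup k, fun x hx => ?_⟩
  have h1 : Submodule.span A (s : Set V) ≤ N.comap (LinearMap.lsmul A V (ϖ ^ s.sup k)) := by
    rw [Submodule.span_le]
    intro y hy
    have h2 : k y ≤ s.sup k := Finset.le_sup (f := k) hy
    obtain ⟨l, hl⟩ := Nat.exists_eq_add_of_le h2
    simp only [SetLike.mem_coe, Submodule.mem_comap, LinearMap.lsmul_apply]
    rw [hl, add_comm, pow_add, mul_smul]
    exact N.smul_mem _ (hk y)
  exact h1 hx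

variable [Finite (ResidueField A)]

/-- the image of a finitely generated module modulo a lattice is finite -/
theorem finite_map_mkQ (N N' : Submodule A V) [hN : N.IsLattice F] (hN' : N'.FG) :
    Finite (N'.map N.mkQ) := by
  obtain ⟨ϖ, hϖ⟩ := IsDiscreteValuationRing.exists_irreducible A
  obtain ⟨k, hk⟩ := exists_pow_smul_le hϖ N N' hN'
  have hq : Finite (A ⧸ maximalIdeal A) := inferInstanceAs (Finite (ResidueField A))
  have hq' : Finite (A ⧸ maximalIdeal A ^ k) :=
    Ideal.finite_quotient_pow (IsNoetherian.noetherian _) k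
  have hf : (⊤ : Submodule A N').FG := by
    rw [Submodule.fg_top]
    exact hN'
  have hfin : Finite (N' ⧸ (maximalIdeal A ^ k • (⊤ : Submodule A N'))) :=
    Submodule.finite_quotient_smul _ hf
  have hle : (maximalIdeal A ^ k • (⊤ : Submodule A N')) ≤
      LinearMap.ker (N.mkQ ∘ₗ N'.subtype) := by
    rw [hϖ.maximalIdeal_eq, Ideal.span_singleton_pow, Submodule.ideal_span_singleton_smul]
    intro x hx
    obtain ⟨y, -, rfl⟩ := Submodule.mem_smul_pointwise_iff_exists .. |>.1 hx
    rw [LinearMap.mem_ker, LinearMap.comp_apply, Submodule.mkQ_apply,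
      Submodule.Quotient.mk_eq_zero]
    exact hk y y.2
  have hr : LinearMap.range ((maximalIdeal A ^ k • (⊤ : Submodule A N')).liftQ _ hle) =
      N'.map N.mkQ := by
    rw [Submodule.range_liftQ, LinearMap.range_comp, Submodule.range_subtype]
  rw [← hr]
  exact Finite.of_surjective _ (LinearMap.surjective_rangeRestrict _)

/-- the index of one lattice in another one is a power of `q` -/
theorem exists_ix_eq (N N' : Submodule A V) [hN : N.IsLattice F] [hN' : N'.IsLattice F] :
    ∃ m, ix N N' = Nat.card (ResidueField A) ^ m := by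
  have := finite_map_mkQ N N' hN'.fg
  rw [ix_eq_card]
  exact card_eq_pow _

theorem ix_ne_zero (N N' : Submodule A V) [hN : N.IsLattice F] [hN' : N'.IsLattice F] :
    ix N N' ≠ 0 := by
  obtain ⟨m, hm⟩ := exists_ix_eq N N'
  rw [hm]
  exact pow_ne_zero _ (Nat.card_pos (α := ResidueField A)).ne'

omit [IsDomain A] [IsDiscreteValuationRing A] [IsFractionRing A F]
  [Finite (ResidueField A)] in
/-- an overmodule of finite index of a lattice is a lattice -/
theorem isLattice_of_ix {S N : Submodule A V} [hS : S.IsLattice F] (h : S ≤ N)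
    (hi : ix S N ≠ 0) : N.IsLattice F := by
  refine Submodule.IsLattice.of_le_of_isLattice_of_fg F h ?_
  rw [ix_eq_card] at hi
  have hfin : Finite (N.map S.mkQ) := Nat.finite_of_card_ne_zero hi
  refine Submodule.fg_of_fg_map_of_fg_inf_ker S.mkQ ?_ ?_
  · rw [← Submodule.fg_top]
    exact ⟨Set.toFinite (Set.univ) |>.toFinset, by simp⟩
  · rw [Submodule.ker_mkQ, inf_of_le_right h]
    exact hS.fg

end Lat

end Vale.Agent.P011.H279
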