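import Vale.Agent.P011.H279.Lat2

/-!
# P011 (helper279), module (B1): the index of a lattice `N` in `ϖ^{-j} N`
-/

open Module IsLocalRing

namespace Vale.Agent.P011.H279

section Dl
variable {A V : Type*} [CommRing A] [AddCommGroup V] [Module A V]

/-- the vectors `x` such that `a • x ∈ N` -/
noncomputable abbrev dl (a : A) (N : Submodule A V) : Submodule A V :=
  N.comap (LinearMap.lsmul A V a)

theorem mem_dl {a : A} {N : Submodule A V} {x : V} : x ∈ dl a N ↔ a • x ∈ N := Iff.rfl

theorem le_dl (a : A) (N : Submodule A V) : N ≤ dl a N := fun _ hx => N.smul_mem _ hx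

theorem dl_mul (a b : A) (N : Submodule A V) : dl (a * b) N = dl a (dl b N) := by
  ext x
  rw [mem_dl, mem_dl, mem_dl, smul_smul, mul_comm]

theorem dl_one (N : Submodule A V) : dl (1 : A) N = N := by
  ext x
  rw [mem_dl, one_smul]

end Dl

section Lat
variable {A F V : Type*} [CommRing A] [IsDomain A] [IsDiscreteValuationRing A] [Field F]
  [Algebra A F] [IsFractionRing A F] [AddCommGroup V] [Module F V] [Module A V]
  [IsScalarTower A F V]

include F in
variable (F) in
theorem map_dl {a : A} (ha : a ≠ 0) (N : Submodule A V) :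
    (dl a N).map (LinearMap.lsmul A V a) = N := by
  apply Submodule.map_comap_eq_of_surjective
  intro x
  obtain ⟨y, hy⟩ := smul_surj F ha x
  exact ⟨y, hy⟩

include F in
variable (F) in
theorem lsmul_inj {a : A} (ha : a ≠ 0) :
    Function.Injective (LinearMap.lsmul A V a) := fun _ _ h => smul_inj F ha h

theorem dl_lattice {a : A} (ha : a ≠ 0) (N : Submodule A V) [hN : N.IsLattice F] :
    (dl a N).IsLattice F := by
  refine Submodule.IsLattice.of_le_of_isLattice_of_fg F (le_dl a N) ?_
  refine Submodule.fg_of_fg_map_injective (LinearMap.lsmul A V a) (lsmul_inj F ha) ?_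
  rw [map_dl F ha]
  exact hN.fg

/-- `[N : ϖ N]` for a free module `N` -/
theorem ix_range_smul {ι N : Type*} [Finite ι] [AddCommGroup N] [Module A N] (b : Basis ι A N)
    {ϖ : A} (hϖ : Irreducible ϖ) :
    ix ((⊤ : Submodule A N).map (LinearMap.lsmul A N ϖ)) ⊤ =
      Nat.card (ResidueField A) ^ Nat.card ι := by
  set g : N →ₗ[A] (ι → ResidueField A) :=
    LinearMap.pi fun i => (Algebra.linearMap A (ResidueField A)) ∘ₗ b.coord i with hg
  have hgx : ∀ x i, g x i = residue A (b.repr x i) := fun x i => rfl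
  have hk : LinearMap.ker g = (⊤ : Submodule A N).map (LinearMap.lsmul A N ϖ) := by
    ext x
    rw [LinearMap.mem_ker, Submodule.mem_map]
    constructor
    · intro hx
      have h1 : ∀ i, ∃ c, b.repr x i = ϖ * c := fun i => by
        have h2 : residue A (b.repr x i) = 0 := by rw [← hgx, hx]; rfl
        rw [residue_eq_zero_iff, hϖ.maximalIdeal_eq, Ideal.mem_span_singleton] at h2
        exact h2
      choose c hc using h1
      have := Fintype.ofFinite ι
      refine ⟨∑ i, c i • b i, trivial, ?_⟩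
      rw [LinearMap.lsmul_apply, Finset.smul_sum, ← b.sum_repr x]
      exact Finset.sum_congr rfl fun i _ => by rw [hc, mul_smul]
    · rintro ⟨y, -, rfl⟩
      ext i
      rw [hgx]
      have h3 : b.repr (LinearMap.lsmul A N ϖ y) i = ϖ * b.repr y i := by simp
      rw [h3, map_mul]
      have h4 : residue A ϖ = 0 := by
        rw [residue_eq_zero_iff, hϖ.maximalIdeal_eq]
        exact Ideal.mem_span_singleton_self _
      rw [h4, zero_mul]
      rfl
  have hs : Function.Surjective g := by
    intro c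
    have := Fintype.ofFinite ι
    choose d hd using fun i => residue_surjective (R := A) (c i)
    refine ⟨∑ i, d i • b i, ?_⟩
    ext i
    rw [hgx, b.repr_sum_self, hd]
  rw [← hk, ix_eq_card, Submodule.map_top, Submodule.range_mkQ,
    Nat.card_congr (Submodule.topEquiv (R := A) (M := N ⧸ LinearMap.ker g)).toEquiv,
    Nat.card_congr (LinearMap.quotKerEquivOfSurjective g hs).toEquiv, Nat.card_fun]

variable [Module.Finite F V]

/-- `[ϖ⁻¹ N : N] = q ^ n` -/
theorem ix_dl {ϖ : A} (hϖ : Irreducible ϖ) (N : Submodule A V) [hN : N.IsLattice F] :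
    ix N (dl ϖ N) = Nat.card (ResidueField A) ^ finrank F V := by
  have h1 := ix_map_of_injective (LinearMap.lsmul A V ϖ) (lsmul_inj F hϖ.ne_zero) N (dl ϖ N)
  rw [map_dl F hϖ.ne_zero] at h1
  have hfr : Module.Free A N := Submodule.IsLattice.free F N
  set b := Module.Free.chooseBasis A N with hb
  have hfi : Finite (Module.Free.ChooseBasisIndex A N) := inferInstance
  have h2 := ix_range_smul b hϖ
  have h3 : Nat.card (Module.Free.ChooseBasisIndex A N) = finrank F V := by
    rw [Nat.card_eq_fintype_card, ← finrank_eq_card_basis (b.extendOfIsLattice F)]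
  rw [← h1, ← h3, ← h2]
  have h4 := ix_map_of_injective N.subtype N.injective_subtype
    ((⊤ : Submodule A N).map (LinearMap.lsmul A N ϖ)) ⊤
  have h5 : (((⊤ : Submodule A N).map (LinearMap.lsmul A N ϖ)).map N.subtype) =
      N.map (LinearMap.lsmul A V ϖ) := by
    ext x
    constructor
    · rintro ⟨_, ⟨y, -, rfl⟩, rfl⟩
      exact ⟨y, y.2, rfl⟩
    · rintro ⟨y, hy, rfl⟩
      exact ⟨_, ⟨⟨y, hy⟩, trivial, rfl⟩, rfl⟩
  rw [← h4, Submodule.map_subtype_top, h5]

/-- `[ϖ⁻ʲ N : N] = q ^ (n j)` -/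
theorem ix_dl_pow {ϖ : A} (hϖ : Irreducible ϖ) (N : Submodule A V) [hN : N.IsLattice F] (j : ℕ) :
    ix N (dl (ϖ ^ j) N) = Nat.card (ResidueField A) ^ (finrank F V * j) := by
  induction j with
  | zero => rw [pow_zero, dl_one, ix_self, mul_zero, pow_zero]
  | succ j ih =>
    have : (dl (ϖ ^ j) N).IsLattice F := dl_lattice (pow_ne_zero _ hϖ.ne_zero) N
    have h1 : dl (ϖ ^ (j + 1)) N = dl ϖ (dl (ϖ ^ j) N) := by rw [pow_succ', dl_mul]
    rw [h1, ← ix_mul (le_dl (ϖ ^ j) N) (le_dl ϖ _), ih, ix_dl hϖ, ← pow_add, mul_add, mul_one]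

/-- the number of vectors killed by `ϖ ^ j` modulo a lattice -/
theorem card_torsion {ϖ : A} (hϖ : Irreducible ϖ) (N : Submodule A V) [hN : N.IsLattice F]
    (j : ℕ) : Nat.card {x : V ⧸ N // ϖ ^ j • x = 0} =
      Nat.card (ResidueField A) ^ (finrank F V * j) := by
  rw [← ix_dl_pow hϖ N, ix_eq_card]
  refine Nat.card_congr (Equiv.subtypeEquivRight fun x => ?_)
  obtain ⟨v, rfl⟩ := N.mkQ_surjective x
  rw [← map_smul, Submodule.mkQ_apply, Submodule.Quotient.mk_eq_zero]
  constructor
  · intro h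
    exact ⟨v, h, rfl⟩
  · rintro ⟨w, hw, hwv⟩
    rw [SetLike.mem_coe, mem_dl] at hw
    rw [Submodule.mkQ_apply, Submodule.mkQ_apply, Submodule.Quotient.eq] at hwv
    have := N.sub_mem hw (N.smul_mem (ϖ ^ j) hwv)
    rwa [← smul_sub, sub_sub_cancel] at this

end Lat

end Vale.Agent.P011.H279
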