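import Vale.Agent.P011.H279.Lat3

/-!
# P011 (helper279), module (B1): the overmodules of `S × A` in `V × F`
-/

open Module IsLocalRing

namespace Vale.Agent.P011.H279

section Rank1
variable {A F : Type*} [CommRing A] [IsDomain A] [IsDiscreteValuationRing A] [Field F]
  [Algebra A F] [IsFractionRing A F]

instance one_lattice : (1 : Submodule A F).IsLattice F where
  fg := by
    rw [Submodule.one_eq_span]
    exact Submodule.fg_span_singleton _
  span_eq_top := by
    rw [eq_top_iff]
    intro x _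
    have h1 : (1 : F) ∈ Submodule.span F ((1 : Submodule A F) : Set F) :=
      Submodule.subset_span (Submodule.one_le.1 le_rfl)
    simpa using Submodule.smul_mem _ x h1

theorem mem_P {ϖ : A} {j : ℕ} {y : F} :
    y ∈ dl (ϖ ^ j) (1 : Submodule A F) ↔ ∃ a : A, algebraMap A F a = ϖ ^ j • y := by
  rw [mem_dl, Submodule.mem_one]

theorem P_succ_le {ϖ : A} (hϖ : Irreducible ϖ) {j : ℕ} {y : F}
    (hy : y ∉ dl (ϖ ^ j) (1 : Submodule A F)) {z : F}
    (hz : z ∈ dl (ϖ ^ (j + 1)) (1 : Submodule A F)) : ∃ a : A, z = a • y := by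
  obtain ⟨c, hc⟩ := mem_P.1 hz
  have hy0 : y ≠ 0 := fun h => hy (h ▸ Submodule.zero_mem _)
  by_cases hz0 : z = 0
  · exact ⟨0, by rw [hz0, zero_smul]⟩
  have hw : (algebraMap A F ϖ) ≠ 0 := by simpa using hϖ.ne_zero
  rcases ValuationRing.isInteger_or_isInteger A (z / y) with ⟨a, ha⟩ | ⟨a, ha⟩
  · exact ⟨a, by rw [Algebra.smul_def, ha, div_mul_cancel₀ _ hy0]⟩
  · rw [inv_div] at ha
    by_cases hu : IsUnit a
    · obtain ⟨u, rfl⟩ := hu
      refine ⟨((u⁻¹ : Aˣ) : A), ?_⟩
      have h3 : algebraMap A F (↑u⁻¹ : A) * algebraMap A F (u : A) = 1 := by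
        rw [← map_mul]; simp
      rw [Algebra.smul_def, eq_comm]
      have h4 : y = algebraMap A F (u : A) * z := by rw [ha, div_mul_cancel₀ _ hz0]
      rw [h4, ← mul_assoc, h3, one_mul]
    · exfalso
      have h5 : a ∈ maximalIdeal A := hu
      rw [hϖ.maximalIdeal_eq, Ideal.mem_span_singleton] at h5
      obtain ⟨b, rfl⟩ := h5
      apply hy
      rw [mem_P]
      refine ⟨b * c, ?_⟩
      have h4 : y = algebraMap A F (ϖ * b) * z := by rw [ha, div_mul_cancel₀ _ hz0]
      rw [h4, map_mul, hc, Algebra.smul_def, Algebra.smul_def, map_pow, map_pow, map_mul]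
      ring

variable [Finite (ResidueField A)]

theorem ix_P {ϖ : A} (hϖ : Irreducible ϖ) (j : ℕ) :
    ix (1 : Submodule A F) (dl (ϖ ^ j) 1) = Nat.card (ResidueField A) ^ j := by
  rw [ix_dl_pow (F := F) hϖ, finrank_self, one_mul]

theorem one_lt_q : 1 < Nat.card (ResidueField A) := Finite.one_lt_card

/-- the fractional ideals containing `A`, of finite index, are the `ϖ⁻ʲ A` -/
theorem eq_P {ϖ : A} (hϖ : Irreducible ϖ) (N : Submodule A F) (h : 1 ≤ N) (hi : ix 1 N ≠ 0) :
    ∃ j, N = dl (ϖ ^ j) 1 := by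
  by_contra! hcon
  have h1 : ∀ j, dl (ϖ ^ j) (1 : Submodule A F) ≤ N := by
    intro j
    induction j with
    | zero => rw [pow_zero, dl_one]; exact h
    | succ j ih =>
      obtain ⟨y, hyN, hyj⟩ := SetLike.exists_of_lt (lt_of_le_of_ne ih (hcon j).symm)
      intro z hz
      obtain ⟨a, rfl⟩ := P_succ_le hϖ hyj hz
      exact N.smul_mem _ hyN
  have h2 : ∀ j, Nat.card (ResidueField A) ^ j ≤ ix 1 N := fun j => by
    rw [← ix_P (F := F) hϖ j]
    exact AddSubgroup.relIndex_le_of_le_right (Submodule.toAddSubgroup_mono (h1 j)) hi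
  have h3 := h2 (ix 1 N)
  have h4 : ix 1 N < Nat.card (ResidueField A) ^ (ix 1 N) := Nat.lt_pow_self one_lt_q
  omega

end Rank1

section Ov
variable {A V W : Type*} [CommRing A] [IsLocalRing A] [AddCommGroup V] [Module A V]
  [AddCommGroup W] [Module A W]

/-- the overmodules of `S` of index `q ^ m` -/
def Ov (S : Submodule A V) (m : ℕ) : Set (Submodule A V) :=
  {N | S ≤ N ∧ ix S N = Nat.card (ResidueField A) ^ m}

/-- transport along a linear equivalence -/
def ovEquiv (e : V ≃ₗ[A] W) (S : Submodule A V) (m : ℕ) :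
    Ov S m ≃ Ov (S.map (e : V →ₗ[A] W)) m where
  toFun N := ⟨N.1.map (e : V →ₗ[A] W), Submodule.map_mono N.2.1, by
    rw [ix_map_of_injective _ e.injective]; exact N.2.2⟩
  invFun N := ⟨N.1.map (e.symm : W →ₗ[A] V), by
    have h := Submodule.map_mono (f := (e.symm : W →ₗ[A] V)) N.2.1
    rw [← Submodule.map_comp] at h
    simpa using h, by
    have h := ix_map_of_injective (e.symm : W →ₗ[A] V) e.symm.injective
      (S.map (e : V →ₗ[A] W)) N.1
    rw [← Submodule.map_comp] at h
    rw [← N.2.2, ← h]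
    simp⟩
  left_inv N := by
    ext1
    simp only
    rw [← Submodule.map_comp]
    simp
  right_inv N := by
    ext1
    simp only
    rw [← Submodule.map_comp]
    simp

end Ov

end Vale.Agent.P011.H279
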