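import Vale.Agent.P011.H279.Lat4

/-!
# P011 (helper279), module (B1): the recursion for the number of overmodules of a lattice
-/

open Module IsLocalRing

namespace Vale.Agent.P011.H279

section Main
variable {A F V : Type*} [CommRing A] [IsDomain A] [IsDiscreteValuationRing A] [Field F]
  [Algebra A F] [IsFractionRing A F] [AddCommGroup V] [Module F V] [Module A V]
  [IsScalarTower A F V]

variable (F) in
/-- the lattice in `V × F` with `N ∩ V = M`, with last coordinates `ϖ⁻ʲ A`, containing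
`(x, ϖ⁻ʲ)` -/
def mkN (ϖ : A) (j : ℕ) (M : Submodule A V) (x : V ⧸ M) : Submodule A (V × F) where
  carrier := {z | ∃ a : A, ϖ ^ j • z.2 = algebraMap A F a ∧ M.mkQ z.1 = a • x}
  zero_mem' := ⟨0, by simp, by simp⟩
  add_mem' := by
    rintro z w ⟨a, h1, h2⟩ ⟨b, h3, h4⟩
    exact ⟨a + b, by rw [Prod.snd_add, smul_add, h1, h3, map_add],
      by rw [Prod.fst_add, map_add, h2, h4, add_smul]⟩
  smul_mem' := by
    rintro c z ⟨a, h1, h2⟩
    refine ⟨c * a, ?_, by rw [Prod.smul_fst, map_smul, h2, mul_smul]⟩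
    rw [Prod.smul_snd, smul_comm, h1, map_mul, Algebra.smul_def]

variable {ϖ : A} {j : ℕ} {M : Submodule A V} {x : V ⧸ M}

theorem mem_mkN {z : V × F} : z ∈ mkN F ϖ j M x ↔
    ∃ a : A, ϖ ^ j • z.2 = algebraMap A F a ∧ M.mkQ z.1 = a • x := Iff.rfl

theorem mkN_fst (v : V) : ((v, 0) : V × F) ∈ mkN F ϖ j M x ↔ v ∈ M := by
  rw [mem_mkN]
  constructor
  · rintro ⟨a, h1, h2⟩
    rw [smul_zero, eq_comm, map_eq_zero_iff _ (IsFractionRing.injective A F)] at h1
    rw [h1, zero_smul, Submodule.mkQ_apply, Submodule.Quotient.mk_eq_zero] at h2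
    exact h2
  · intro h
    refine ⟨0, by rw [smul_zero, map_zero], ?_⟩
    rw [zero_smul, Submodule.mkQ_apply, Submodule.Quotient.mk_eq_zero]
    exact h

theorem mkN_snd (y : F) : (∃ v : V, (v, y) ∈ mkN F ϖ j M x) ↔
    y ∈ dl (ϖ ^ j) (1 : Submodule A F) := by
  rw [mem_P]
  constructor
  · rintro ⟨v, a, h1, h2⟩
    exact ⟨a, h1.symm⟩
  · rintro ⟨a, ha⟩
    obtain ⟨v, hv⟩ := M.mkQ_surjective (a • x)
    exact ⟨v, a, ha.symm, hv⟩

/-- the index of `S × A` in an overmodule -/
theorem ix_prod (S : Submodule A V) (N : Submodule A (V × F)) (h : S.prod 1 ≤ N) :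
    ix (S.prod (1 : Submodule A F)) N =
      ix (1 : Submodule A F) (N.map (LinearMap.snd A V F)) *
        ix S (N.comap (LinearMap.inl A V F)) := by
  rw [ix_split (LinearMap.snd A V F) h]
  congr 1
  · congr 1
    rw [Submodule.prod_map_snd]
  · rw [← ix_map_of_injective (LinearMap.inl A V F) LinearMap.inl_injective S]
    congr 1
    · ext z
      obtain ⟨v, y⟩ := z
      constructor
      · rintro ⟨⟨h1, h2⟩, h3⟩
        obtain rfl : y = 0 := h3
        exact ⟨v, h1, rfl⟩
      · rintro ⟨v', h1, h2⟩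
        obtain ⟨rfl, rfl⟩ := Prod.mk.inj h2
        exact ⟨⟨h1, Submodule.zero_mem _⟩, rfl⟩
    · ext z
      obtain ⟨v, y⟩ := z
      constructor
      · rintro ⟨h1, h3⟩
        obtain rfl : y = 0 := h3
        exact ⟨v, h1, rfl⟩
      · rintro ⟨v', h1, h2⟩
        obtain ⟨rfl, rfl⟩ := Prod.mk.inj h2
        exact ⟨h1, rfl⟩

theorem prod_le_mkN {S : Submodule A V} (h : S ≤ M) (hx : ϖ ^ j • x = 0) :
    S.prod (1 : Submodule A F) ≤ mkN F ϖ j M x := by
  rintro ⟨v, y⟩ ⟨hv, hy⟩
  obtain ⟨b, hb⟩ := Submodule.mem_one.1 hy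
  refine ⟨ϖ ^ j * b, ?_, ?_⟩
  · simp only
    simp only at hb
    rw [← hb, map_mul, Algebra.smul_def]
  · have h1 : M.mkQ v = 0 := by
      rw [Submodule.mkQ_apply, Submodule.Quotient.mk_eq_zero]
      exact h hv
    simp only
    rw [h1, mul_comm, mul_smul, hx, smul_zero]

theorem map_snd_mkN : (mkN F ϖ j M x).map (LinearMap.snd A V F) =
    dl (ϖ ^ j) (1 : Submodule A F) := by
  ext y
  rw [← mkN_snd (M := M) (x := x)]
  constructor
  · rintro ⟨⟨v, y'⟩, h, rfl⟩
    exact ⟨v, h⟩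
  · rintro ⟨v, h⟩
    exact ⟨(v, y), h, rfl⟩

theorem comap_inl_mkN : (mkN F ϖ j M x).comap (LinearMap.inl A V F) = M := by
  ext v
  exact mkN_fst v

variable [Finite (ResidueField A)]

theorem mkN_mem {S : Submodule A V} {m : ℕ} (hϖ : Irreducible ϖ) (hj : j ≤ m)
    (hM : M ∈ Ov S (m - j)) (hx : ϖ ^ j • x = 0) :
    mkN F ϖ j M x ∈ Ov (S.prod (1 : Submodule A F)) m := by
  have h1 := prod_le_mkN (F := F) hM.1 hx
  refine ⟨h1, ?_⟩
  rw [ix_prod S _ h1, map_snd_mkN, comap_inl_mkN, ix_P hϖ, hM.2, ← pow_add]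
  congr 1
  omega

/-- the map from the triples `(j, M, x)` to the overmodules of `S × A` -/
def toOv (hϖ : Irreducible ϖ) (S : Submodule A V) (m : ℕ)
    (t : Σ j : Fin (m + 1), Σ M : Ov S (m - j), {x : V ⧸ M.1 // ϖ ^ (j : ℕ) • x = 0}) :
    Ov (S.prod (1 : Submodule A F)) m :=
  ⟨mkN F ϖ t.1 t.2.1.1 t.2.2.1, mkN_mem hϖ (Nat.lt_succ_iff.1 t.1.2) t.2.1.2 t.2.2.2⟩

theorem toOv_bij (hϖ : Irreducible ϖ) (S : Submodule A V) (m : ℕ) :
    Function.Bijective (toOv (F := F) hϖ S m) := by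
  have hq := one_lt_q (A := A)
  have hw : algebraMap A F ϖ ≠ 0 := by simpa using hϖ.ne_zero
  constructor
  · rintro ⟨j, M, x⟩ ⟨j', M', x'⟩ h
    have h0 : mkN F ϖ j M.1 x.1 = mkN F ϖ j' M'.1 x'.1 := congrArg Subtype.val h
    have h1 : (j : ℕ) = j' := by
      have h2 := congrArg (Submodule.map (LinearMap.snd A V F)) h0
      rw [map_snd_mkN, map_snd_mkN] at h2
      have h3 := ix_P (F := F) hϖ j
      rw [h2, ix_P hϖ] at h3
      exact (Nat.pow_right_injective hq h3).symm
    obtain rfl := Fin.ext h1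
    have h4 : M = M' := by
      have h5 := congrArg (Submodule.comap (LinearMap.inl A V F)) h0
      rw [comap_inl_mkN, comap_inl_mkN] at h5
      exact Subtype.ext h5
    subst h4
    have h6 : x = x' := by
      ext1
      obtain ⟨v, hv⟩ := M.1.mkQ_surjective x.1
      have h7 : (v, (algebraMap A F ϖ ^ (j : ℕ))⁻¹) ∈ mkN F ϖ j M.1 x.1 := by
        refine ⟨1, ?_, by rw [one_smul]; exact hv⟩
        rw [Algebra.smul_def, map_pow, mul_inv_cancel₀ (pow_ne_zero _ hw), map_one]
      rw [h0] at h7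
      obtain ⟨a, h8, h9⟩ := h7
      rw [Algebra.smul_def, map_pow, mul_inv_cancel₀ (pow_ne_zero _ hw), ← map_one (algebraMap A F)]
        at h8
      have h10 : a = 1 := (IsFractionRing.injective A F h8).symm
      rw [h10, one_smul] at h9
      exact hv.symm.trans h9
    subst h6
    rfl
  · rintro ⟨N, hN1, hN2⟩
    have h1 := ix_prod S N hN1
    have h2 : ix (1 : Submodule A F) (N.map (LinearMap.snd A V F)) ≠ 0 := by
      intro h
      rw [h, zero_mul, hN2] at h1
      exact pow_ne_zero _ (by omega) h1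
    have h3 : (1 : Submodule A F) ≤ N.map (LinearMap.snd A V F) := by
      have h := Submodule.map_mono (f := LinearMap.snd A V F) hN1
      rwa [Submodule.prod_map_snd] at h
    obtain ⟨j, hj⟩ := eq_P hϖ _ h3 h2
    rw [hj, ix_P hϖ, hN2] at h1
    have hjm : j ≤ m := by
      have h4 : Nat.card (ResidueField A) ^ j ≤ Nat.card (ResidueField A) ^ m := by
        rw [h1]
        refine Nat.le_mul_of_pos_right _ (Nat.pos_of_ne_zero fun h => ?_)
        rw [h, mul_zero] at h1
        exact pow_ne_zero _ (by omega) h1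
      exact (Nat.pow_le_pow_iff_right hq).1 h4
    have hM : N.comap (LinearMap.inl A V F) ∈ Ov S (m - j) := by
      refine ⟨fun v hv => hN1 ⟨hv, Submodule.zero_mem _⟩, ?_⟩
      have h5 : Nat.card (ResidueField A) ^ m = Nat.card (ResidueField A) ^ j *
          Nat.card (ResidueField A) ^ (m - j) := by
        rw [← pow_add]
        congr 1
        omega
      rw [h5] at h1
      exact (Nat.eq_of_mul_eq_mul_left (pow_pos (by omega) _) h1).symm
    have h6 : (algebraMap A F ϖ ^ j)⁻¹ ∈ dl (ϖ ^ j) (1 : Submodule A F) := by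
      rw [mem_P]
      exact ⟨1, by rw [Algebra.smul_def, map_pow, mul_inv_cancel₀ (pow_ne_zero _ hw), map_one]⟩
    rw [← hj] at h6
    obtain ⟨⟨x₀, y₀⟩, hx₀, hy₀⟩ := h6
    simp only [LinearMap.snd_apply] at hy₀
    subst hy₀
    have h7 : ϖ ^ j • (N.comap (LinearMap.inl A V F)).mkQ x₀ = 0 := by
      rw [← map_smul, Submodule.mkQ_apply, Submodule.Quotient.mk_eq_zero, Submodule.mem_comap,
        LinearMap.inl_apply]
      have h8 := N.smul_mem (ϖ ^ j) hx₀
      have h9 : ((0, 1) : V × F) ∈ N := hN1 ⟨Submodule.zero_mem _, Submodule.one_le.1 le_rfl⟩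
      have h10 := N.sub_mem h8 h9
      rw [Prod.smul_mk, Prod.mk_sub_mk, sub_zero, Algebra.smul_def, map_pow,
        mul_inv_cancel₀ (pow_ne_zero _ hw), sub_self] at h10
      exact h10
    refine ⟨⟨⟨j, by omega⟩, ⟨_, hM⟩, ⟨_, h7⟩⟩, ?_⟩
    apply Subtype.ext
    change mkN F ϖ j (N.comap (LinearMap.inl A V F))
      ((N.comap (LinearMap.inl A V F)).mkQ x₀) = N
    have key : ∀ (a : A) (v : V) (y : F), ϖ ^ j • y = algebraMap A F a →
        ((v, y) : V × F) - a • (x₀, (algebraMap A F ϖ ^ j)⁻¹) = (v - a • x₀, 0) := by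
      intro a v y h
      rw [Prod.smul_mk, Prod.mk_sub_mk, Prod.mk.injEq]
      refine ⟨rfl, ?_⟩
      rw [Algebra.smul_def, ← h, Algebra.smul_def, map_pow]
      field_simp
      ring
    ext ⟨v, y⟩
    rw [mem_mkN]
    constructor
    · rintro ⟨a, h11, h12⟩
      simp only at h11 h12
      rw [← map_smul, Submodule.mkQ_apply, Submodule.mkQ_apply, Submodule.Quotient.eq,
        Submodule.mem_comap, LinearMap.inl_apply, ← key a v y h11] at h12
      have h13 := N.add_mem h12 (N.smul_mem a hx₀)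
      rwa [sub_add_cancel] at h13
    · intro h
      have h11 : y ∈ N.map (LinearMap.snd A V F) := ⟨(v, y), h, rfl⟩
      rw [hj, mem_P] at h11
      obtain ⟨a, ha⟩ := h11
      refine ⟨a, ha.symm, ?_⟩
      simp only
      rw [← map_smul, Submodule.mkQ_apply, Submodule.mkQ_apply, Submodule.Quotient.eq,
        Submodule.mem_comap, LinearMap.inl_apply, ← key a v y ha.symm]
      exact N.sub_mem h (N.smul_mem a hx₀)

theorem lattice_of_mem {S : Submodule A V} [hS : S.IsLattice F] {m : ℕ} {N : Submodule A V}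
    (h : N ∈ Ov S m) : N.IsLattice F :=
  isLattice_of_ix h.1 (by rw [h.2]; exact pow_ne_zero _ (Nat.card_pos (α := ResidueField A)).ne')

/-- **the recursion** for the number of overmodules of a lattice, with finiteness -/
theorem ov_prod [Module.Finite F V] (S : Submodule A V) [hS : S.IsLattice F]
    (hf : ∀ m, (Ov S m).Finite) (m : ℕ) :
    (Ov (S.prod (1 : Submodule A F)) m).Finite ∧
      Nat.card (Ov (S.prod (1 : Submodule A F)) m) = ∑ j ∈ Finset.range (m + 1),
        Nat.card (ResidueField A) ^ (finrank F V * j) * Nat.card (Ov S (m - j)) := by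
  obtain ⟨ϖ, hϖ⟩ := IsDiscreteValuationRing.exists_irreducible A
  have hb := toOv_bij (F := F) hϖ S m
  have hlat : ∀ j, ∀ M : Ov S (m - j), M.1.IsLattice F := fun j M => lattice_of_mem M.2
  have hq0 : 0 < Nat.card (ResidueField A) := Nat.card_pos
  have hfin : ∀ (j : Fin (m + 1)) (M : Ov S (m - j)),
      Finite {x : V ⧸ M.1 // ϖ ^ (j : ℕ) • x = 0} := fun j M => by
    have := hlat j M
    apply Nat.finite_of_card_ne_zero
    rw [card_torsion (F := F) hϖ]
    exact pow_ne_zero _ hq0.ne'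
  have hfS : ∀ j : Fin (m + 1), Finite (Ov S (m - j)) := fun j => (hf _).to_subtype
  have hsig : Finite (Σ j : Fin (m + 1), Σ M : Ov S (m - j),
      {x : V ⧸ M.1 // ϖ ^ (j : ℕ) • x = 0}) := inferInstance
  refine ⟨@Set.toFinite _ _ (Finite.of_surjective _ hb.2), ?_⟩
  rw [← Nat.card_congr (Equiv.ofBijective _ hb), Nat.card_sigma, Finset.sum_range]
  refine Finset.sum_congr rfl fun j _ => ?_
  have hfj := hfS j
  have := Fintype.ofFinite (Ov S (m - j))
  rw [Nat.card_sigma]
  have h1 : ∀ M : Ov S (m - j), Nat.card {x : V ⧸ M.1 // ϖ ^ (j : ℕ) • x = 0} =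
      Nat.card (ResidueField A) ^ (finrank F V * j) := fun M => by
    have := hlat j M
    exact card_torsion (F := F) hϖ _ _
  rw [Finset.sum_congr rfl fun M _ => h1 M, Finset.sum_const, smul_eq_mul, mul_comm,
    Finset.card_univ, Nat.card_eq_fintype_card (α := Ov S (m - j))]

end Main

end Vale.Agent.P011.H279
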