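import Vale.Agent.P011.H279.Lat5

/-!
# P011 (helper279), module (B1): the number of overmodules of `A ^ n` of index `q ^ m` in `F ^ n`
-/

open Module IsLocalRing

namespace Vale.Agent.P011.H279

section Std
variable (A F : Type*) [CommRing A] [IsDomain A] [IsDiscreteValuationRing A] [Field F]
  [Algebra A F] [IsFractionRing A F]

/-- the standard lattice `A ^ ι` in `F ^ ι` -/
def std (ι : Type*) : Submodule A (ι → F) := Submodule.pi Set.univ fun _ => 1

variable {A F}

omit [IsDomain A] [IsDiscreteValuationRing A] [IsFractionRing A F] in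
theorem mem_std {ι : Type*} {x : ι → F} :
    x ∈ std A F ι ↔ ∀ i, ∃ a : A, algebraMap A F a = x i := by
  simp [std, Submodule.mem_pi, Submodule.mem_one]

omit [IsDomain A] [IsDiscreteValuationRing A] [IsFractionRing A F] in
theorem std_eq_range (ι : Type*) :
    std A F ι = LinearMap.range ((Algebra.linearMap A F).compLeft ι) := by
  ext x
  rw [mem_std, LinearMap.mem_range]
  constructor
  · intro h
    choose a ha using h
    exact ⟨a, funext ha⟩
  · rintro ⟨a, rfl⟩ i
    exact ⟨a i, rfl⟩

instance std_lattice (ι : Type*) [Finite ι] : (std A F ι).IsLattice F where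
  fg := by
    rw [std_eq_range, LinearMap.range_eq_map]
    exact Submodule.FG.map _ (Module.Finite.fg_top)
  span_eq_top := by
    classical
    rw [eq_top_iff, ← (Pi.basisFun F ι).span_eq]
    refine Submodule.span_mono ?_
    rintro _ ⟨i, rfl⟩
    rw [SetLike.mem_coe, mem_std]
    intro j
    rw [Pi.basisFun_apply]
    by_cases h : j = i
    · subst h
      exact ⟨1, by simp⟩
    · exact ⟨0, by simp [h]⟩

/-- `F ^ (n + 1) = F ^ n × F` -/
def splitE (n : ℕ) : (Fin (n + 1) → F) ≃ₗ[A] (Fin n → F) × F where
  toFun x := (fun i => x i.succ, x 0)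
  invFun z := Fin.cons z.2 z.1
  map_add' x y := rfl
  map_smul' a x := rfl
  left_inv x := by
    ext i
    refine Fin.cases ?_ (fun i => ?_) i <;> simp
  right_inv z := by
    ext i <;> simp

theorem map_splitE (n : ℕ) : (std A F (Fin (n + 1))).map (splitE (A := A) (F := F) n :
    (Fin (n + 1) → F) →ₗ[A] (Fin n → F) × F) = (std A F (Fin n)).prod 1 := by
  ext ⟨v, y⟩
  rw [Submodule.mem_prod, mem_std, Submodule.mem_one]
  constructor
  · rintro ⟨x, hx, hxy⟩
    rw [SetLike.mem_coe, mem_std] at hx
    obtain ⟨rfl, rfl⟩ := Prod.mk.inj hxy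
    exact ⟨fun i => hx i.succ, hx 0⟩
  · rintro ⟨h1, h2⟩
    refine ⟨Fin.cons y v, ?_, ?_⟩
    · rw [SetLike.mem_coe, mem_std]
      intro i
      refine Fin.cases ?_ (fun i => ?_) i
      · simpa using h2
      · simpa using h1 i
    · exact (splitE (A := A) (F := F) n).right_inv (v, y)

variable [Finite (ResidueField A)]

theorem ov_std_zero : ∀ m, (Ov (std A F (Fin 0)) m).Finite ∧
    Nat.card (Ov (std A F (Fin 0)) m) = if m = 0 then 1 else 0 := by
  intro m
  have h0 : ∀ N : Submodule A (Fin 0 → F), N = std A F (Fin 0) := fun N => Subsingleton.elim _ _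
  have h1 : Finite (Submodule A (Fin 0 → F)) := inferInstance
  refine ⟨Set.toFinite _, ?_⟩
  split_ifs with hm
  · subst hm
    have h2 : Ov (std A F (Fin 0)) 0 = {std A F (Fin 0)} := by
      ext N
      rw [Set.mem_singleton_iff]
      refine ⟨fun _ => h0 N, fun h => ?_⟩
      rw [h]
      exact ⟨le_rfl, by rw [ix_self, pow_zero]⟩
    rw [h2, Nat.card_unique]
  · have h2 : Ov (std A F (Fin 0)) m = ∅ := by
      rw [Set.eq_empty_iff_forall_notMem]
      rintro N ⟨-, h4⟩
      rw [h0 N, ix_self] at h4
      have h5 := Nat.one_lt_pow hm (one_lt_q (A := A))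
      omega
    rw [h2]
    simp

/-- **the recursion** -/
theorem ov_std (n : ℕ) : ∀ m, (Ov (std A F (Fin (n + 1))) m).Finite ∧
    Nat.card (Ov (std A F (Fin (n + 1))) m) = ∑ j ∈ Finset.range (m + 1),
      Nat.card (ResidueField A) ^ (n * j) * Nat.card (Ov (std A F (Fin n)) (m - j)) := by
  have key : ∀ n, (∀ m, (Ov (std A F (Fin n)) m).Finite) →
      ∀ m, (Ov (std A F (Fin (n + 1))) m).Finite ∧
    Nat.card (Ov (std A F (Fin (n + 1))) m) = ∑ j ∈ Finset.range (m + 1),
      Nat.card (ResidueField A) ^ (n * j) * Nat.card (Ov (std A F (Fin n)) (m - j)) := by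
    intro n hn m
    have h1 := ov_prod (F := F) (std A F (Fin n)) hn m
    rw [finrank_fin_fun] at h1
    have e := ovEquiv (splitE (A := A) (F := F) n) (std A F (Fin (n + 1))) m
    rw [map_splitE] at e
    refine ⟨?_, by rw [Nat.card_congr e, h1.2]⟩
    have := h1.1.to_subtype
    exact @Set.toFinite _ _ (Finite.of_equiv _ e.symm)
  have hfin : ∀ n m, (Ov (std A F (Fin n)) m).Finite := by
    intro n
    induction n with
    | zero => exact fun m => (ov_std_zero m).1
    | succ n ih => exact fun m => (key n ih m).1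
  exact key n (hfin n)

theorem ov_std_finite (n m : ℕ) : (Ov (std A F (Fin n)) m).Finite := by
  cases n with
  | zero => exact (ov_std_zero m).1
  | succ n => exact (ov_std n m).1

variable (A F) in
/-- the number of lattices containing `A ^ n` with index `q ^ m` -/
noncomputable def cn (n m : ℕ) : ℕ := Nat.card (Ov (std A F (Fin n)) m)

/-- **the generating function**: `∑ cₙ(m) Xᵐ = ∏ (1 - qⁱ X)⁻¹`, `i < n` -/
theorem gen (R : Type*) [CommRing R] (n : ℕ) :
    (PowerSeries.mk fun m => (cn A F n m : R)) *
      ∏ i ∈ Finset.range n, (1 - PowerSeries.C ((Nat.card (ResidueField A) : R) ^ i) *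
        PowerSeries.X) = 1 := by
  induction n with
  | zero =>
    rw [Finset.range_zero, Finset.prod_empty, mul_one]
    ext m
    rw [PowerSeries.coeff_mk, PowerSeries.coeff_one, cn, (ov_std_zero m).2]
    split_ifs <;> simp
  | succ n ih =>
    set q : R := (Nat.card (ResidueField A) : R) with hq
    have h1 : (PowerSeries.mk fun m => (cn A F (n + 1) m : R)) =
        (PowerSeries.mk fun j => (q ^ n) ^ j) * PowerSeries.mk fun m => (cn A F n m : R) := by
      ext m
      rw [PowerSeries.coeff_mul, PowerSeries.coeff_mk, cn, (ov_std n m).2,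
        Finset.Nat.sum_antidiagonal_eq_sum_range_succ_mk]
      push_cast
      refine Finset.sum_congr rfl fun j hj => ?_
      rw [PowerSeries.coeff_mk, PowerSeries.coeff_mk, ← pow_mul, cn]
    have h2 : (PowerSeries.mk fun j => (q ^ n) ^ j) *
        (1 - PowerSeries.C (q ^ n) * PowerSeries.X) = 1 := by
      ext m
      rw [mul_sub, mul_one, map_sub, PowerSeries.coeff_mk, ← mul_assoc, mul_comm _ (PowerSeries.C _),
        mul_assoc, PowerSeries.coeff_C_mul, PowerSeries.coeff_one]
      cases m with
      | zero => simp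
      | succ m =>
        rw [PowerSeries.coeff_succ_mul_X, PowerSeries.coeff_mk, if_neg (Nat.succ_ne_zero m),
          pow_succ', sub_self]
    rw [h1, Finset.prod_range_succ, mul_comm (PowerSeries.mk fun j => (q ^ n) ^ j)]
    calc _ = ((PowerSeries.mk fun m => (cn A F n m : R)) *
          ∏ i ∈ Finset.range n, (1 - PowerSeries.C (q ^ i) * PowerSeries.X)) *
          ((PowerSeries.mk fun j => (q ^ n) ^ j) *
            (1 - PowerSeries.C (q ^ n) * PowerSeries.X)) := by ring
      _ = 1 := by rw [ih, h2, mul_one]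

end Std

end Vale.Agent.P011.H279
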