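import Vale.Agent.P011.H279.SpecI
import Vale.Agent.P011.H279.AsmF
import Vale.Agent.P011.H271.WauF
import Vale.Agent.P011.H73.OmFF
import Vale.Agent.P011.H73.Desc
import Vale.Agent.P011.H775.Inf

/-!
# Assembly of Part I over function fields
-/

set_option linter.unusedSectionVars false

open Module TensorProduct

namespace Vale.Agent.P011.H279.Asm

open Vale.Agent.P011.H738 Vale.Agent.P011.H271 Vale.Agent.P011.H775 Vale.Agent.P011.H948
open Vale.Agent.P011.H305 Vale.Agent.P011.H182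

section inf

variable {k K D F : Type} [Field k] [GFF k] [Field K] [Field F] [StarRing K] [DivisionRing D]
  [StarRing D] [Algebra k K] [Algebra k D] [Algebra K D] [IsScalarTower k K D] [Algebra k F]
  [StarModule K D] [FiniteDimensional K D] [Algebra.IsCentral K D]
  [FiniteDimensional k F] [Algebra.IsSeparable k F] {C : Cub K D} {φ : F →ₐ[k] D}

/-- The point at infinity. -/
theorem locPt_inf (hA : Anis k K D 3) (M : Dat C φ) {v : Place k} (hv : v ∉ Adiv k K D)
    (hp : ¬ Nonempty (F →ₐ[k] v.comp)) (t : F) : LocPt v (M.A (t, 0)) (M.G (t, 0)) := by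
  obtain ⟨Ω, _, _, _, _, _, _, hΩ, ⟨g⟩⟩ := H73.exists_omega Nat.prime_three hA v hv
  have : Infinite k := infinite_of_pl v
  have : Infinite Ω := Infinite.of_injective (algebraMap k Ω) (algebraMap k Ω).injective
  have h := M.exists_point_inf t g
  exact H73.Desc.descent M.H.hF (not_nonempty_iff.mp hp) hΩ _ _ h

end inf

variable {k K D : Type} [Field k] [GFF k] [Field K] [StarRing K] [DivisionRing D] [StarRing D]
  [Algebra k K] [Algebra k D] [Algebra K D] [IsScalarTower k K D]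

/-- **Part I over function fields, from its modules.** -/
theorem partI_of [FiniteDimensional K D] [Algebra.IsCentral K D] {d : kˣ} {s : K}
    (hS : SetF k K D d s) (hdeg : finrank K D = 3 ^ 2) (C : Cub K D) {N : ℕ}
    (B : Basis (Fin N) k D) (hF1 : F1Stmt C d s) (hF2 : F2Stmt C B)
    (hSk : ∀ (F : Type) [Field F] [Algebra k F] [FiniteDimensional k F]
      [Algebra.IsSeparable k F], finrank k F = 3 → SkStmt k F)
    (hF7 : ∀ (F : Type) [Field F] [Algebra k F] [FiniteDimensional k F]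
      [Algebra.IsSeparable k F], finrank k F = 3 → F7Stmt k F)
    {x0 : D} {T : Set (Place k)} (hT : T.Finite) (hne : T.Nonempty)
    (hTA : ∀ v ∈ Adiv k K D, v ∈ T) (hM8 : ∀ v ∈ T, M8At C B d s x0 v) :
    ∃ ε : ℝ, 0 < ε ∧ ∀ x : D, x * star x = 1 → (∀ v ∈ T, na B v.abv (x - x0) < ε) →
      ∃ w : D, w * star w = 1 ∧ C.T ((x - 1) * w) = 0 := by
  classical
  have hst := hS.starModule
  have hA : Anis k K D 3 := hS.anis hdeg
  obtain ⟨v1, hv1⟩ := hne
  choose! uv huv ε hε hM using hM8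
  obtain ⟨v2, hv2, hmin⟩ := hT.toFinset.exists_min_image ε ⟨v1, hT.mem_toFinset.2 hv1⟩
  refine ⟨ε v2, hε v2 (hT.mem_toFinset.1 hv2), fun x hx hxx => ?_⟩
  have hxε : ∀ v ∈ T, na B v.abv (x - x0) < ε v := fun v hv =>
    (hxx v hv).trans_le (hmin v (hT.mem_toFinset.2 hv))
  obtain ⟨u, hu, huu⟩ := WauF.wa_unitaryF hA B hT huv
    (ε := fun v => if v ∈ T then ε v else 1) (fun v => by
      by_cases h : v ∈ T
      · simp only [if_pos h]; exact hε v h
      · simp only [if_neg h]; exact one_pos)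
  have huε : ∀ v ∈ T, na B v.abv (u - uv v) < ε v := fun v hv => by
    have h := huu v hv
    simp only [if_pos hv] at h
    exact h
  have hM' : ∀ v ∈ T, _ := fun v hv => hM v hv x u hx hu (hxε v hv) (huε v hv)
  have hTu : C.T ((x - 1) * u) ≠ 0 := (hM' v1 hv1).1
  obtain ⟨g, y, hch, hlast⟩ := hF1 x u hu hTu
  have hM2 := fun v hv => (hM' v hv).2 g y hch
  have hgc := (hM2 v1 hv1).1
  have hSg := (hM2 v1 hv1).2.1
  have hM3 := fun v hv => (hM2 v hv).2.2
  choose! z z' a b t hz hz' hzz ht hN γ hγ hrest using hM3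
  obtain ⟨r, hr0, hr, hnear⟩ := hF2 g hch.hg hch.Tg hgc T hT z z' a b t hz hz' hzz ht hN γ hγ
  obtain ⟨F, _, _, _, _, φ, σ, M, hMd, hw⟩ := hlast r hgc hSg hr0 hr
  have hfr := hMd.hF
  set B' := finBasis k (F × k) with hB'
  have hM4 := fun v hv => hrest v hv r hr (hnear v hv) F φ σ M hMd _ B'
  choose! e e' hee hN' γ' hγ' hlp using hM4
  have hQ0 : ∀ t, M.Q (t, 0) = M.c₁ * e2 k t := fun t => by
    rw [M.Q_apply]
    simp
  have hc₁ : M.c₁ ≠ 0 := by
    rw [Dat.c₁]
    refine mul_ne_zero (mul_ne_zero M.d0 M.D00) ?_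
    intro h1
    have h2 := M.H.rk_eq M.star_N_h
    rw [h1, map_zero] at h2
    have h3 : M.h ≠ 0 := by
      intro h4
      apply M.prh0
      change pr C φ (C.adj M.h) = 0
      rw [h4, C.adj_zero, map_zero]
    exact C.N_ne_zero h3 h2.symm
  obtain ⟨ρ, hρ, hρn, hρA, hρp⟩ := hF7 F hfr M.Q M.c₁ hc₁ hQ0 M.a M.b M.ha M.hb M.D00 M.al
    M.al_ne_zero M.be _ B' T hT e e' hee hN' γ' hγ'
  obtain ⟨Good, S₀, hS₀, hsk, hn, hf⟩ := hSk F hfr
  have hAρ : M.A ρ ≠ 0 := by
    rw [Dat.A, map_pow]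
    exact hρA
  obtain ⟨zz, hzz0, hzzQ, e1, he1⟩ := exists_of_localF M Good LocPt hS₀ hsk hn hf hT v1 hρ hρp
    hAρ (fun v hv => hlp v hv ρ hρ (hρn v hv)) (fun v hv => by
      by_cases hp : Nonempty (F →ₐ[k] v.comp)
      · exact Or.inl hp
      · exact Or.inr fun t _ => locPt_inf hA M (fun h => hv (hTA v h)) hp t)
  exact hw zz hzz0 hzzQ e1 he1

end Vale.Agent.P011.H279.Asm
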