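import Vale.Agent.P011.H279.DatSF
import Vale.Agent.P011.H279.AsmF
import Vale.Agent.P011.H279.PartI
import Vale.Agent.P011.Hey.H63.Sk7

/-!
# The Skolem step of Part I over function fields
-/

set_option linter.unusedSectionVars false

open Module TensorProduct

namespace Vale.Agent.P011.H279.M10F

open Vale.Agent.P011.H738 Vale.Agent.P011.H271 Vale.Agent.P011.H775 Vale.Agent.P011.H948
open Vale.Agent.P011.H305 Vale.Agent.P011.H279.PartI Vale.Agent.P011.H279.Asm
open Vale.Agent.P011.Hey.H63 (GoodF LpF)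
open Vale.Agent.P011.H182 (na)

variable {k K D : Type} [Field k] [GFF k] [Field K] [StarRing K]
  [DivisionRing D] [StarRing D] [Algebra k K] [Algebra k D] [Algebra K D] [IsScalarTower k K D]

/-- The local condition at the places where `D` ramifies. -/
def Gv (F : Type) [Field F] [Algebra k F] (v : Place k) (A : F) (G : k) : Prop :=
  Nonempty (F →ₐ[k] v.comp) ∨ LpF F v A G

/-- **The Skolem step.** -/
theorem m10 {d : kˣ} {s : K} (hS : SetF k K D d s) (hdeg : finrank K D = 3 ^ 2) (C : Cub K D)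
    {Td : Set (Place k)} (hTd : Td.Finite) (hA : Adiv k K D ⊆ Td) (v0 : Place k) :
    M10 C d s Td (fun F => Gv F) := by
  intro F _ _ _ _ φ _ _ M hF hδ hd z hz hG
  have hst := hS.starModule
  have hAn : Anis k K D 3 := hS.anis hdeg
  obtain ⟨S₀, hS₀, hsk⟩ := Hey.H63.skolemF (F := F) hF hS.two_ne
  refine exists_of_localF M (GoodF F) (LpF F) hS₀ hsk (Hey.H63.hnearF hF hS.two_ne)
    (Hey.H63.hfarF hF hS.two_ne) hTd v0 hz.Q hz.pol hz.A hG ?_
  intro v hv
  by_cases hp : Nonempty (F →ₐ[k] v.comp)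
  · exact Or.inl hp
  · exact Or.inr fun t _ => Or.inl (locPt_inf hAn M (fun h => hv (hA h)) hp t)

/-- **Part I over function fields, from the local statement `M8`.** -/
theorem partI_of_M8 {d : kˣ} {s : K} (hS : SetF k K D d s) (h3 : (3 : k) ≠ 0)
    (hdeg : finrank K D = 3 ^ 2) (C : Cub K D) {N : ℕ} (B : Basis (Fin N) k D)
    {P1 : Set (Place k)} (hP1 : P1.Finite) (hne : P1.Nonempty) {Td : Set (Place k)}
    (hTd : Td ⊆ P1) (hA : Adiv k K D ⊆ Td) {x0 : D} (h8 : M8 hS C B Td P1 (fun F => Gv F) x0) :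
    ∃ ε : ℝ, 0 < ε ∧ ∀ x : D, x * star x = 1 → (∀ v ∈ P1, na B v.abv (x - x0) < ε) →
      ∃ w : D, w * star w = 1 ∧ C.T ((x - 1) * w) = 0 := by
  obtain ⟨v0, -⟩ := hne
  exact partI_of hS h3 hdeg C B hP1 hTd h8 (DatSF.f1S hS h3 hdeg C)
    (m10 hS hdeg C (hP1.subset hTd) hA v0)

end Vale.Agent.P011.H279.M10F
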