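import Vale.Agent.P011.H279.PartIF
import Vale.Agent.P011.H279.TnA
import Vale.Agent.P011.H698.DensFF
import Vale.Agent.P011.H271.ConF3

/-!
# Unitary elements whose chart is close to infinity, over function fields

(Twin of `H321/M8a.lean` and `H321/M8b.lean`.)
-/

set_option linter.unusedSectionVars false

open Module Filter Topology

namespace Vale.Agent.P011.H279.M8a

open Vale.Agent.P011.H738 Vale.Agent.P011.H271 Vale.Agent.P011.H775 Vale.Agent.P011.H948
open Vale.Agent.P011.H305 Vale.Agent.P011.H279.Asm Vale.Agent.P011.H279.V0F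
open Vale.Agent.P011.H279.PartI Vale.Agent.P011.H279.TnA
open Vale.Agent.P011.H182 (na na_zero na_nonneg na_smul na_add_le na_neg)

variable {k K D : Type} [Field k] [Field K] [StarRing K]
  [DivisionRing D] [StarRing D] [Algebra k K] [Algebra k D] [Algebra K D] [IsScalarTower k K D]
  {d : kˣ} {s : K} {N : ℕ}

section alg

/-- The trace form is non-degenerate. -/
theorem eq_zero_of_T (h3 : (3 : K) ≠ 0) (C : Cub K D) {a : D}
    (h : ∀ e, C.T (a * e) = 0) : a = 0 := by
  by_contra ha
  have h1 := h a⁻¹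
  rw [mul_inv_cancel₀ ha, C.T_one] at h1
  exact h3 h1

theorem exists_T_pair (h30 : (3 : K) ≠ 0) (C : Cub K D) {m m' : D} (hm' : m' ≠ 0)
    (hm : ∀ α : K, m ≠ α • m') (c : K) : ∃ e, C.T (m * e) = c ∧ C.T (m' * e) = 0 := by
  have h1 : ∃ e1, C.T (m' * e1) ≠ 0 := by
    by_contra hcon
    push Not at hcon
    exact hm' (eq_zero_of_T h30 C hcon)
  obtain ⟨e1, he1⟩ := h1
  have h2 : ∃ e0, C.T (m' * e0) = 0 ∧ C.T (m * e0) ≠ 0 := by
    by_contra hcon
    push Not at hcon
    set α : K := C.T (m * e1) / C.T (m' * e1) with hα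
    apply hm α
    rw [← sub_eq_zero]
    apply eq_zero_of_T h30 C
    intro e
    have h3 := hcon (e - (C.T (m' * e) / C.T (m' * e1)) • e1) (by
      rw [mul_sub, mul_smul_comm, map_sub, map_smul, smul_eq_mul, div_mul_cancel₀ _ he1, sub_self])
    rw [mul_sub, mul_smul_comm, map_sub, map_smul, smul_eq_mul] at h3
    rw [sub_mul, smul_mul_assoc, map_sub, map_smul, smul_eq_mul, hα]
    field_simp at h3 ⊢
    linear_combination h3
  obtain ⟨e0, h3, h4⟩ := h2
  refine ⟨(c / C.T (m * e0)) • e0, ?_, ?_⟩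
  · rw [mul_smul_comm, map_smul, smul_eq_mul, div_mul_cancel₀ _ h4]
  · rw [mul_smul_comm, map_smul, h3, smul_zero]

/-- A skew element with prescribed trace against `m`. -/
theorem exists_skew (hS : SetF k K D d s) (h30 : (3 : K) ≠ 0) (hdeg : finrank K D = 3 ^ 2)
    (C : Cub K D) {m : D}
    (hind : ∀ a b : K, a • m + b • star m = 0 → a = 0 ∧ b = 0) (c : K) :
    ∃ b, star b = -b ∧ C.T (m * b) = c := by
  have hs0 : star m ≠ 0 := by
    intro h0
    have := (hind 0 1 (by rw [h0, zero_smul, smul_zero, add_zero])).2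
    exact one_ne_zero this
  obtain ⟨e, he, he'⟩ := exists_T_pair h30 C hs0 (m := m) (fun α h => by
    have := (hind 1 (-α) (by rw [one_smul, neg_smul, ← h, add_neg_cancel])).1
    exact one_ne_zero this) c
  refine ⟨e - star e, by rw [star_sub, star_star, neg_sub], ?_⟩
  have h := scub hS hdeg C
  have h1 : C.T (m * star e) = 0 := by
    have h2 : m * star e = star (e * star m) := by rw [star_mul, star_star]
    rw [h2, h.T, C.T_comm, he', star_zero]
  rw [mul_sub, map_sub, he, h1, sub_zero]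

/-- One of the two standard scalars gives a limit direction with non-zero second coefficient. -/
theorem exists_kap (hS : SetF k K D d s) (hdeg : finrank K D = 3 ^ 2) (C : Cub K D)
    {x0 w0 : D} (hx0 : x0 * star x0 = 1) (hw0 : w0 * star w0 = 1)
    (hT0 : C.T ((x0 - 1) * w0) = 0) (hN3 : C.T x0 + C.T (star x0) ≠ 6) :
    ∃ κ : K, κ ≠ 0 ∧ C.S (κ • ((x0 - 1) * w0) + star (κ • ((x0 - 1) * w0))) ≠ 0 := by
  have h := scub hS hdeg C
  have h20 := two_neK hS
  set m : D := (x0 - 1) * w0 with hm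
  have hmm : C.T (m * star m) ≠ 0 := by
    have e1 : m * star m = 2 - x0 - star x0 := by
      rw [hm, star_mul, star_sub, star_one]
      calc (x0 - 1) * w0 * (star w0 * (star x0 - 1))
          = (x0 - 1) * (w0 * star w0) * (star x0 - 1) := by simp only [mul_assoc]
        _ = x0 * star x0 - x0 - star x0 + 1 := by rw [hw0]; noncomm_ring
        _ = _ := by
          rw [hx0, ← one_add_one_eq_two]
          abel
    have h2 : (2 : D) = (2 : K) • (1 : D) := by
      rw [ofNat_smul_eq_nsmul, nsmul_eq_mul, mul_one]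
      rfl
    rw [e1, h2, map_sub, map_sub, map_smul, C.T_one, smul_eq_mul]
    intro h0
    apply hN3
    linear_combination -h0
  have hTm : C.T m = 0 := hT0
  have hTms : C.T (star m) = 0 := by rw [h.T, hTm, star_zero]
  have hS' : ∀ κ : K, 2 * C.S (κ • m + star (κ • m)) = -(κ ^ 2 * C.T (m * m) +
      2 * (κ * star κ) * C.T (m * star m) + (star κ) ^ 2 * C.T (star m * star m)) := by
    intro κ
    have e1 : C.T (κ • m + star (κ • m)) = 0 := by
      rw [hS.star_smul, map_add, map_smul, map_smul, hTm, hTms, smul_zero, smul_zero, add_zero]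
    have e2 : ∀ z : D, C.T z = 0 → 2 * C.S z = -(C.T (z * z)) := by
      intro z hz
      have h3 := C.adj_eq z
      have h4 := congrArg C.T h3
      rw [hz, zero_smul, sub_zero, map_add, map_smul, C.T_one, smul_eq_mul] at h4
      have h5 : C.T (C.adj z) = C.S z := rfl
      rw [h5] at h4
      linear_combination -h4
    rw [e2 _ e1, hS.star_smul]
    have e3 : (κ • m + star κ • star m) * (κ • m + star κ • star m) =
        κ ^ 2 • (m * m) + (κ * star κ) • (m * star m) + (κ * star κ) • (star m * m) +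
          (star κ) ^ 2 • (star m * star m) := by
      simp only [add_mul, mul_add, smul_mul_assoc, mul_smul_comm, smul_add, smul_smul, pow_two,
        mul_comm (star κ) κ]
      abel
    rw [e3, map_add, map_add, map_add, map_smul, map_smul, map_smul, map_smul,
      C.T_comm (star m) m]
    simp only [smul_eq_mul]
    ring
  have hs0 := s_ne_zero hS
  by_contra hcon
  push Not at hcon
  have h1 := hcon 1 one_ne_zero
  have h2 := hcon s hs0
  have h1' := hS' 1
  have h2' := hS' s
  rw [h1, mul_zero, star_one] at h1'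
  rw [h2, mul_zero, hS.star_s] at h2'
  apply hmm
  have hs2 : s ^ 2 ≠ 0 := pow_ne_zero 2 hs0
  have h4 : (2 * 2 * s ^ 2) * C.T (m * star m) = 0 := by
    linear_combination (s ^ 2) * h1' - h2'
  exact (mul_eq_zero.1 h4).resolve_left (mul_ne_zero (mul_ne_zero h20 h20) hs2)

end alg

section seq

/-- Non-zero scalars which are small at finitely many places. -/
theorem exists_lam0 [GFF k] {P1 : Set (Place k)} (hP1 : P1.Finite) {η : ℝ} (hη : 0 < η) :
    ∃ x : k, x ≠ 0 ∧ ∀ v ∈ P1, v.abv x < η := by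
  classical
  rcases P1.eq_empty_or_nonempty with rfl | ⟨q, hq⟩
  · exact ⟨1, one_ne_zero, fun v hv => absurd hv (Set.notMem_empty v)⟩
  obtain ⟨z, hz, hz1⟩ := ConF.exists_small q hη
  have hzq : 0 < q.abv z := q.abv.pos hz
  set S : Finset (Place k) := hP1.toFinset with hS
  obtain ⟨a, ha⟩ := H698.place_weak S
    (fun v => if (v : Place k) = q then algebraMap k (v : Place k).comp z else 0)
    (lt_min hη hzq)
  refine ⟨a, ?_, fun v hv => ?_⟩
  · rintro rfl
    have h1 := ha ⟨q, by rw [hS, Set.Finite.mem_toFinset]; exact hq⟩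
    rw [if_pos rfl, map_zero, zero_sub, norm_neg, norm_alg] at h1
    exact absurd (h1.trans_le (min_le_right _ _)) (lt_irrefl _)
  · have h1 := ha ⟨v, by rw [hS, Set.Finite.mem_toFinset]; exact hv⟩
    by_cases h : v = q
    · subst h
      rw [if_pos rfl, ← map_sub, norm_alg] at h1
      have e : a = (a - z) + z := by ring
      rw [e]
      exact (v.nonarch _ _).trans_lt (max_lt (h1.trans_le (min_le_left _ _)) hz1)
    · rw [if_neg h, sub_zero, norm_alg] at h1
      exact h1.trans_le (min_le_left _ _)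

/-- A sequence of non-zero scalars tending to zero at finitely many places. -/
theorem exists_lam [GFF k] {P1 : Set (Place k)} (hP1 : P1.Finite) :
    ∃ lam : ℕ → k, (∀ j, lam j ≠ 0) ∧
      ∀ v ∈ P1, Tendsto (fun j => v.abv (lam j)) atTop (𝓝 0) := by
  choose lam h1 h2 using fun j : ℕ => exists_lam0 hP1
    (η := 1 / ((j : ℝ) + 1)) (by positivity)
  refine ⟨lam, h1, fun v hv => ?_⟩
  exact squeeze_zero (fun j => v.abv.nonneg _) (fun j => (h2 j v hv).le)
    tendsto_one_div_add_atTop_nhds_zero_nat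

end seq

section cont

variable {B : Basis (Fin N) k D} {q : AbsoluteValue k ℝ} {X : Type} {l : Filter X}

/-- `x ↦ T x • 1` as a `k`-linear map. -/
noncomputable def LT (C : Cub K D) : D →ₗ[k] D where
  toFun x := C.T x • (1 : D)
  map_add' x y := by rw [map_add, add_smul]
  map_smul' c x := by
    rw [← algebraMap_smul K c x, map_smul, smul_eq_mul, mul_smul, algebraMap_smul,
      RingHom.id_apply]

theorem LT_apply (C : Cub K D) (x : D) : LT (k := k) C x = C.T x • (1 : D) := rfl

theorem tn_T (C : Cub K D) {f : X → D} {a : D} (hf : Tn B q l f a) :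
    Tn B q l (fun x => C.T (f x) • (1 : D)) (C.T a • (1 : D)) := hf.linear (LT C)

/-- multiplication by a scalar of `K` -/
theorem tn_smulK (c : K) {f : X → D} {a : D} (hf : Tn B q l f a) :
    Tn B q l (fun x => c • f x) (c • a) := by
  have h := (Tn.const (B := B) (q := q) (l := l) (c • (1 : D))).mul hf
  simpa only [smul_mul_assoc, one_mul] using h

theorem tn_star' (hS : SetF k K D d s) {f : X → D} {a : D} (hf : Tn B q l f a) :
    Tn B q l (fun x => star (f x)) (star a) :=
  hf.linear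
    { toFun := fun x => star x
      map_add' := fun x y => star_add x y
      map_smul' := fun c x => by rw [star_smul_k hS, RingHom.id_apply] }

theorem tn_smulk {f : X → D} {a : D} {g : X → k} {c : k} (hg : Tendsto (fun x => q (g x - c)) l (𝓝 0))
    (hf : Tn B q l f a) : Tn B q l (fun x => g x • f x) (c • a) := by
  have h := (Tn.smul hg (1 : D) : Tn B q l (fun x => g x • (1 : D)) (c • (1 : D))).mul hf
  simpa only [smul_mul_assoc, one_mul] using h

/-- The normalised element of the chart. -/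
noncomputable def Zf (C : Cub K D) (x u : D) : D := (C.T ((x - 1) * u))⁻¹ • ((x - 1) * u)

theorem Zf_eq (C : Cub K D) (x u : D) :
    Zf C x u = (C.T ((x - 1) * u) • (1 : D))⁻¹ * ((x - 1) * u) := by
  by_cases h : C.T ((x - 1) * u) = 0
  · rw [Zf, h, inv_zero, zero_smul, zero_smul, inv_zero, zero_mul]
  · have e : (C.T ((x - 1) * u) • (1 : D))⁻¹ = (C.T ((x - 1) * u))⁻¹ • (1 : D) := by
      apply inv_eq_of_mul_eq_one_right
      rw [smul_mul_smul_comm, mul_inv_cancel₀ h, one_smul, mul_one]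
    rw [e, smul_mul_assoc, one_mul, Zf]

theorem tn_Zf (C : Cub K D) {f h : X → D} {x u : D} (hf : Tn B q l f x) (hh : Tn B q l h u)
    (hT : C.T ((x - 1) * u) ≠ 0) : Tn B q l (fun t => Zf C (f t) (h t)) (Zf C x u) := by
  simp only [Zf_eq]
  have h1 : Tn B q l (fun t => (f t - 1) * h t) ((x - 1) * u) := (hf.sub (Tn.const 1)).mul hh
  exact ((tn_T C h1).inv (smul_ne_zero hT one_ne_zero)).mul h1

/-- the first chart element times `lam` -/
noncomputable def Gf (C : Cub K D) (lam : k) (x u : D) : D :=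
  lam • Zf C x u + star (lam • Zf C x u) - lam • (1 : D)

/-- the second chart element times `lam` -/
noncomputable def Yf (C : Cub K D) (s : K) (lam : k) (x u : D) : D :=
  s⁻¹ • (lam • Zf C x u - star (lam • Zf C x u))

theorem Chart.eqs (hS : SetF k K D d s) {C : Cub K D} {x u g y : D} (h : Chart C s x u g y)
    (lam : k) : lam • g = Gf C lam x u ∧ lam • y = Yf C s lam x u := by
  have h20 := two_neK hS
  have hs0 := s_ne_zero hS
  have e1 : (2 : K) • Zf C x u = 1 + g + s • y := h.eq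
  have e2 : (2 : K) • star (Zf C x u) = 1 + g - s • y := by
    have := congrArg star e1
    rw [hS.star_smul, star_ofNat, star_add, star_add, star_one, h.hg, hS.star_smul, hS.star_s,
      h.hy, neg_smul, ← sub_eq_add_neg] at this
    exact this
  have e3 : Zf C x u + star (Zf C x u) - 1 = g := by
    have h2 : (2 : K) • (Zf C x u + star (Zf C x u) - 1) = (2 : K) • g := by
      rw [smul_sub, smul_add, e1, e2]
      simp only [two_smul]
      abel
    exact (smul_right_injective D h20) h2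
  have e4 : s⁻¹ • (Zf C x u - star (Zf C x u)) = y := by
    have h2 : (2 : K) • (Zf C x u - star (Zf C x u)) = (2 : K) • (s • y) := by
      rw [smul_sub, e1, e2]
      simp only [two_smul]
      abel
    have h3 := (smul_right_injective D h20) h2
    change Zf C x u - star (Zf C x u) = s • y at h3
    rw [h3, smul_smul, inv_mul_cancel₀ hs0, one_smul]
  constructor
  · rw [Gf, star_smul_k hS]
    conv_lhs => rw [← e3]
    rw [smul_sub, smul_add]
  · rw [Yf, star_smul_k hS, ← smul_sub, smul_comm s⁻¹ lam, e4]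

theorem tn_Gf (hS : SetF k K D d s) (C : Cub K D) {lam : k} {f h : X → D} {x u : D}
    (hf : Tn B q l f x) (hh : Tn B q l h u) (hT : C.T ((x - 1) * u) ≠ 0) :
    Tn B q l (fun t => Gf C lam (f t) (h t)) (Gf C lam x u) := by
  have h1 : Tn B q l (fun t => lam • Zf C (f t) (h t)) (lam • Zf C x u) := by
    have := tn_smulK (algebraMap k K lam) (tn_Zf C hf hh hT)
    simpa only [algebraMap_smul] using this
  exact (h1.add (tn_star' hS h1)).sub (Tn.const _)

theorem tn_Yf (hS : SetF k K D d s) (C : Cub K D) {lam : k} {f h : X → D} {x u : D}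
    (hf : Tn B q l f x) (hh : Tn B q l h u) (hT : C.T ((x - 1) * u) ≠ 0) :
    Tn B q l (fun t => Yf C s lam (f t) (h t)) (Yf C s lam x u) := by
  have h1 : Tn B q l (fun t => lam • Zf C (f t) (h t)) (lam • Zf C x u) := by
    have := tn_smulK (algebraMap k K lam) (tn_Zf C hf hh hT)
    simpa only [algebraMap_smul] using this
  exact tn_smulK s⁻¹ (h1.sub (tn_star' hS h1))

end cont

/-- One positive bound for finitely many conditions which are monotone in the bound. -/
theorem exists_bound {ι : Type} {S : Set ι} (hS : S.Finite) {P : ι → ℝ → Prop}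
    (h : ∀ i ∈ S, ∃ θ, 0 < θ ∧ ∀ ε, 0 < ε → ε ≤ θ → P i ε) : ∃ ε : ℝ, 0 < ε ∧ ∀ i ∈ S, P i ε := by
  have h1 : ∀ᶠ ε in 𝓝[>] (0 : ℝ), ∀ i ∈ S, P i ε := by
    rw [Filter.eventually_all_finite hS]
    intro i hi
    obtain ⟨θ, hθ, h⟩ := h i hi
    filter_upwards [Ioc_mem_nhdsGT hθ] with ε hε
    exact h ε hε.1 hε.2
  obtain ⟨ε, h2, h3⟩ := (h1.and self_mem_nhdsWithin).exists
  exact ⟨ε, h3, h2⟩

/-- The Cayley transform. -/
def cy (x : D) : D := (1 - x) * (1 + x)⁻¹

theorem cy_zero : cy (0 : D) = 1 := by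
  rw [cy, sub_zero, add_zero, inv_one, mul_one]

theorem one_pm_ne (h2 : (2 : D) ≠ 0) {x : D} (hx : star x = -x) : 1 + x ≠ 0 ∧ 1 - x ≠ 0 := by
  constructor
  · intro h
    have h1 : x = -1 := (neg_eq_of_add_eq_zero_right h).symm
    rw [h1, star_neg, star_one, neg_neg] at hx
    apply h2
    rw [← one_add_one_eq_two]
    nth_rewrite 1 [← hx]
    exact neg_add_cancel 1
  · intro h
    have h1 : x = 1 := (sub_eq_zero.mp h).symm
    rw [h1, star_one] at hx
    apply h2
    rw [← one_add_one_eq_two]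
    nth_rewrite 1 [hx]
    exact neg_add_cancel 1

theorem cy_mul_star (h2 : (2 : D) ≠ 0) {x : D} (hx : star x = -x) : cy x * star (cy x) = 1 := by
  have h1 := (one_pm_ne h2 hx).1
  have h2 := (one_pm_ne h2 hx).2
  have hs : star (cy x) = (1 - x)⁻¹ * (1 + x) := by
    rw [cy, star_mul, star_inv₀, star_add, star_sub, star_one, hx, sub_neg_eq_add,
      ← sub_eq_add_neg]
  have hc : (1 + x)⁻¹ * (1 - x)⁻¹ = (1 - x)⁻¹ * (1 + x)⁻¹ := by
    rw [← mul_inv_rev, ← mul_inv_rev]
    congr 1
    noncomm_ring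
  rw [hs, cy]
  calc (1 - x) * (1 + x)⁻¹ * ((1 - x)⁻¹ * (1 + x))
      = (1 - x) * ((1 + x)⁻¹ * (1 - x)⁻¹) * (1 + x) := by simp only [mul_assoc]
    _ = (1 - x) * ((1 - x)⁻¹ * (1 + x)⁻¹) * (1 + x) := by rw [hc]
    _ = ((1 - x) * (1 - x)⁻¹) * ((1 + x)⁻¹ * (1 + x)) := by simp only [mul_assoc]
    _ = 1 := by rw [inv_mul_cancel₀ h1, mul_inv_cancel₀ h2, mul_one]

theorem tn_cy {B : Basis (Fin N) k D} {q : AbsoluteValue k ℝ} {X : Type} {l : Filter X}
    (h2 : (2 : D) ≠ 0) {f : X → D} {a : D} (hf : Tn B q l f a) (ha : star a = -a) :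
    Tn B q l (fun x => cy (f x)) (cy a) :=
  ((Tn.const 1).sub hf).mul (((Tn.const 1).add hf).inv (one_pm_ne h2 ha).1)

theorem cy_sub_one {x : D} (h : 1 + x ≠ 0) : cy x - 1 = -(2 * (x * (1 + x)⁻¹)) := by
  have e : (1 : D) = (1 + x) * (1 + x)⁻¹ := (mul_inv_cancel₀ h).symm
  have : cy x - 1 = (1 - x) * (1 + x)⁻¹ - (1 + x) * (1 + x)⁻¹ := by rw [← e, cy]
  rw [this, ← sub_mul, ← mul_assoc, ← neg_mul]
  congr 1
  rw [two_mul]
  abel

/-- **The unitary element `u1`.** -/
theorem exists_u1 [GFF k] (hS : SetF k K D d s) (h3 : (3 : k) ≠ 0) (hdeg : finrank K D = 3 ^ 2) (C : Cub K D)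
    (B : Basis (Fin N) k D) {x0 w0 : D} (hw0 : w0 * star w0 = 1)
    (hT0 : C.T ((x0 - 1) * w0) = 0)
    (hind : ∀ a b : K, a • ((x0 - 1) * w0) + b • star ((x0 - 1) * w0) = 0 → a = 0 ∧ b = 0)
    {κ : K} (hκ : κ ≠ 0) {P1 : Set (Place k)} (hP1 : P1.Finite)
    {η : ℝ} (hη : 0 < η) :
    ∃ (u1 : D) (lam : k) (ε : ℝ), u1 * star u1 = 1 ∧ lam ≠ 0 ∧ 0 < ε ∧ ∀ v ∈ P1,
      v.abv lam < η ∧ na B v.abv (u1 - w0) < η ∧ ∀ x u : D,
      na B v.abv (x - x0) < ε → na B v.abv (u - u1) < ε →
      C.T ((x - 1) * u) ≠ 0 ∧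
      na B v.abv (Gf C lam x u - (κ • ((x0 - 1) * w0) + star (κ • ((x0 - 1) * w0)))) < η ∧
      na B v.abv (Yf C s lam x u -
        s⁻¹ • (κ • ((x0 - 1) * w0) - star (κ • ((x0 - 1) * w0)))) < η := by
  classical
  have h20 := two_neK hS
  have h30 : (3 : K) ≠ 0 := by
    have h := (_root_.map_ne_zero (algebraMap k K)).2 h3
    rwa [map_ofNat] at h
  have h2D : (2 : D) ≠ 0 := by
    have h := (_root_.map_ne_zero (algebraMap K D)).2 h20
    rwa [map_ofNat] at h
  set m : D := (x0 - 1) * w0 with hm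
  obtain ⟨b, hb, hTb⟩ := exists_skew hS h30 hdeg C hind (-(1 / (2 * κ)))
  obtain ⟨lam, hlam0, hlam⟩ := exists_lam hP1
  have hlb : ∀ j, star (lam j • b) = -(lam j • b) := fun j => by
    rw [star_smul_k hS, hb, smul_neg]
  set u : ℕ → D := fun j => w0 * cy (lam j • b) with hu
  have huu : ∀ j, u j * star (u j) = 1 := fun j => by
    rw [hu]
    simp only [star_mul]
    calc w0 * cy (lam j • b) * (star (cy (lam j • b)) * star w0)
        = w0 * (cy (lam j • b) * star (cy (lam j • b))) * star w0 := by simp only [mul_assoc]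
      _ = 1 := by rw [cy_mul_star h2D (hlb j), mul_one, hw0]
  -- the limits at one place
  have hlim : ∀ v ∈ P1, Tn B v.abv atTop (fun j => lam j • b) 0 ∧
      Tn B v.abv atTop (fun j => lam j • (1 : D)) 0 := by
    intro v hv
    have h0 : Tendsto (fun j => v.abv (lam j - 0)) atTop (𝓝 0) := by
      simpa only [sub_zero] using hlam v hv
    constructor
    · have := Tn.smul (B := B) h0 b
      rwa [zero_smul] at this
    · have := Tn.smul (B := B) h0 (1 : D)
      rwa [zero_smul] at this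
  have hlimu : ∀ v ∈ P1, Tn B v.abv atTop u w0 := by
    intro v hv
    have h1 := tn_cy h2D (hlim v hv).1 (by rw [star_zero, neg_zero])
    have h2 := (Tn.const (B := B) (q := v.abv) (l := atTop) w0).mul h1
    rwa [cy_zero, mul_one] at h2
  set t : ℕ → K := fun j => C.T (m * (b * (1 + lam j • b)⁻¹)) with ht
  have hTu : ∀ j, C.T ((x0 - 1) * u j) = -(2 * (algebraMap k K (lam j) * t j)) := by
    intro j
    have h1 : (1 : D) + lam j • b ≠ 0 := (one_pm_ne h2D (hlb j)).1
    have e1 : (x0 - 1) * u j = m + m * (cy (lam j • b) - 1) := by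
      rw [hu, hm]
      simp only
      noncomm_ring
    have e2 : m * (cy (lam j • b) - 1) =
        -((2 : K) • (lam j • (m * (b * (1 + lam j • b)⁻¹)))) := by
      rw [cy_sub_one h1, mul_neg]
      congr 1
      rw [two_smul, two_mul, mul_add, smul_mul_assoc, mul_smul_comm]
    rw [e1, e2, map_add, hT0, zero_add, map_neg, map_smul, T_smul_k, smul_eq_mul]
  have htlim : ∀ v ∈ P1, Tn B v.abv atTop (fun j => t j • (1 : D)) (C.T (m * b) • (1 : D)) := by
    intro v hv
    have h1 : Tn B v.abv atTop (fun j => m * (b * (1 + lam j • b)⁻¹)) (m * b) := by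
      have h2 := ((Tn.const (B := B) (q := v.abv) (l := atTop) (1 : D)).add
        (hlim v hv).1).inv (by rw [add_zero]; exact one_ne_zero)
      have h3 := (Tn.const (B := B) (q := v.abv) (l := atTop) m).mul
        ((Tn.const (B := B) (q := v.abv) (l := atTop) b).mul h2)
      rwa [add_zero, inv_one, mul_one] at h3
    exact tn_T C h1
  have hTb0 : C.T (m * b) ≠ 0 := by
    rw [hTb]
    exact neg_ne_zero.2 (one_div_ne_zero (mul_ne_zero h20 hκ))
  -- the normalised element
  have hZ : ∀ j, lam j • Zf C x0 (u j) = ((-(2 : K)) • (t j • (1 : D)))⁻¹ * ((x0 - 1) * u j) := by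
    intro j
    have hl : algebraMap k K (lam j) ≠ 0 := (_root_.map_ne_zero _).2 (hlam0 j)
    by_cases h0 : t j = 0
    · rw [Zf, hTu, h0]
      simp
    · have e : ((-(2 : K)) • (t j • (1 : D)))⁻¹ = (-(2 * t j))⁻¹ • (1 : D) := by
        apply inv_eq_of_mul_eq_one_right
        rw [smul_smul, smul_mul_smul_comm, mul_one]
        have : -(2 : K) * t j * (-(2 * t j))⁻¹ = 1 := by
          have h2 : (2 : K) * t j ≠ 0 := mul_ne_zero h20 h0
          field_simp
        rw [this, one_smul]
      rw [e, smul_mul_assoc, one_mul, Zf, hTu, ← algebraMap_smul K (lam j), smul_smul]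
      congr 1
      field_simp
  have hZlim : ∀ v ∈ P1, Tn B v.abv atTop (fun j => lam j • Zf C x0 (u j)) (κ • m) := by
    intro v hv
    simp only [hZ]
    have h1 := tn_smulK (-(2 : K)) (htlim v hv)
    have hne : (-(2 : K)) • (C.T (m * b) • (1 : D)) ≠ 0 :=
      smul_ne_zero (neg_ne_zero.2 h20) (smul_ne_zero hTb0 one_ne_zero)
    have h2 := (h1.inv hne).mul
      ((Tn.const (B := B) (q := v.abv) (l := atTop) (x0 - 1)).mul (hlimu v hv))
    have e : ((-(2 : K)) • (C.T (m * b) • (1 : D)))⁻¹ * ((x0 - 1) * w0) = κ • m := by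
      have e' : ((-(2 : K)) • (C.T (m * b) • (1 : D)))⁻¹ = κ • (1 : D) := by
        apply inv_eq_of_mul_eq_one_right
        rw [smul_smul, smul_mul_smul_comm, mul_one, hTb]
        have : -(2 : K) * -(1 / (2 * κ)) * κ = 1 := by field_simp
        rw [this, one_smul]
      rw [e', smul_mul_assoc, one_mul, hm]
    rwa [e] at h2
  have hG : ∀ v ∈ P1, Tn B v.abv atTop (fun j => Gf C (lam j) x0 (u j))
      (κ • m + star (κ • m)) := by
    intro v hv
    have h := ((hZlim v hv).add (tn_star' hS (hZlim v hv))).sub (hlim v hv).2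
    rwa [sub_zero] at h
  have hY : ∀ v ∈ P1, Tn B v.abv atTop (fun j => Yf C s (lam j) x0 (u j))
      (s⁻¹ • (κ • m - star (κ • m))) := by
    intro v hv
    exact tn_smulK s⁻¹ ((hZlim v hv).sub (tn_star' hS (hZlim v hv)))
  -- choice of the index
  have hev : ∀ᶠ j in atTop, ∀ v ∈ P1, v.abv (lam j) < η ∧
      na B v.abv (u j - w0) < η ∧ t j ≠ 0 ∧
      na B v.abv (Gf C (lam j) x0 (u j) - (κ • m + star (κ • m))) < η ∧
      na B v.abv (Yf C s (lam j) x0 (u j) - s⁻¹ • (κ • m - star (κ • m))) < η := by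
    rw [Filter.eventually_all_finite hP1]
    intro v hv
    have h1 := (hlam v hv).eventually_lt_const hη
    have h2 := (hlimu v hv).ev_lt hη
    have h3 := (htlim v hv).ev_ne (b := 0) (smul_ne_zero hTb0 one_ne_zero)
    have h4 := (hG v hv).ev_lt hη
    have h5 := (hY v hv).ev_lt hη
    filter_upwards [h1, h2, h3, h4, h5] with j a1 a2 a3 a4 a5
    refine ⟨a1, a2, fun h0 => a3 (by rw [h0, zero_smul]), a4, a5⟩
  obtain ⟨j, hj⟩ := hev.exists
  -- the neighbourhood
  obtain ⟨ε, hε, hεv⟩ := exists_bound hP1 (P := fun v ε => ∀ x u' : D,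
      na B v.abv (x - x0) < ε → na B v.abv (u' - u j) < ε →
      C.T ((x - 1) * u') ≠ 0 ∧
      na B v.abv (Gf C (lam j) x u' - (κ • m + star (κ • m))) < η ∧
      na B v.abv (Yf C s (lam j) x u' - s⁻¹ • (κ • m - star (κ • m))) < η) (by
    intro v hv
    obtain ⟨b1, b2, b3, b4, b5⟩ := hj v hv
    have hT : C.T ((x0 - 1) * u j) ≠ 0 := by
      rw [hTu]
      exact neg_ne_zero.2 (mul_ne_zero h20 (mul_ne_zero
        ((_root_.map_ne_zero _).2 (hlam0 j)) b3))
    have f1 := nb_fst B v.abv (x0, u j)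
    have f2 := nb_snd B v.abv (x0, u j)
    have f3 : Tn B v.abv (nb B v.abv (x0, u j)) (fun y => (y.1 - 1) * y.2)
        ((x0 - 1) * u j) := (f1.sub (Tn.const 1)).mul f2
    have f4 := (tn_T C f3).ev_ne (b := 0) (smul_ne_zero hT one_ne_zero)
    have f5 := ((tn_Gf hS C (lam := lam j) f1 f2 hT).sub
      (Tn.const (κ • m + star (κ • m)))).ev_small b4
    have f6 := ((tn_Yf hS C (lam := lam j) f1 f2 hT).sub
      (Tn.const (s⁻¹ • (κ • m - star (κ • m))))).ev_small b5
    obtain ⟨θ, hθ, h⟩ := ev_nb B v.abv (f4.and (f5.and f6))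
    refine ⟨θ / 2, by positivity, fun ε hε hεθ x u' hx hu' => ?_⟩
    have h7 := h (x, u') (by
      rw [na2]
      change na B v.abv (x - x0) + na B v.abv (u' - u j) < θ
      linarith)
    exact ⟨fun h0 => h7.1 (by simp only [h0, zero_smul]), h7.2.1, h7.2.2⟩)
  exact ⟨u j, lam j, ε, huu j, hlam0 j, hε, fun v hv =>
    ⟨(hj v hv).1, (hj v hv).2.1, hεv v hv⟩⟩

/-- The limit direction is not central. -/
theorem gstar_noncentral (hS : SetF k K D d s) (h30 : (3 : K) ≠ 0) (hdeg : finrank K D = 3 ^ 2) (C : Cub K D)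
    {m : D} (hTm : C.T m = 0)
    (hind : ∀ a b : K, a • m + b • star m = 0 → a = 0 ∧ b = 0) {κ : K} (hκ : κ ≠ 0) (c : K) :
    κ • m + star (κ • m) ≠ c • (1 : D) := by
  have h := scub hS hdeg C
  intro h0
  have h1 := congrArg C.T h0
  rw [map_add, h.T, map_smul, hTm, smul_zero, star_zero, add_zero, map_smul, C.T_one,
    smul_eq_mul] at h1
  have hc : c = 0 := by
    have := h1.symm
    rcases mul_eq_zero.1 this with h | h
    · exact h
    · exact absurd h h30
  rw [hc, zero_smul, hS.star_smul] at h0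
  exact hκ (hind κ (star κ) h0).1

/-- **Consequences of being close to the limit direction.** -/
theorem good_of_near (hS : SetF k K D d s) (h30 : (3 : K) ≠ 0) (C : Cub K D) (B : Basis (Fin N) k D)
    (q : AbsoluteValue k ℝ) {gs : D} (hgs : ∀ c : K, gs ≠ c • (1 : D)) (hSg : C.S gs ≠ 0) {η' : ℝ}
    (hη' : 0 < η') : ∃ η : ℝ, 0 < η ∧ ∀ (lam : k) (g : D), lam ≠ 0 → q lam < η →
      na B q (lam • g - gs) < η →
      (∀ c : K, g ≠ c • (1 : D)) ∧ 3 * C.S g ≠ 1 ∧ na B q (pp g - 3) < η' := by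
  have h20 := two_neK hS
  have := hS.cen
  have hgs0 : gs ≠ 0 := fun h0 => hgs 0 (by rw [h0, zero_smul])
  -- an element which does not commute with the limit
  obtain ⟨a, ha⟩ : ∃ a, gs * a - a * gs ≠ 0 := by
    by_contra hcon
    push Not at hcon
    have h1 : gs ∈ Subalgebra.center K D := by
      rw [Subalgebra.mem_center_iff]
      intro a
      exact (sub_eq_zero.1 (hcon a)).symm
    rw [Algebra.IsCentral.center_eq_bot K D, Algebra.mem_bot] at h1
    obtain ⟨c, hc⟩ := h1
    exact hgs c (by rw [← hc, Algebra.algebraMap_eq_smul_one])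
  set l := nb B q ((0 : D), gs) with hl
  have f1 : Tn B q l (fun y => y.1) 0 := nb_fst B q _
  have f2 : Tn B q l (fun y => y.2) gs := nb_snd B q _
  have f3 : ∀ᶠ y in l, y.2 * a - a * y.2 ≠ 0 :=
    ((f2.mul (Tn.const a)).sub ((Tn.const a).mul f2)).ev_ne ha
  -- the second coefficient
  have hS2 : ∀ z : D, C.S z • (1 : D) =
      (1 / 2 : K) • ((C.T z • (1 : D)) * (C.T z • (1 : D)) - C.T (z * z) • (1 : D)) := by
    intro z
    have h3 := congrArg C.T (C.adj_eq z)
    rw [map_add, map_sub, map_smul, map_smul, C.T_one, smul_eq_mul, smul_eq_mul] at h3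
    have h5 : C.T (C.adj z) = C.S z := rfl
    rw [h5] at h3
    rw [smul_mul_smul_comm, mul_one, ← sub_smul, smul_smul]
    congr 1
    rw [one_div, eq_inv_mul_iff_mul_eq₀ h20]
    linear_combination -h3
  have f4 : Tn B q l (fun y => C.S y.2 • (1 : D)) (C.S gs • (1 : D)) := by
    simp only [hS2]
    exact tn_smulK _ (((tn_T C f2).mul (tn_T C f2)).sub (tn_T C (f2.mul f2)))
  have f5 : ∀ᶠ y in l, (3 : K) • (C.S y.2 • (1 : D)) - y.1 * y.1 ≠ 0 := by
    refine ((tn_smulK (3 : K) f4).sub (f1.mul f1)).ev_ne ?_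
    rw [mul_zero, sub_zero]
    exact smul_ne_zero h30 (smul_ne_zero hSg one_ne_zero)
  have f6 : ∀ᶠ y in l, na B q (y.1 * y.2⁻¹) < η' := by
    refine (f1.mul (f2.inv hgs0)).ev_small ?_
    rw [zero_mul, na_zero]
    exact hη'
  obtain ⟨θ, hθ, h⟩ := ev_nb B q (f3.and (f5.and f6))
  have hB1 := na_nonneg B q (1 : D)
  refine ⟨min (θ / 2) (θ / (2 * (na B q 1 + 1))), by positivity, ?_⟩
  intro lam g hlam0 hlam hg
  obtain ⟨h3, h5, h6⟩ := h (lam • (1 : D), lam • g) (by
    rw [na2]
    change na B q (lam • (1 : D) - 0) + na B q (lam • g - gs) < θ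
    rw [sub_zero, na_smul]
    have e1 := hlam.trans_le (min_le_right _ _)
    have e2 := hg.trans_le (min_le_left _ _)
    have e3 : q lam * na B q 1 ≤ θ / 2 := by
      calc q lam * na B q 1 ≤ θ / (2 * (na B q 1 + 1)) * na B q 1 :=
            mul_le_mul_of_nonneg_right e1.le hB1
        _ ≤ θ / 2 := by
          rw [div_mul_eq_mul_div, div_le_div_iff₀ (by positivity) (by norm_num)]
          nlinarith
    linarith)
  have hg0 : g ≠ 0 := by
    rintro rfl
    apply h3
    simp
  refine ⟨?_, ?_, ?_⟩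
  · intro c hc
    apply h3
    simp only [hc]
    rw [smul_mul_assoc, mul_smul_comm, smul_mul_assoc, mul_smul_comm, one_mul, mul_one, sub_self]
  · intro h0
    apply h5
    simp only
    rw [← algebraMap_smul K lam g, C.S_smul, ← algebraMap_smul K lam (1 : D),
      smul_mul_smul_comm, mul_one, smul_smul, ← sub_smul]
    have : 3 * (algebraMap k K lam ^ 2 * C.S g) - algebraMap k K lam * algebraMap k K lam = 0 := by
      linear_combination (algebraMap k K lam ^ 2) * h0
    rw [this, zero_smul]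
  · have e : pp g - 3 = lam • (1 : D) * (lam • g)⁻¹ := by
      have hl0 : lam • g ≠ 0 := smul_ne_zero hlam0 hg0
      apply mul_right_cancel₀ hl0
      rw [inv_mul_cancel_right₀ hl0, pp, add_sub_cancel_left, mul_smul_comm, inv_mul_cancel₀ hg0]
    rw [e]
    exact h6

end Vale.Agent.P011.H279.M8a
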