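import Vale.Agent.P011.H279.V0F
import Vale.Agent.P011.H775.M3c

/-!
# The orthogonal complement of a cubic field of symmetric elements, characteristic not two, three

(Twin of `H321/NdV0.lean`.)

The quadratic form `r ↦ T (c adj r)` on `k(g)^⊥` is non-degenerate for every non-zero
`c` in `k(g)`.
-/

set_option linter.unusedSectionVars false

open Module Polynomial Matrix

namespace Vale.Agent.P011.H279.NdF

open Vale.Agent.P011.H948 Vale.Agent.P011.H775 Vale.Agent.P011.H305

variable {k K D : Type} [Field k] [Field K] [StarRing K]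
    [DivisionRing D] [StarRing D] [Algebra k K] [Algebra k D] [Algebra K D] [IsScalarTower k K D]

/-- A cubic extension is separable if the characteristic is not three. -/
theorem isSeparable_of_three {k E : Type} [Field k] [Field E] [Algebra k E] (h3 : (3 : k) ≠ 0)
    (hE : finrank k E = 3) : Algebra.IsSeparable k E := by
  have : FiniteDimensional k E := FiniteDimensional.of_finrank_pos (by omega)
  by_contra h
  have h1 := Algebra.trace_eq_zero_of_not_isSeparable h
  have h2 := Algebra.trace_algebraMap (R := k) (S := E) 1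
  rw [h1, hE] at h2
  apply h3
  rw [LinearMap.zero_apply, nsmul_eq_mul, mul_one] at h2
  exact_mod_cast h2.symm

/-- The field generated by a non-central symmetric element. -/
theorem exists_cfd {d : kˣ} {s : K} (hS : SetF k K D d s) (h30 : (3 : k) ≠ 0)
    (hdeg : finrank K D = 3 ^ 2) (C : Cub K D) {g : D} (hg : star g = g)
    (hgc : ∀ c : K, g ≠ c • (1 : D)) :
    ∃ (E : Type) (_ : Field E) (_ : Algebra k E) (_ : FiniteDimensional k E)
      (_ : Algebra.IsSeparable k E) (φ : E →ₐ[k] D)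
      (σ : E) (_ : FiniteDimensional K D) (_ : Algebra.IsCentral K D), φ σ = g ∧
      Cfd C φ 1 ∧ ∀ x : E, ∃ a b c : k, x = algebraMap k E a + algebraMap k E b * σ +
        algebraMap k E c * σ ^ 2 := by
  have := hS.fin
  have := hS.cen
  have hfix : ∀ c : K, star c = c → ∃ c' : k, algebraMap k K c' = c := fun c hc =>
    (hS.fix c).1 hc
  have hkfix : ∀ c : k, star (algebraMap k K c) = algebraMap k K c := fun c =>
    (hS.fix _).2 ⟨c, rfl⟩
  have hss : ∀ c : K, star (algebraMap K D c) = algebraMap K D (star c) := fun c => by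
    rw [Algebra.algebraMap_eq_smul_one, hS.star_smul, star_one,
      ← Algebra.algebraMap_eq_smul_one]
  obtain ⟨c1, c2, c3⟩ := C.star_coeff hdeg hss g
  rw [hg] at c1 c2 c3
  obtain ⟨t, ht⟩ := hfix _ c1.symm
  obtain ⟨e, he⟩ := hfix _ c2.symm
  obtain ⟨n, hn⟩ := hfix _ c3.symm
  obtain ⟨E, _, _, _, φ, σ, hE, hσ, hsp⟩ := exists_field (k := k) C ht.symm he.symm hn.symm (by
    intro c hc
    apply hgc (algebraMap k K c)
    rw [hc, IsScalarTower.algebraMap_apply k K D, Algebra.algebraMap_eq_smul_one])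
  have hsep : Algebra.IsSeparable k E := isSeparable_of_three h30 hE
  refine ⟨E, inferInstance, inferInstance, inferInstance, hsep, φ, σ, hS.fin, hS.cen, hσ, ?_, hsp⟩
  exact
    { hD := hdeg
      hss := hss
      hfix := fun c hc => (hS.fix c).1 hc
      hfix' := hkfix
      hF := hE
      hK := hS.rank
      h2 := hS.two_ne
      hp := star_one D
      hp0 := one_ne_zero
      hφ := by
        intro x
        obtain ⟨a, b, c, rfl⟩ := hsp x
        have hc1 : ∀ c : k, star (algebraMap k D c) = algebraMap k D c := fun c => by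
          rw [IsScalarTower.algebraMap_apply k K D, hss, hkfix]
        change 1 * star _ = _ * 1
        rw [one_mul, mul_one, map_add, map_add, map_mul, map_mul, map_pow, hσ, AlgHom.commutes,
          AlgHom.commutes, AlgHom.commutes, star_add, star_add, star_mul, star_mul, star_pow, hg,
          hc1, hc1, hc1, ← Algebra.commutes b g, ← Algebra.commutes c (g ^ 2)] }

section field

variable {E : Type} [Field E] [Algebra k E] [FiniteDimensional k E]
  [Algebra.IsSeparable k E] {C : Cub K D}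
  {φ : E →ₐ[k] D} [FiniteDimensional K D] [Algebra.IsCentral K D]

/-- Membership in the complement by three conditions. -/
theorem inV_iff (H : Cfd C φ 1) {g : D} {σ : E} (hσ : φ σ = g)
    (hsp : ∀ x : E, ∃ a b c : k, x = algebraMap k E a + algebraMap k E b * σ +
        algebraMap k E c * σ ^ 2) {r : D} (hr : star r = r) :
    InV C φ 1 r ↔ C.T r = 0 ∧ C.T (g * r) = 0 ∧ C.T (g * g * r) = 0 := by
  have hsy : Sy 1 r := by
    change 1 * star r = r * 1
    rw [hr, one_mul, mul_one]
  constructor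
  · intro h
    have e : ∀ x, C.T (φ x * r) = 0 := fun x => by
      rw [H.T_mul_pr hsy, h.pr0, mul_zero, map_zero, map_zero]
    refine ⟨?_, ?_, ?_⟩
    · have := e 1
      rwa [map_one, one_mul] at this
    · rw [← hσ]
      exact e σ
    · rw [← hσ, ← map_mul]
      exact e (σ * σ)
  · rintro ⟨h1, h2, h3⟩
    refine ⟨hsy, ?_⟩
    have e : ∀ x, C.T (φ x * r) = 0 := by
      intro x
      obtain ⟨a, b, c, rfl⟩ := hsp x
      have e0 : φ (algebraMap k E a + algebraMap k E b * σ + algebraMap k E c * σ ^ 2) * r =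
          algebraMap k K a • r + algebraMap k K b • (g * r) + algebraMap k K c • (g * g * r) := by
        rw [map_add φ, map_add φ, map_mul φ, map_mul φ, map_pow φ, hσ, AlgHom.commutes,
          AlgHom.commutes, AlgHom.commutes, add_mul, add_mul, ← Algebra.smul_def,
          ← Algebra.smul_def, ← Algebra.smul_def, smul_mul_assoc, smul_mul_assoc,
          algebraMap_smul, algebraMap_smul, algebraMap_smul, pow_two]
      rw [e0, map_add, map_add, map_smul, map_smul, map_smul, h1, h2, h3]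
      simp
    have h4 : ∀ x : E, Algebra.trace k E (x * pr C φ r) = 0 := fun x => by
      have h5 := H.T_mul_pr hsy x
      rw [e x] at h5
      exact ((_root_.map_eq_zero (algebraMap k K)).1 h5.symm)
    exact (traceForm_nondegenerate k E).2 _ (fun x => h4 x)

/-- Multiplication by a non-zero element of the field is injective on the complement. -/
theorem act_ne_zero (H : Cfd C φ 1) {c : E} (hc : c ≠ 0) {r : D} (hr : InV C φ 1 r)
    (hr0 : r ≠ 0) : act C φ c r ≠ 0 := by
  intro h0
  apply hr0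
  obtain ⟨Ω, _, _, ⟨S⟩⟩ := H.exists_dspl
  have hoff := H.off S hr
  have hz : S.Off 0 := ⟨fun i => by rw [map_zero, Matrix.zero_apply]⟩
  have e1 : ∀ i, S.xp (0 : D) i = 0 := fun i => by
    fin_cases i <;> simp [DSpl.xp]
  have e2 : ∀ i, S.xm (0 : D) i = 0 := fun i => by
    fin_cases i <;> simp [DSpl.xm]
  refine hoff.ext hz (fun i => ?_) (fun i => ?_)
  · have h1 := S.xp_act c r i
    rw [h0, e1] at h1
    rw [e1]
    exact (mul_eq_zero.1 h1.symm).resolve_left ((_root_.map_ne_zero (S.σ i)).2 hc)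
  · have h1 := S.xm_act c r i
    rw [h0, e2] at h1
    rw [e2]
    exact (mul_eq_zero.1 h1.symm).resolve_left ((_root_.map_ne_zero (S.σ i)).2 hc)

/-- The trace form is non-degenerate on the complement. -/
theorem exists_T_ne (H : Cfd C φ 1) (h30 : (3 : k) ≠ 0) {v : D} (hv : InV C φ 1 v) (hv0 : v ≠ 0) :
    ∃ r : D, InV C φ 1 r ∧ C.T (v * r) ≠ 0 := by
  have hvs : star v = v := by
    have : 1 * star v = v * 1 := hv.sy
    rwa [one_mul, mul_one] at this
  have hi : Sy 1 v⁻¹ := by
    change 1 * star v⁻¹ = v⁻¹ * 1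
    rw [star_inv₀, hvs, one_mul, mul_one]
  set w : E := pr C φ v⁻¹ with hw
  have hprφ : pr C φ (φ w) = w := by
    have h4 : ∀ x : E, Algebra.trace k E (x * (pr C φ (φ w) - w)) = 0 := fun x => by
      have h5 := H.T_mul_pr (H.hφ w) x
      rw [← map_mul, H.T_φ] at h5
      rw [mul_sub, map_sub, sub_eq_zero]
      exact ((algebraMap k K).injective h5).symm
    exact sub_eq_zero.1 ((traceForm_nondegenerate k E).2 _ (fun x => h4 x))
  refine ⟨v⁻¹ - φ w, ⟨hi.sub (H.hφ w), by rw [map_sub, hprφ, ← hw, sub_self]⟩, ?_⟩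
  have e1 : C.T (v * φ w) = 0 := by
    rw [C.T_comm, H.T_mul_pr hv.sy, hv.pr0, mul_zero, map_zero, map_zero]
  rw [mul_sub, mul_inv_cancel₀ hv0, map_sub, e1, sub_zero, C.T_one]
  have h := (_root_.map_ne_zero (algebraMap k K)).2 h30
  rwa [map_ofNat] at h

/-- **Non-degeneracy** of the form attached to a non-zero element of the field. -/
theorem nondeg_of_cfd (H : Cfd C φ 1) (h30 : (3 : k) ≠ 0) {c : E} (hc : c ≠ 0) {r : D} (hr : InV C φ 1 r)
    (hr0 : r ≠ 0) : ∃ r' : D, InV C φ 1 r' ∧ C.T (φ c * C.cr r r') ≠ 0 := by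
  obtain ⟨r', hr', h⟩ := exists_T_ne H h30 (H.act_inV c hr) (act_ne_zero H hc hr hr0)
  refine ⟨r', hr', ?_⟩
  have h1 : C.T (C.cr (φ c) r * r') = C.T (φ c * C.cr r r') := C.T_cr_mul _ _ _
  have hT : ∀ x : E, C.T (φ x * r) = 0 := fun x => by
    rw [H.T_mul_pr hr.sy, hr.pr0, mul_zero, map_zero, map_zero]
  have h2 : C.cr (φ c) r = -act C φ c r := by
    have e1 := hT 1
    rw [map_one, one_mul] at e1
    rw [Cub.cr, act, hT c, e1]
    simp only [zero_smul, mul_zero, sub_zero, add_zero]
    abel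
  rw [← h1, h2, neg_mul, map_neg]
  exact neg_ne_zero.2 h

end field

/-- **Non-degeneracy of the form `r ↦ T (g p p adj r)` on `k(g)^⊥`**, `p = 3 + g⁻¹`. -/
theorem nondeg {d : kˣ} {s : K} (hS : SetF k K D d s) (h3k : (3 : k) ≠ 0)
    (hdeg : finrank K D = 3 ^ 2) (C : Cub K D) {g : D} (hg : star g = g)
    (hgc : ∀ c : K, g ≠ c • (1 : D)) {r : D} (hr : star r = r) (hr0 : r ≠ 0) (h1 : C.T r = 0)
    (h2 : C.T (g * r) = 0) (h3 : C.T (g * g * r) = 0) :
    ∃ r' : D, star r' = r' ∧ C.T r' = 0 ∧ C.T (g * r') = 0 ∧ C.T (g * g * r') = 0 ∧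
      C.T (g * pp g * pp g * C.cr r r') ≠ 0 := by
  obtain ⟨E, _, _, _, _, φ, σ, _, _, hσ, H, hsp⟩ := exists_cfd hS h3k hdeg C hg hgc
  have h30 : (3 : K) ≠ 0 := by
    have h := (_root_.map_ne_zero (algebraMap k K)).2 h3k
    rwa [map_ofNat] at h
  have hp0 : pp g ≠ 0 :=
    (sCub_of C hdeg hS.star_smul).pp_ne_zero h30 hgc
  have hg0 : g ≠ 0 := fun h0 => hgc 0 (by rw [h0, zero_smul])
  have hc : φ (σ * (3 + σ⁻¹) * (3 + σ⁻¹)) = g * pp g * pp g := by
    rw [map_mul, map_mul, map_add, map_inv₀, hσ, map_ofNat, pp]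
  have hc0 : σ * (3 + σ⁻¹) * (3 + σ⁻¹) ≠ 0 := by
    intro h
    rw [h, map_zero] at hc
    exact mul_ne_zero (mul_ne_zero hg0 hp0) hp0 hc.symm
  obtain ⟨r', hr', h⟩ := nondeg_of_cfd H h3k hc0 ((inV_iff H hσ hsp hr).2 ⟨h1, h2, h3⟩) hr0
  have hr's : star r' = r' := by
    have : 1 * star r' = r' * 1 := hr'.sy
    rwa [one_mul, mul_one] at this
  obtain ⟨e1, e2, e3⟩ := (inV_iff H hσ hsp hr's).1 hr'
  exact ⟨r', hr's, e1, e2, e3, by rw [← hc]; exact h⟩

end Vale.Agent.P011.H279.NdF
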