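import Vale.Agent.P011.H279.WaRF
import Vale.Agent.P011.H279.F7
import Vale.Agent.P011.H271.WauF

/-!
# Assembly of Part I over function fields: a `k`-point of `X_x`

(Twin of `H321/PartIof.lean`.)
-/

set_option linter.unusedSectionVars false

open Module QuadraticMap

namespace Vale.Agent.P011.H279.PartI

open Vale.Agent.P011.H738 Vale.Agent.P011.H271 Vale.Agent.P011.H775 Vale.Agent.P011.H948
open Vale.Agent.P011.H305 Vale.Agent.P011.H279.Asm Vale.Agent.P011.H279.V0F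
open Vale.Agent.P011.H182 (na)

variable {k K D : Type} [Field k] [Field K] [StarRing K]
  [DivisionRing D] [StarRing D] [Algebra k K] [Algebra k D] [Algebra K D] [IsScalarTower k K D]
  {d : kˣ} {s : K} {N : ℕ}

/-- The second element of trace zero. -/
noncomputable def bb (k : Type) {F : Type} [Field k] [Field F] [Algebra k F] (σ : F) : F :=
  σ ^ 2 - algebraMap k F (Algebra.trace k F (σ ^ 2) / 3)

/-- `M` is the chart attached to `g, y, r`. -/
structure Adm [FiniteDimensional K D] [Algebra.IsCentral K D] {F : Type} [Field F]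
    [Algebra k F] [FiniteDimensional k F] [Algebra.IsSeparable k F] {C : Cub K D}
    {φ : F →ₐ[k] D} (d : kˣ) (s : K) (g y r : D) (σ : F) (M : Dat C φ) : Prop where
  hF : finrank k F = 3
  hσ : φ σ = r * (pp g)⁻¹
  tr : Algebra.trace k F σ = 0
  a : M.a = σ
  b : M.b = bb k σ
  p : M.p = pp g
  g : M.g = g
  y : M.y = y
  δ : M.δ = s
  d : M.d = (d : k)

/-- The two input points: `rho` is a good point of the parameter quadric of `M`. -/
structure Rho [FiniteDimensional K D] [Algebra.IsCentral K D] {F : Type} [Field F]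
    [Algebra k F] [FiniteDimensional k F] [Algebra.IsSeparable k F] {C : Cub K D}
    {φ : F →ₐ[k] D} (M : Dat C φ) (z : F × k) : Prop where
  Q : M.Q z = 0
  pol : polar M.Q z (sh k M.a, 0) ≠ 0
  A : M.A z ≠ 0

/-- The statement at the finite places where `D` ramifies. -/
def M8 (hS : SetF k K D d s) (C : Cub K D) (B : Basis (Fin N) k D)
    (Td P1 : Set (Place k))
    (G : ∀ (F : Type) [Field F] [Algebra k F], Place k → F → k → Prop) (x0 : D) : Prop :=
  ∃ u1 : D, u1 * star u1 = 1 ∧ ∃ ε : ℝ, 0 < ε ∧ ∀ x u : D, x * star x = 1 → u * star u = 1 →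
    (∀ v ∈ P1, na B v.abv (x - x0) < ε) → (∀ v ∈ P1, na B v.abv (u - u1) < ε) →
    C.T ((x - 1) * u) ≠ 0 ∧ ∀ g y : D, Chart C s x u g y →
      (∀ c : K, g ≠ c • (1 : D)) ∧ 3 * C.S g ≠ 1 ∧ (Td.Nonempty →
      ∃ z1 y1 : V0 hS C g, (∀ v ∈ Td, polar (qV hS C g) z1 y1 ≠ 0 ∧
        v.abv (qV hS C g z1 * qV hS C g y1) <
          v.abv (polar (qV hS C g) z1 y1) ^ 2) ∧
      ∃ ε' : ℝ, 0 < ε' ∧ ∀ r : V0 hS C g, qV hS C g r = 0 → (∀ v ∈ Td, ∃ t : k,
        v.abv t ≤ v.abv (qV hS C g z1 / polar (qV hS C g) z1 y1) ∧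
        na B v.abv ((r : D) - z1 - t • (y1 : D)) < ε') →
      ∀ (F : Type) [Field F] [Algebra k F] [FiniteDimensional k F] [Algebra.IsSeparable k F]
        (φ : F →ₐ[k] D) (σ : F) [FiniteDimensional K D] [Algebra.IsCentral K D] (M : Dat C φ),
        Adm d s g y (r : D) σ M → ∃ z : F × k, Rho M z ∧ ∀ v ∈ Td, G F v (M.A z) (M.G z))

/-- The data attached to a unitary element and an isotropic element. -/
def F1S (C : Cub K D) (d : kˣ) (s : K) : Prop :=
  ∀ x u : D, u * star u = 1 → C.T ((x - 1) * u) ≠ 0 → ∃ g y : D, Chart C s x u g y ∧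
    ∀ r : D, (∀ c : K, g ≠ c • (1 : D)) → 3 * C.S g ≠ 1 → r ≠ 0 → Val C g r (0 : k) →
      ∃ (F : Type) (_ : Field F) (_ : Algebra k F) (_ : FiniteDimensional k F)
        (_ : Algebra.IsSeparable k F) (φ : F →ₐ[k] D) (σ : F) (_ : FiniteDimensional K D)
        (_ : Algebra.IsCentral K D) (M : Dat C φ),
        Adm d s g y r σ M ∧ ∀ z : F × k, z ≠ 0 → M.Q z = 0 → ∀ e : F,
          Algebra.norm k e + Algebra.trace k F (e * M.A z) + M.G z = 0 →
          ∃ w : D, w * star w = 1 ∧ C.T ((x - 1) * w) = 0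

/-- The Skolem step. -/
def M10 (C : Cub K D) (d : kˣ) (s : K) (Td : Set (Place k))
    (G : ∀ (F : Type) [Field F] [Algebra k F], Place k → F → k → Prop) : Prop :=
  ∀ (F : Type) [Field F] [Algebra k F] [FiniteDimensional k F] [Algebra.IsSeparable k F]
    (φ : F →ₐ[k] D) [FiniteDimensional K D] [Algebra.IsCentral K D] (M : Dat C φ),
    finrank k F = 3 →
    M.δ = s → M.d = (d : k) → ∀ z : F × k, Rho M z → (∀ v ∈ Td, G F v (M.A z) (M.G z)) →
    ∃ z : F × k, z ≠ 0 ∧ M.Q z = 0 ∧ ∃ e : F,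
      Algebra.norm k e + Algebra.trace k F (e * M.A z) + M.G z = 0

/-- **Part I from its pieces.** -/
theorem partI_of [GFF k] (hS : SetF k K D d s) (h3 : (3 : k) ≠ 0) (hdeg : finrank K D = 3 ^ 2)
    (C : Cub K D) (B : Basis (Fin N) k D) {Td P1 : Set (Place k)} (hP1 : P1.Finite)
    (hTd : Td ⊆ P1)
    {G : ∀ (F : Type) [Field F] [Algebra k F], Place k → F → k → Prop} {x0 : D}
    (h8 : M8 hS C B Td P1 G x0) (h1 : F1S C d s) (h10 : M10 C d s Td G) :
    ∃ ε : ℝ, 0 < ε ∧ ∀ x : D, x * star x = 1 → (∀ v ∈ P1, na B v.abv (x - x0) < ε) →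
      ∃ w : D, w * star w = 1 ∧ C.T ((x - 1) * w) = 0 := by
  classical
  have hst := hS.starModule
  have hA : Anis k K D 3 := hS.anis hdeg
  obtain ⟨u1, hu1, ε1, hε1, h8⟩ := h8
  refine ⟨ε1, hε1, ?_⟩
  intro x hx hxP
  -- the element `u`
  obtain ⟨u, hu, huP1⟩ := WauF.wa_unitaryF hA B hP1 (u := fun _ => u1) (fun _ _ => hu1)
    (ε := fun _ => ε1) (fun _ => hε1)
  obtain ⟨hT, h8⟩ := h8 x u hx hu hxP huP1
  obtain ⟨g, y, hch, hM⟩ := h1 x u hu hT
  obtain ⟨hgc, hSg, h8⟩ := h8 g y hch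
  have hg := hch.hg
  by_cases hne : Td.Nonempty
  · obtain ⟨z1, y1, h1, ε', hε', h8⟩ := h8 hne
    have hfd : FiniteDimensional k D := finite_kD hS
    obtain ⟨p, hp0, hp⟩ := exists_r hS hdeg C hg
    obtain ⟨r, hr0, hr, hrT⟩ := WaRF.exists_zero_na B (qV hS C g) (V0 hS C g).subtype
      (WaRF.qV_nondeg hS h3 hdeg C hg hgc)
      ((by norm_num : 3 ≤ 6).trans (finrank_V0 hS hdeg C hg)) hp0 hp (hP1.subset hTd)
      (fun _ => z1) (fun _ => y1) (fun v hv => (h1 v hv).1) (fun v hv => (h1 v hv).2)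
      (fun _ => ε') (fun _ _ => hε')
    have hr4 : C.T (g * pp g * pp g * C.adj (r : D)) = algebraMap k K 0 := by
      rw [← qV_apply hS hdeg C hg, hr]
    obtain ⟨F, _, _, _, _, φ, σ, _, _, M, hMd, hw⟩ :=
      hM r hgc hSg (fun h0 => hr0 (Subtype.ext h0))
        ⟨r.2.1, r.2.2.1, r.2.2.2.1, r.2.2.2.2, hr4⟩
    obtain ⟨z, hz, hzT⟩ := h8 r hr (fun v hv => by
      obtain ⟨t, ht, h⟩ := hrT v hv
      refine ⟨t, ht, ?_⟩
      rwa [map_sub, map_sub, map_smul] at h) F φ σ M hMd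
    obtain ⟨z', hz0, hQ, e, he⟩ := h10 F φ M hMd.hF hMd.δ hMd.d z hz hzT
    exact hw z' hz0 hQ e he
  · obtain ⟨r, hr0, hr⟩ := exists_r hS hdeg C hg
    have hr4 : C.T (g * pp g * pp g * C.adj (r : D)) = algebraMap k K 0 := by
      rw [← qV_apply hS hdeg C hg, hr]
    obtain ⟨F, _, _, _, _, φ, σ, _, _, M, hMd, hw⟩ :=
      hM r hgc hSg (fun h0 => hr0 (Subtype.ext h0))
        ⟨r.2.1, r.2.2.1, r.2.2.2.1, r.2.2.2.2, hr4⟩
    -- any good point
    have hc₁ : M.c₁ ≠ 0 := by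
      rw [Dat.c₁]
      refine mul_ne_zero (mul_ne_zero M.d0 M.D00) ?_
      intro h1
      have h2 := M.H.rk_eq M.star_N_h
      rw [h1, map_zero] at h2
      have h3 : M.h ≠ 0 := by
        intro h4
        apply M.prh0
        change pr C φ (C.adj M.h) = 0
        rw [h4, C.adj_zero, map_zero]
      exact C.N_ne_zero h3 h2.symm
    obtain ⟨ρ, hρ, -, hρA, hρp⟩ := f7 M.H.h2 h3 hMd.hF M.Q M.c₁ hc₁
      (fun t => by rw [M.Q_apply]; simp) M.a M.b M.ha M.hb M.D00 M.al M.al_ne_zero M.be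
      _ (finBasis k (F × k)) ∅ Set.finite_empty (fun _ => 0) (fun _ => 0) (by simp) (by simp)
      (fun _ => 1) (by simp)
    obtain ⟨z', hz0, hQ, e, he⟩ := h10 F φ M hMd.hF hMd.δ hMd.d ρ
      ⟨hρ, hρp, by rw [Dat.A, map_pow]; exact hρA⟩
      (fun v hv => absurd ⟨v, hv⟩ hne)
    exact hw z' hz0 hQ e he

end Vale.Agent.P011.H279.PartI
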