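import Vale.Agent.P011.H279.M8aF
import Vale.Agent.P011.H929.DP
import Vale.Agent.P011.H279.NdF

/-!
# An isotropic element orthogonal to the limit direction, over function fields
-/

set_option linter.unusedSectionVars false

open Module

namespace Vale.Agent.P011.H279.StarF

open Vale.Agent.P011.H738 Vale.Agent.P011.H271 Vale.Agent.P011.H775 Vale.Agent.P011.H948
open Vale.Agent.P011.H305 Vale.Agent.P011.H279.Asm Vale.Agent.P011.H279.V0F

section comm

/-- Two elements which commute with a non central element commute. -/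
theorem commute_of_commute {K D : Type} [Field K] [DivisionRing D] [Algebra K D]
    [FiniteDimensional K D] [Algebra.IsCentral K D] (h9 : finrank K D = 3 ^ 2) {q x w : D}
    (hq : q ∉ Set.range (algebraMap K D)) (hx : x * q = q * x) (hw : w * q = q * w) :
    x * w = w * x := by
  by_cases hwK : w ∈ Set.range (algebraMap K D)
  · obtain ⟨c, rfl⟩ := hwK
    exact (Algebra.commutes c x).symm
  · have h1 : x ∈ Algebra.adjoin K {w} :=
      H929.centralizer_eq_adjoin (by norm_num : (3 : ℕ).Prime) h9 hq hwK hw hx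
    have h2 : Algebra.adjoin K {w} ≤ Subalgebra.centralizer K {w} := by
      refine Algebra.adjoin_le ?_
      rintro _ rfl
      rw [SetLike.mem_coe, Subalgebra.mem_centralizer_iff]
      rintro _ rfl
      rfl
    have h3 := Subalgebra.mem_centralizer_iff K |>.mp (h2 h1) w rfl
    exact h3.symm

/-- A quadratic element is central. -/
theorem mem_of_quad {K D : Type} [Field K] [DivisionRing D] [Algebra K D]
    [FiniteDimensional K D] [Algebra.IsCentral K D] (h9 : finrank K D = 3 ^ 2) {w : D} (t n : K)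
    (hww : w * w = t • w - n • (1 : D)) : w ∈ Set.range (algebraMap K D) := by
  by_contra hw
  have hA : Algebra.adjoin K {w} ≠ ⊥ := by
    intro h1
    have : w ∈ Algebra.adjoin K {w} := Algebra.self_mem_adjoin_singleton K w
    rw [h1] at this
    exact hw (Algebra.mem_bot.mp this)
  have hA2 : Algebra.adjoin K {w} ≠ ⊤ := by
    intro h1
    apply hw
    refine Algebra.mem_bot.mp (Algebra.IsCentral.out (K := K) ?_)
    rw [Subalgebra.mem_center_iff]
    intro x
    have hx : x ∈ Algebra.adjoin K {w} := h1 ▸ Algebra.mem_top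
    have hle : Algebra.adjoin K {w} ≤ Subalgebra.centralizer K {w} :=
      Algebra.adjoin_le (by
        rintro _ rfl
        exact (Subalgebra.mem_centralizer_iff K).mpr (by rintro _ rfl; rfl))
    exact ((Subalgebra.mem_centralizer_iff K).mp (hle hx) w rfl).symm
  have h3 := H929.finrank_eq_of_ne Nat.prime_three h9 hA hA2
  have hsub : Subalgebra.toSubmodule (Algebra.adjoin K {w}) ≤ Submodule.span K {1, w} := by
    intro x hx
    have hx' : x ∈ Algebra.adjoin K {w} := hx
    clear hx
    induction hx' using Algebra.adjoin_induction with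
    | mem x hx =>
      rw [Set.mem_singleton_iff] at hx
      subst hx
      exact Submodule.subset_span (by simp)
    | algebraMap c =>
      rw [Algebra.algebraMap_eq_smul_one]
      exact Submodule.smul_mem _ _ (Submodule.subset_span (by simp))
    | add x y hx1 hy1 hx2 hy2 => exact add_mem hx2 hy2
    | mul x y hx1 hy1 hx2 hy2 =>
      obtain ⟨a, b, hab⟩ := Submodule.mem_span_pair.mp hx2
      obtain ⟨a', b', hab'⟩ := Submodule.mem_span_pair.mp hy2
      have e : x * y = (a * a' - b * b' * n) • (1 : D) +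
          (a * b' + b * a' + b * b' * t) • w := by
        have e0 : x * y = (a * a') • (1 : D) + (a * b' + b * a') • w + (b * b') • (w * w) := by
          rw [← hab, ← hab']
          simp only [add_mul, mul_add, smul_mul_assoc, mul_smul_comm, one_mul, mul_one]
          module
        rw [e0, hww]
        module
      rw [e]
      exact Submodule.mem_span_pair.mpr ⟨_, _, rfl⟩
  have h8 : finrank K (Algebra.adjoin K {w}) ≤ finrank K (Submodule.span K ({1, w} : Set D)) :=
    Submodule.finrank_mono hsub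
  have h9 : finrank K (Submodule.span K ({1, w} : Set D)) ≤ 2 := by
    classical
    have h10 := finrank_span_finset_le_card (R := K) (M := D) ({1, w} : Finset D)
    rw [Finset.coe_insert, Finset.coe_singleton] at h10
    exact h10.trans Finset.card_le_two
  omega


end comm

variable {k K D : Type} [Field k] [Field K] [StarRing K]
  [DivisionRing D] [StarRing D] [Algebra k K] [Algebra k D] [Algebra K D] [IsScalarTower k K D]
  {d : kˣ} {s : K}

/-- If `(x - 1) w` commutes with its conjugate, then `x` commutes with `w` (after helper511). -/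
theorem comm_of_comm (hS : SetF k K D d s) (hdeg : finrank K D = 3 ^ 2) {x w : D}
    (hx : x * star x = 1) (hw : w * star w = 1)
    (hcomm : (x - 1) * w * star ((x - 1) * w) = star ((x - 1) * w) * ((x - 1) * w)) :
    x * w = w * x := by
  have hfin := hS.fin
  have hcen := hS.cen
  have hws : star w * w = 1 := mul_eq_one_comm.mp hw
  have hxs : star x * x = 1 := mul_eq_one_comm.mp hx
  by_contra hN
  have e1 : (x - 1) * w * star ((x - 1) * w) = 2 - (x + star x) := by
    rw [star_mul, star_sub, star_one, ← mul_assoc, mul_assoc (x - 1) w, hw, mul_one, mul_sub,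
      sub_mul, hx, one_mul, mul_one, ← one_add_one_eq_two]
    abel
  have e2 : star ((x - 1) * w) * ((x - 1) * w) = star w * (2 - (x + star x)) * w := by
    rw [star_mul, star_sub, star_one, ← mul_assoc, mul_assoc (star w)]
    congr 2
    rw [sub_mul, mul_sub, hxs, one_mul, mul_one, ← one_add_one_eq_two]
    abel
  have e3 : w * (x + star x) = (x + star x) * w := by
    rw [e1, e2] at hcomm
    have h1 := congrArg (fun z => w * z) hcomm
    beta_reduce at h1
    rw [mul_assoc (star w), ← mul_assoc w (star w), hw, one_mul, mul_sub, sub_mul] at h1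
    have h2 : w * 2 = 2 * w := by
      rw [mul_two, two_mul]
    rw [h2] at h1
    exact sub_right_injective h1
  have e4 : x * (x + star x) = (x + star x) * x := by
    rw [mul_add, add_mul, hx, hxs]
  by_cases hq : x + star x ∈ Set.range (algebraMap K D)
  · -- `x` is a root of a quadratic polynomial over `K`
    obtain ⟨c, hc⟩ := hq
    have h1 : x * x = c • x - (1 : K) • (1 : D) := by
      have h2 : x * (x + star x) = c • x := by
        rw [← hc, ← Algebra.commutes, Algebra.smul_def]
      rw [mul_add, hx] at h2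
      rw [one_smul, ← h2, add_sub_cancel_right]
    obtain ⟨e, he⟩ := mem_of_quad hdeg _ _ h1
    exact hN (by rw [← he]; exact Algebra.commutes e w)
  · exact hN (commute_of_commute hdeg hq e4 e3)

/-- If `x w ≠ w x` then `(x - 1) w` and its conjugate are independent over `K`. -/
theorem indep_of_N1 (hS : SetF k K D d s) (hdeg : finrank K D = 3 ^ 2) {x w : D}
    (hx : x * star x = 1) (hw : w * star w = 1) (hN : x * w ≠ w * x) (a b : K)
    (hab : a • ((x - 1) * w) + b • star ((x - 1) * w) = 0) : a = 0 ∧ b = 0 := by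
  have hw0 : w ≠ 0 := by
    rintro rfl
    rw [zero_mul] at hw
    exact zero_ne_one hw
  have hx1 : x - 1 ≠ 0 := by
    intro h0
    apply hN
    rw [sub_eq_zero.mp h0, one_mul, mul_one]
  have hm0 : (x - 1) * w ≠ 0 := mul_ne_zero hx1 hw0
  by_contra hcon
  -- `m` and `star m` commute
  have hcomm : (x - 1) * w * star ((x - 1) * w) = star ((x - 1) * w) * ((x - 1) * w) := by
    obtain ⟨m, hm⟩ : ∃ m, m = (x - 1) * w := ⟨_, rfl⟩
    rw [← hm] at hab hm0 ⊢
    by_cases ha : a = 0
    · rw [ha, zero_smul, zero_add] at hab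
      rcases smul_eq_zero.mp hab with hb | hb
      · exact absurd ⟨ha, hb⟩ hcon
      · exact absurd ((star_eq_zero).mp hb) hm0
    · have h1 : m = (-(a⁻¹ * b)) • star m := by
        have h2 : a⁻¹ • (a • m + b • star m) = 0 := by rw [hab, smul_zero]
        rw [smul_add, smul_smul, smul_smul, inv_mul_cancel₀ ha, one_smul] at h2
        rw [neg_smul]
        exact eq_neg_of_add_eq_zero_left h2
      have h3 : Commute ((-(a⁻¹ * b)) • star m) (star m) :=
        (Commute.refl (star m)).smul_left _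
      rw [← h1] at h3
      exact h3.eq
  exact hN (comm_of_comm hS hdeg hx hw hcomm)

/-- **The isotropic element attached to the limit direction.** -/
theorem exists_star [GFF k] (hS : SetF k K D d s) (h3 : (3 : k) ≠ 0) (hdeg : finrank K D = 3 ^ 2)
    (C : Cub K D) {x0 w0 : D} (hx0 : x0 * star x0 = 1) (hw0 : w0 * star w0 = 1)
    (hT0 : C.T ((x0 - 1) * w0) = 0) (hN1 : x0 * w0 ≠ w0 * x0)
    (hN3 : C.T x0 + C.T (star x0) ≠ 6) :
    ∃ κ : K, κ ≠ 0 ∧ ∃ gs ys : D, gs = κ • ((x0 - 1) * w0) + star (κ • ((x0 - 1) * w0)) ∧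
      ys = s⁻¹ • (κ • ((x0 - 1) * w0) - star (κ • ((x0 - 1) * w0))) ∧
      star gs = gs ∧ star ys = ys ∧ C.T gs = 0 ∧ C.T ys = 0 ∧
      (∀ c : K, gs ≠ c • (1 : D)) ∧ C.S gs ≠ 0 ∧
      ∃ r : D, star r = r ∧ r ≠ 0 ∧ C.T r = 0 ∧ C.T (gs * r) = 0 ∧ C.T (gs * gs * r) = 0 ∧
        C.T (gs * C.adj r) = 0 ∧ C.T (ys * r) ≠ 0 := by
  have h30 : (3 : K) ≠ 0 := by
    have h := (_root_.map_ne_zero (algebraMap k K)).2 h3
    rwa [map_ofNat] at h
  have h20 := two_neK hS
  have hs0 := s_ne_zero hS
  have hSc := scub hS hdeg C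
  obtain ⟨κ, hκ, hSg⟩ := M8a.exists_kap hS hdeg C hx0 hw0 hT0 hN3
  have hind := indep_of_N1 hS hdeg hx0 hw0 hN1
  obtain ⟨m, hm⟩ : ∃ m, m = (x0 - 1) * w0 := ⟨_, rfl⟩
  rw [← hm] at hSg hT0 hind
  have hgc := M8a.gstar_noncentral hS h30 hdeg C hT0 hind hκ
  have hcm : ¬ (m * star m = star m * m) := fun h => hN1 (by
    rw [hm] at h
    exact comm_of_comm hS hdeg hx0 hw0 h)
  refine ⟨κ, hκ, κ • m + star (κ • m), s⁻¹ • (κ • m - star (κ • m)), by rw [hm], by rw [hm], ?_⟩
  obtain ⟨gs, hgs⟩ : ∃ gs, gs = κ • m + star (κ • m) := ⟨_, rfl⟩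
  obtain ⟨ys, hys⟩ : ∃ ys, ys = s⁻¹ • (κ • m - star (κ • m)) := ⟨_, rfl⟩
  rw [← hgs, ← hys]
  rw [← hgs] at hSg hgc
  have hTs : C.T (star (κ • m)) = 0 := by rw [hSc.T, map_smul, hT0, smul_zero, star_zero]
  have hg : star gs = gs := by rw [hgs, star_add, star_star, add_comm]
  have hy : star ys = ys := by
    rw [hys, hS.star_smul, star_sub, star_star, star_inv₀, hS.star_s, inv_neg, neg_smul,
      ← smul_neg, neg_sub]
  have hTg : C.T gs = 0 := by rw [hgs, map_add, map_smul, hT0, smul_zero, hTs, add_zero]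
  have hTy : C.T ys = 0 := by
    rw [hys, map_smul, map_sub, map_smul, hT0, smul_zero, hTs, sub_zero, smul_zero]
  refine ⟨hg, hy, hTg, hTy, hgc, hSg, ?_⟩
  -- the field generated by `gs`
  obtain ⟨E, _, _, _, _, φ, σ, _, _, hσ, H, hsp⟩ := NdF.exists_cfd hS h3 hdeg C hg hgc
  have hgs0 : gs ≠ 0 := fun h0 => hgc 0 (by rw [h0, zero_smul])
  have hσ0 : σ ≠ 0 := by
    rintro rfl
    exact hgs0 (by rw [← hσ, map_zero])
  -- an isotropic element
  have hfd : FiniteDimensional k D := finite_kD hS
  let β : LinearMap.BilinForm k (V0 hS C gs) := LinearMap.mk₂ k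
    (fun r r' : V0 hS C gs => rk k (C.T (gs * C.cr (r : D) (r' : D))))
    (fun r₁ r₂ r' => by
      rw [Submodule.coe_add, C.cr_add_left, mul_add, map_add, map_add])
    (fun c r r' => by
      rw [Submodule.coe_smul, ← algebraMap_smul K c (r : D), C.cr_smul_left, mul_smul_comm,
        map_smul, algebraMap_smul, map_smul])
    (fun r r₁ r₂ => by
      rw [Submodule.coe_add, C.cr_add_right, mul_add, map_add, map_add])
    (fun c r r' => by
      rw [Submodule.coe_smul, ← algebraMap_smul K c (r' : D), C.cr_smul_right, mul_smul_comm,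
        map_smul, algebraMap_smul, map_smul])
  have h6 := finrank_V0 hS hdeg C hg
  obtain ⟨F, _, _, ψ, hψ1, -⟩ := H271.GFF.out (k := k)
  let _ := ψ.toAlgebra
  have : FiniteDimensional (RatFunc F) k := hψ1
  obtain ⟨r1, hr10, hr1⟩ := H228.exists_zero_bilin F (RatFunc F) β
    (by rw [finrank_self]; omega)
  have hr1' : rk k (C.T (gs * C.cr (r1 : D) (r1 : D))) = 0 := hr1
  have hz1 : C.T (gs * C.adj (r1 : D)) = 0 := by
    rw [C.cr_self, mul_smul_comm, map_smul] at hr1'
    have e1 : star (C.T (gs * C.adj (r1 : D))) = C.T (gs * C.adj (r1 : D)) :=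
      hSc.T_mul_symm hg (hSc.adj_symm r1.2.1)
    have e2 : (2 : K) • C.T (gs * C.adj (r1 : D)) = (2 : k) • C.T (gs * C.adj (r1 : D)) := by
      rw [← algebraMap_smul K (2 : k), map_ofNat]
    rw [e2, map_smul, smul_eq_mul] at hr1'
    rw [← rk_eq hS e1, (mul_eq_zero.1 hr1').resolve_left hS.two_ne, map_zero]
  by_cases hyr : C.T (ys * (r1 : D)) ≠ 0
  · exact ⟨r1, r1.2.1, fun h0 => hr10 (Subtype.ext h0), r1.2.2.1, r1.2.2.2.1, r1.2.2.2.2, hz1,
      hyr⟩
  push Not at hyr
  -- two elements
  have hV : ∀ r : D, InV C φ 1 r → r ∈ V0 hS C gs := by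
    intro r hr
    have hr's : star r = r := by
      have : 1 * star r = r * 1 := hr.sy
      rwa [one_mul, mul_one] at this
    exact ⟨hr's, (NdF.inV_iff H hσ hsp hr's).1 hr⟩
  obtain ⟨ra, hra, hPa⟩ := NdF.nondeg_of_cfd H h3 hσ0
    ((NdF.inV_iff H hσ hsp r1.2.1).2 r1.2.2) (fun h0 => hr10 (Subtype.ext h0))
  rw [hσ] at hPa
  obtain ⟨rb, hrb, hTb⟩ : ∃ r, InV C φ 1 r ∧ C.T (ys * r) ≠ 0 := by
    have hys1 : Sy 1 ys := by
      change 1 * star ys = ys * 1
      rw [hy, one_mul, mul_one]
    have hprφ : ∀ w : E, pr C φ (φ w) = w := by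
      intro w
      have h4 : ∀ x : E, Algebra.trace k E (x * (pr C φ (φ w) - w)) = 0 := fun x => by
        have h5 := H.T_mul_pr (H.hφ w) x
        rw [← map_mul, H.T_φ] at h5
        rw [mul_sub, map_sub, sub_eq_zero]
        exact ((algebraMap k K).injective h5).symm
      exact sub_eq_zero.1 ((traceForm_nondegenerate k E).2 _ (fun x => h4 x))
    have hv : InV C φ 1 (ys - φ (pr C φ ys)) :=
      ⟨hys1.sub (H.hφ _), by rw [map_sub, hprφ, sub_self]⟩
    have hv0 : ys - φ (pr C φ ys) ≠ 0 := by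
      intro h0
      apply hcm
      have e1 : ys * gs = gs * ys := by
        rw [sub_eq_zero.1 h0, ← hσ, ← map_mul, ← map_mul, mul_comm]
      have e0 : s • ys = κ • m - star (κ • m) := by
        rw [hys, smul_smul, mul_inv_cancel₀ hs0, one_smul]
      have e2 : (2 : K) • (κ • m) = gs + s • ys := by
        rw [e0, hgs, two_smul]
        abel
      have e3 : (2 : K) • star (κ • m) = gs - s • ys := by
        rw [e0, hgs, two_smul]
        abel
      have e4 : (gs + s • ys) * (gs - s • ys) = (gs - s • ys) * (gs + s • ys) := by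
        rw [mul_sub, sub_mul, add_mul, mul_add, add_mul, mul_add, smul_mul_assoc, mul_smul_comm,
          e1]
        try abel
      rw [← e2, ← e3, hS.star_smul, smul_smul, smul_smul, smul_mul_smul_comm,
        smul_mul_smul_comm, mul_comm (2 * star κ)] at e4
      exact smul_right_injective D (mul_ne_zero (mul_ne_zero h20 hκ)
        (mul_ne_zero h20 (star_ne_zero.2 hκ))) e4
    obtain ⟨r, hr, hTr⟩ := NdF.exists_T_ne H h3 hv hv0
    refine ⟨r, hr, fun h0 => hTr ?_⟩
    rw [sub_mul, map_sub, h0, H.T_mul_pr hr.sy, hr.pr0, mul_zero, map_zero, map_zero, sub_zero]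
  -- an element with both properties
  obtain ⟨rc, hrc, hPc, hTc⟩ : ∃ r, r ∈ V0 hS C gs ∧ C.T (gs * C.cr (r1 : D) r) ≠ 0 ∧
      C.T (ys * r) ≠ 0 := by
    by_cases h1 : C.T (ys * ra) = 0
    · by_cases h2 : C.T (gs * C.cr (r1 : D) rb) = 0
      · refine ⟨ra + rb, (V0 hS C gs).add_mem (hV _ hra) (hV _ hrb), ?_, ?_⟩
        · rw [C.cr_add_right, mul_add, map_add, h2, add_zero]
          exact hPa
        · rw [mul_add, map_add, h1, zero_add]
          exact hTb
      · exact ⟨rb, hV _ hrb, h2, hTb⟩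
    · exact ⟨ra, hV _ hra, hPa, h1⟩
  -- correction
  obtain ⟨c, hc⟩ : ∃ c : k, algebraMap k K c * C.T (gs * C.cr (r1 : D) rc) =
      C.T (gs * C.adj rc) := by
    have e1 : star (C.T (gs * C.adj rc)) = C.T (gs * C.adj rc) :=
      hSc.T_mul_symm hg (hSc.adj_symm hrc.1)
    have e2 : star (C.T (gs * C.cr (r1 : D) rc)) = C.T (gs * C.cr (r1 : D) rc) :=
      hSc.T_mul_symm hg (hSc.cr_symm r1.2.1 hrc.1)
    refine ⟨rk k (C.T (gs * C.adj rc)) / rk k (C.T (gs * C.cr (r1 : D) rc)), ?_⟩
    rw [map_div₀, rk_eq hS e1, rk_eq hS e2, div_mul_cancel₀ _ hPc]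
  have hmem : rc - c • (r1 : D) ∈ V0 hS C gs :=
    (V0 hS C gs).sub_mem hrc ((V0 hS C gs).smul_mem c r1.2)
  refine ⟨rc - c • (r1 : D), hmem.1, ?_, hmem.2.1, hmem.2.2.1, hmem.2.2.2, ?_, ?_⟩
  · intro h0
    apply hTc
    rw [sub_eq_zero.1 h0, mul_smul_comm, T_smul_k, hyr, mul_zero]
  · have e1 : rc - c • (r1 : D) = rc + (algebraMap k K (-c)) • (r1 : D) := by
      rw [algebraMap_smul, neg_smul, sub_eq_add_neg]
    rw [e1, C.adj_add, C.adj_smul, C.cr_smul_right, C.cr_comm rc, mul_add, mul_add, map_add,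
      map_add, mul_smul_comm, mul_smul_comm, map_smul, map_smul, hz1, smul_zero, add_zero,
      smul_eq_mul, map_neg, ← hc]
    ring
  · rw [mul_sub, map_sub, mul_smul_comm, T_smul_k, hyr, mul_zero, sub_zero]
    exact hTc

end Vale.Agent.P011.H279.StarF
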