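import Vale.Agent.P011.H279.M10F
import Vale.Agent.P011.H279.M8bF
import Vale.Agent.P011.H279.StarF
import Vale.Agent.P011.H948.Root

/-!
# The local statement of Part I over function fields
-/

set_option linter.unusedSectionVars false

open Module QuadraticMap TensorProduct

namespace Vale.Agent.P011.H279.M8g

open Vale.Agent.P011.H738 Vale.Agent.P011.H271 Vale.Agent.P011.H775 Vale.Agent.P011.H948
open Vale.Agent.P011.H305 Vale.Agent.P011.H279.Asm Vale.Agent.P011.H279.V0F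
open Vale.Agent.P011.H279.PartI Vale.Agent.P011.H279.M8a Vale.Agent.P011.H279.M8b
open Vale.Agent.P011.H182 (na)

variable {k K D : Type} [Field k] [Field K] [StarRing K]
  [DivisionRing D] [StarRing D] [Algebra k K] [Algebra k D] [Algebra K D] [IsScalarTower k K D]
  {d : kˣ} {s : K} {N : ℕ}

/-- The statement about the parameter quadric near the limit direction (helper308). -/
def RhoEnd (C : Cub K D) (B : Basis (Fin N) k D) (d : kˣ) (s : K) (gs ys rs : D) {ι : Type}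
    (A : ι → AbsoluteValue k ℝ) : Prop :=
  ∃ η : ℝ, 0 < η ∧ ∀ (lam : k) (g y r : D), lam ≠ 0 → (∀ i, A i lam < η ∧
    na B (A i) (lam • g - gs) < η ∧ na B (A i) (lam • y - ys) < η ∧ na B (A i) (r - rs) < η) →
    ∀ (F : Type) [Field F] [Algebra k F] [FiniteDimensional k F] [Algebra.IsSeparable k F]
      (φ : F →ₐ[k] D) (σ : F) [FiniteDimensional K D] [Algebra.IsCentral K D] (M : Dat C φ),
      Adm d s g y r σ M → ∃ z : F × k, M.Q z = 0 ∧ polar M.Q z (sh k M.a, 0) ≠ 0 ∧ M.A z ≠ 0 ∧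
        ∀ i, ∃ c3 c2 c1 c0 : k, c3 ≠ 0 ∧ A i (c1 * c3) < A i c2 ^ 2 ∧
          A i (c0 * c3 ^ 2) < A i c2 ^ 3 ∧
          ∀ (L : Type) [Field L] [Algebra k L] (μ : L),
            algebraMap k L c3 * μ ^ 3 + algebraMap k L c2 * μ ^ 2 + algebraMap k L c1 * μ +
              algebraMap k L c0 = 0 →
            ∃ f : L ⊗[k] F, Algebra.norm L f +
              Algebra.trace L (L ⊗[k] F) ((1 ⊗ₜ[k] (M.A z)) * f) + algebraMap k L (M.G z) = 0

/-- **The local statement `M8`**, from the statement about the parameter quadric. -/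
theorem m8_of [GFF k] (hS : SetF k K D d s) (h3 : (3 : k) ≠ 0) (hdeg : finrank K D = 3 ^ 2)
    (C : Cub K D) (B : Basis (Fin N) k D) {Td P1 : Set (Place k)} (hP1 : P1.Finite)
    (hne : P1.Nonempty) (hTd : Td ⊆ P1) {x0 w0 : D} (hx0 : x0 * star x0 = 1)
    (hw0 : w0 * star w0 = 1) (hT0 : C.T ((x0 - 1) * w0) = 0) (hN1 : x0 * w0 ≠ w0 * x0)
    (hN3 : C.T x0 + C.T (star x0) ≠ 6)
    (hrho : Td.Nonempty → ∀ gs ys rs : D, star gs = gs → star ys = ys → star rs = rs →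
      C.T rs = 0 → rs ≠ 0 → C.S gs ≠ 0 → C.T (ys * rs) ≠ 0 →
      RhoEnd C B d s gs ys rs (fun v : Td => (v : Place k).abv)) :
    M8 hS C B Td P1 (fun F => M10F.Gv F) x0 := by
  classical
  have h30 : (3 : K) ≠ 0 := by
    have h := (_root_.map_ne_zero (algebraMap k K)).2 h3
    rwa [map_ofNat] at h
  obtain ⟨κ, hκ, gs, ys, hgs, hys, hg, hy, -, -, hgc, hSg, rs, hrs, hr0, e1, e2, e3, e4, e5⟩ :=
    StarF.exists_star hS h3 hdeg C hx0 hw0 hT0 hN1 hN3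
  obtain ⟨yr, hyr, hP⟩ := exists_yr hS h3 hdeg C hg hgc ⟨hrs, e1, e2, e3⟩ hr0
  obtain ⟨ηr, hηr, hrho'⟩ : ∃ η : ℝ, 0 < η ∧ (Td.Nonempty → ∀ (lam : k) (g y r : D), lam ≠ 0 →
      (∀ i : Td, (i : Place k).abv lam < η ∧ na B (i : Place k).abv (lam • g - gs) < η ∧
        na B (i : Place k).abv (lam • y - ys) < η ∧ na B (i : Place k).abv (r - rs) < η) →
      ∀ (F : Type) [Field F] [Algebra k F] [FiniteDimensional k F] [Algebra.IsSeparable k F]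
        (φ : F →ₐ[k] D) (σ : F) [FiniteDimensional K D] [Algebra.IsCentral K D] (M : Dat C φ),
        Adm d s g y r σ M → ∃ z : F × k, Rho M z ∧ ∀ v ∈ Td, M10F.Gv F v (M.A z) (M.G z)) := by
    by_cases hT : Td.Nonempty
    · obtain ⟨η, hη, h⟩ := hrho hT gs ys rs hg hy hrs e1 hr0 hSg e5
      refine ⟨η, hη, fun _ lam g y r hlam hi F _ _ _ _ φ σ _ _ M hM => ?_⟩
      obtain ⟨z, hQ, hpol, hA, hv⟩ := h lam g y r hlam hi F φ σ M hM
      refine ⟨z, ⟨hQ, hpol, hA⟩, fun v hvT => ?_⟩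
      obtain ⟨c3, c2, c1, c0, h0, h1, h2, hL⟩ := hv ⟨v, hvT⟩
      obtain ⟨μ, hμ⟩ := exists_root_comp v h0 h1 h2
      exact Or.inr (Or.inl (hL v.comp μ hμ))
    · exact ⟨1, one_pos, fun h => absurd h hT⟩
  -- the radius
  obtain ⟨η, hη, hηv⟩ := exists_bound hP1 (P := fun v η =>
      (∀ (lam : k) (g : D), lam ≠ 0 → v.abv lam < η → na B v.abv (lam • g - gs) < η →
        (∀ c : K, g ≠ c • (1 : D)) ∧ 3 * C.S g ≠ 1) ∧
      (∀ (lam : k) (g : D), lam ≠ 0 → v.abv lam < η → star g = g →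
      na B v.abv (lam • g - gs) < η → ∀ z1 y1 : D, z1 = prj C (lam • g) rs →
      y1 = prj C (lam • g) yr →
      (star z1 = z1 ∧ C.T z1 = 0 ∧ C.T (g * z1) = 0 ∧ C.T (g * g * z1) = 0) ∧
      (star y1 = y1 ∧ C.T y1 = 0 ∧ C.T (g * y1) = 0 ∧ C.T (g * g * y1) = 0) ∧
      ∀ Q1 Q2 P : k, algebraMap k K Q1 = C.T (g * pp g * pp g * C.adj z1) →
        algebraMap k K Q2 = C.T (g * pp g * pp g * C.adj y1) →
        algebraMap k K P = C.T (g * pp g * pp g * C.cr z1 y1) →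
        P ≠ 0 ∧ v.abv (Q1 * Q2) < v.abv P ^ 2 ∧ ∀ r : D, (∃ t : k, v.abv t ≤ v.abv (Q1 / P) ∧
          na B v.abv (r - z1 - t • y1) < η) → na B v.abv (r - rs) < ηr) ∧ η ≤ ηr) (by
    intro v hv
    obtain ⟨η1, h1, h1'⟩ := good_of_near hS h30 C B v.abv hgc hSg one_pos
    obtain ⟨η2, h2, h2'⟩ := r_raw hS h3 hdeg C B v.abv hg hgc ⟨hrs, e1, e2, e3⟩ hyr e4 hP hηr
    refine ⟨min (min η1 η2) ηr, lt_min (lt_min h1 h2) hηr, fun ε hε hle => ⟨?_, ?_, ?_⟩⟩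
    · intro lam g hl hl1 hg1
      have h5 := h1' lam g hl (hl1.trans_le (hle.trans ((min_le_left _ _).trans
        (min_le_left _ _)))) (hg1.trans_le (hle.trans ((min_le_left _ _).trans
        (min_le_left _ _))))
      exact ⟨h5.1, h5.2.1⟩
    · intro lam g hl hl1 hgg hg1 z1 y1 hz1 hy1
      have hle2 : ε ≤ η2 := hle.trans ((min_le_left _ _).trans (min_le_right _ _))
      obtain ⟨a1, a2, a3⟩ := h2' lam g hl (hl1.trans_le hle2) hgg (hg1.trans_le hle2) z1 y1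
        hz1 hy1
      refine ⟨a1, a2, fun Q1 Q2 P b1 b2 b3 => ?_⟩
      obtain ⟨c1, c2, c3⟩ := a3 Q1 Q2 P b1 b2 b3
      exact ⟨c1, c2, fun r ⟨t, ht, hr⟩ => c3 r ⟨t, ht, hr.trans_le hle2⟩⟩
    · exact hle.trans (min_le_right _ _))
  obtain ⟨u1, lam, ε, hu1, hlam, hε, hu⟩ := exists_u1 hS h3 hdeg C B hw0 hT0
    (StarF.indep_of_N1 hS hdeg hx0 hw0 hN1) hκ hP1 hη
  rw [← hgs, ← hys] at hu
  refine ⟨u1, hu1, ε, hε, fun x u _ _ hx hu' => ?_⟩
  obtain ⟨v0, hv0⟩ := hne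
  have hnear : ∀ v ∈ P1, v.abv lam < η ∧ C.T ((x - 1) * u) ≠ 0 ∧
      na B v.abv (Gf C lam x u - gs) < η ∧ na B v.abv (Yf C s lam x u - ys) < η := fun v hv =>
    ⟨(hu v hv).1, (hu v hv).2.2 x u (hx v hv) (hu' v hv)⟩
  refine ⟨(hnear v0 hv0).2.1, fun g y hch => ?_⟩
  obtain ⟨hgf, hyf⟩ := Chart.eqs hS hch lam
  have hnear' : ∀ v ∈ P1, v.abv lam < η ∧ na B v.abv (lam • g - gs) < η ∧
      na B v.abv (lam • y - ys) < η := by
    intro v hv
    rw [hgf, hyf]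
    exact ⟨(hnear v hv).1, (hnear v hv).2.2⟩
  obtain ⟨hgc', hSg'⟩ := (hηv v0 hv0).1 lam g hlam (hnear' v0 hv0).1 (hnear' v0 hv0).2.1
  refine ⟨hgc', hSg', fun hT => ?_⟩
  have hgg := hch.hg
  have hmem := (hηv v0 hv0).2.1 lam g hlam (hnear' v0 hv0).1 hgg (hnear' v0 hv0).2.1
    (prj C (lam • g) rs) (prj C (lam • g) yr) rfl rfl
  let z1 : V0 hS C g := ⟨prj C (lam • g) rs, hmem.1⟩
  let y1 : V0 hS C g := ⟨prj C (lam • g) yr, hmem.2.1⟩
  have hmain : ∀ v ∈ Td, polar (qV hS C g) z1 y1 ≠ 0 ∧ v.abv (qV hS C g z1 * qV hS C g y1) <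
      v.abv (polar (qV hS C g) z1 y1) ^ 2 ∧ ∀ r : D, (∃ t : k,
        v.abv t ≤ v.abv (qV hS C g z1 / polar (qV hS C g) z1 y1) ∧
          na B v.abv (r - (z1 : D) - t • (y1 : D)) < η) → na B v.abv (r - rs) < ηr := by
    intro v hv
    have hv1 := hTd hv
    exact ((hηv v hv1).2.1 lam g hlam (hnear' v hv1).1 hgg (hnear' v hv1).2.1
      (prj C (lam • g) rs) (prj C (lam • g) yr) rfl rfl).2.2 _ _ _
      (qV_apply hS hdeg C hgg z1) (qV_apply hS hdeg C hgg y1) (qV_polar_eq hS hdeg C hgg z1 y1)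
  refine ⟨z1, y1, fun v hv => ⟨(hmain v hv).1, (hmain v hv).2.1⟩, η, hη, ?_⟩
  intro r _ hr F _ _ _ _ φ σ _ _ M hM
  refine hrho' hT lam g y (r : D) hlam (fun i => ?_) F φ σ M hM
  have hi1 := hTd i.2
  have hle := (hηv i hi1).2.2
  refine ⟨(hnear' i hi1).1.trans_le hle, (hnear' i hi1).2.1.trans_le hle,
    (hnear' i hi1).2.2.trans_le hle, (hmain i i.2).2.2 r (hr i i.2)⟩

/-- **Part I over function fields**, from the statement about the parameter quadric. -/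
theorem partI_of_rho [GFF k] (hS : SetF k K D d s) (h3 : (3 : k) ≠ 0)
    (hdeg : finrank K D = 3 ^ 2) (C : Cub K D) (B : Basis (Fin N) k D) {P1 : Set (Place k)}
    (hP1 : P1.Finite) (hne : P1.Nonempty) (hA : Adiv k K D ⊆ P1) {x0 w0 : D}
    (hx0 : x0 * star x0 = 1) (hw0 : w0 * star w0 = 1) (hT0 : C.T ((x0 - 1) * w0) = 0)
    (hN1 : x0 * w0 ≠ w0 * x0) (hN3 : C.T x0 + C.T (star x0) ≠ 6)
    (hrho : (Adiv k K D).Nonempty → ∀ gs ys rs : D, star gs = gs → star ys = ys →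
      star rs = rs → C.T rs = 0 → rs ≠ 0 → C.S gs ≠ 0 → C.T (ys * rs) ≠ 0 →
      RhoEnd C B d s gs ys rs (fun v : Adiv k K D => (v : Place k).abv)) :
    ∃ ε : ℝ, 0 < ε ∧ ∀ x : D, x * star x = 1 → (∀ v ∈ P1, na B v.abv (x - x0) < ε) →
      ∃ w : D, w * star w = 1 ∧ C.T ((x - 1) * w) = 0 :=
  M10F.partI_of_M8 hS h3 hdeg C B hP1 hne hA (Set.Subset.refl _)
    (m8_of hS h3 hdeg C B hP1 hne hA hx0 hw0 hT0 hN1 hN3 hrho)

end Vale.Agent.P011.H279.M8g
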