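import Vale.Agent.P011.H279.ArtC
import Vale.Agent.P011.H505.WangB

/-!
Quadratic extensions which split at all the bad places of a division algebra do not lower its
index, over global function fields of characteristic two.
-/

set_option linter.unusedSectionVars false

open Module Polynomial TensorProduct Matrix

namespace Vale.Agent.P011.H279.Art

open Vale.Agent.P011.H738 Vale.Agent.P011.H271 Vale.Agent.P011.W Vale.Agent.P011.H279.Sq
open Vale.Agent.P011.H961 (SetG)

/-- An idempotent matrix over a division ring which is conjugate to its complement has even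
size. -/
theorem even_of_idem {Δ : Type} [DivisionRing Δ] {r : ℕ} {E Y Y' : Matrix (Fin r) (Fin r) Δ}
    (hE : E * E = E) (hY : Y * Y' = 1) (hY' : Y' * Y = 1) (h : Y * E = (1 - E) * Y) : Even r := by
  obtain ⟨f, hf⟩ : ∃ f : (Fin r → Δ) →ₗ[Δ] (Fin r → Δ), ∀ v, f v = v ᵥ* E :=
    ⟨Matrix.vecMulLinear E, fun v => rfl⟩
  obtain ⟨y, hy⟩ : ∃ f : (Fin r → Δ) →ₗ[Δ] (Fin r → Δ), ∀ v, f v = v ᵥ* Y :=
    ⟨Matrix.vecMulLinear Y, fun v => rfl⟩
  have hinj : Function.Injective y := by
    intro u v huv
    rw [hy, hy] at huv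
    have h1 := congrArg (fun w => w ᵥ* Y') huv
    simpa only [Matrix.vecMul_vecMul, hY, Matrix.vecMul_one] using h1
  have hsum := f.finrank_range_add_finrank_ker
  rw [finrank_fin_fun] at hsum
  have hker : LinearMap.ker f = LinearMap.range (LinearMap.id - f) := by
    ext v
    rw [LinearMap.mem_ker, LinearMap.mem_range]
    constructor
    · intro hv
      exact ⟨v, by rw [LinearMap.sub_apply, LinearMap.id_apply, hv, sub_zero]⟩
    · rintro ⟨w, rfl⟩
      rw [LinearMap.sub_apply, LinearMap.id_apply, map_sub, hf (f w), hf w, Matrix.vecMul_vecMul,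
        hE, sub_self]
  have hr : LinearMap.range f = Submodule.map y (LinearMap.range (LinearMap.id - f)) := by
    have key : ∀ v, f (y v) = y ((LinearMap.id - f : (Fin r → Δ) →ₗ[Δ] (Fin r → Δ)) v) := by
      intro v
      rw [hf, hy, hy, LinearMap.sub_apply, LinearMap.id_apply, hf, Matrix.vecMul_vecMul, h,
        ← Matrix.vecMul_vecMul, Matrix.vecMul_sub, Matrix.vecMul_one]
    ext w
    constructor
    · rintro ⟨u, rfl⟩
      refine ⟨(LinearMap.id - f : (Fin r → Δ) →ₗ[Δ] (Fin r → Δ)) (u ᵥ* Y'), ⟨_, rfl⟩, ?_⟩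
      rw [← key, hy, Matrix.vecMul_vecMul, hY', Matrix.vecMul_one]
    · rintro ⟨_, ⟨u, rfl⟩, rfl⟩
      exact ⟨y u, key u⟩
  have heq : finrank Δ (LinearMap.range f) = finrank Δ (LinearMap.ker f) := by
    rw [hr, hker]
    exact (LinearEquiv.finrank_eq (Submodule.equivMapOfInjective y hinj _)).symm
  exact ⟨finrank Δ (LinearMap.ker f), by omega⟩

/-- An element swapping the two roots. -/
theorem exists_swap {K D : Type} [Field K] [DivisionRing D] [Algebra K D] [Algebra.IsCentral K D]
    {a : K} {z : D} (h2 : (2 : K) = 0) (hz : z * z + z = algebraMap K D a)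
    (hK : ∀ c : K, algebraMap K D c ≠ z) : ∃ y : D, y ≠ 0 ∧ y * z = (z + 1) * y := by
  have h2D : (2 : D) = 0 := by rw [← map_ofNat (algebraMap K D) 2, h2, map_zero]
  by_cases h : ∀ u, z * u = u * z
  · have h1 : z ∈ Subalgebra.center K D := by
      rw [Subalgebra.mem_center_iff]
      exact fun x => (h x).symm
    have h3 := Algebra.IsCentral.out h1
    rw [Algebra.mem_bot] at h3
    obtain ⟨c, hc⟩ := h3
    exact absurd hc (hK c)
  · push Not at h
    obtain ⟨u, hu⟩ := h
    refine ⟨z * u - u * z, sub_ne_zero.mpr hu, ?_⟩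
    have e1 : algebraMap K D a * u = u * algebraMap K D a := Algebra.commutes a u
    rw [← hz] at e1
    have e2 : (z * u - u * z) * z - (z + 1) * (z * u - u * z) =
        (u * (z * z + z) - (z * z + z) * u) + 2 * (z * u * z - u * (z * z)) := by
      noncomm_ring
    rw [← sub_eq_zero, e2, e1, sub_self, h2D, zero_mul, add_zero]

section main

variable {k K D : Type} [Field k] [Field K] [StarRing K] [DivisionRing D] [StarRing D]
  [Algebra k K] [Algebra k D] [Algebra K D] [IsScalarTower k K D] {n : ℕ}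

/-- The splitting at a bad place. -/
theorem spl_half [GFF k] (hS : SetG k K D) (h2 : (2 : k) = 0) (hdeg : finrank K D = n ^ 2)
    {z y : D} {a : k} (hz : z * z + z = algebraMap K D (algebraMap k K a)) (hy0 : y ≠ 0)
    (hy : y * z = (z + 1) * y)
    {v : Place k} (ι : K →ₐ[k] v.comp) {α : v.comp}
    (hα : α * α + α = algebraMap k v.comp a) {c : k} (hc : Uni v c) {M : Type} [Field M]
    (φ : v.comp →+* M) {θ : M} (hθ : θ ^ (n / 2) = φ (algebraMap k v.comp c)) :
    Spl D n (φ.comp (ι : K →+* v.comp)) ∧ Even n := by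
  have := hS.fin
  have := hS.cen
  let _ : NontriviallyNormedField v.comp := nnfPlace v
  have h2v : (2 : v.comp) = 0 := by
    rw [← map_ofNat (algebraMap k v.comp) 2, h2, map_zero]
  let _ : Algebra K v.comp := (ι : K →+* v.comp).toAlgebra
  obtain ⟨r, q, hr, Δ, i1, i2, i3, i4, ψ, hrq, hq⟩ := H505.Wang.exists_part' hdeg v.comp
  -- the idempotent
  obtain ⟨g, hg⟩ : ∃ g : D →+* Matrix (Fin r) (Fin r) Δ, ∀ x, g x = ψ (1 ⊗ₜ[K] x) :=
    ⟨(ψ : v.comp ⊗[K] D →+* Matrix (Fin r) (Fin r) Δ).comp
      (Algebra.TensorProduct.includeRight : D →ₐ[K] v.comp ⊗[K] D), fun x => rfl⟩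
  have hgK : ∀ c : K, g (algebraMap K D c) = algebraMap v.comp _ (algebraMap K v.comp c) := by
    intro c
    rw [hg, Algebra.algebraMap_eq_smul_one, ← TensorProduct.smul_tmul,
      ← Algebra.algebraMap_eq_smul_one, ← ψ.commutes]
    rfl
  obtain ⟨A, hA⟩ : ∃ A : Matrix (Fin r) (Fin r) Δ, A = algebraMap v.comp _ α := ⟨_, rfl⟩
  have h2M : (2 : Matrix (Fin r) (Fin r) Δ) = 0 := by
    rw [← map_ofNat (algebraMap v.comp (Matrix (Fin r) (Fin r) Δ)) 2, h2v, map_zero]
  have hAA : A * A + A = g z * g z + g z := by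
    rw [← map_mul, ← map_add, hz, hgK, hA, ← map_mul, ← map_add, hα]
    congr 1
    exact (ι.commutes a).symm
  have hAc : A * g z = g z * A := by
    rw [hA]
    exact Algebra.commutes _ _
  have hAy : A * g y = g y * A := by
    rw [hA]
    exact Algebra.commutes _ _
  have hE : (g z + A) * (g z + A) = g z + A := by
    have e : (g z + A) * (g z + A) = (g z * g z + g z) + (A * A + A) + (g z * A + A * g z) -
        (g z + A) := by noncomm_ring
    rw [e, hAA, hAc, ← two_mul, ← two_mul, h2M, zero_mul, zero_mul, zero_add, zero_sub]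
    have e2 : -(g z + A) = (g z + A) - 2 * (g z + A) := by noncomm_ring
    rw [e2, h2M, zero_mul, sub_zero]
  have hYE : g y * (g z + A) = (1 - (g z + A)) * g y := by
    have e : (1 - (g z + A)) * g y = (g z + 1) * g y + A * g y - 2 * ((g z + A) * g y) := by
      noncomm_ring
    rw [e, h2M, zero_mul, sub_zero, mul_add, ← map_mul, hy, map_mul, map_add, map_one, hAy]
  have hev : Even r := even_of_idem hE (Y := g y) (Y' := g y⁻¹)
    (by rw [← map_mul, mul_inv_cancel₀ hy0, map_one])
    (by rw [← map_mul, inv_mul_cancel₀ hy0, map_one]) hYE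
  obtain ⟨r', hr'⟩ := hev
  have hn2 : n / 2 = r' * q := by
    rw [← hrq, hr', ← two_mul, mul_assoc, Nat.mul_div_cancel_left _ (by norm_num)]
  refine ⟨?_, ⟨r' * q, by rw [← hrq, hr']; ring⟩⟩
  let _ : Algebra v.comp M := φ.toAlgebra
  have hc1 : ‖algebraMap k v.comp c‖ < 1 := by
    have h3 : ‖algebraMap k v.comp c‖ = v.abv c := norm_alg v _
    rw [h3]
    exact hc.2.1
  have hs : Spl Δ q (algebraMap v.comp M) := spl_root hq ((_root_.map_ne_zero _).mpr hc.1) hc1
    (fun y hy => hc.comp y hy) (M := M) (θ := θ ^ r') (by rw [← pow_mul, ← hn2, hθ]; rfl)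
  obtain ⟨f2⟩ := spl_iff.mp hs
  let _ : Algebra K M := (φ.comp (ι : K →+* v.comp)).toAlgebra
  have : IsScalarTower K v.comp M := IsScalarTower.of_algebraMap_eq fun x => rfl
  have h5 := H505.Wang.spl_of_part ψ hrq f2
  exact spl_iff.mpr h5

/-- **The index is not lowered**: if `a` is of the form `z * z + z` at the bad places but not in
the centre, then it is not of this form in `D`. -/
theorem no_root [GFF k] (hS : SetG k K D) (h2 : (2 : k) = 0) (hdeg : finrank K D = n ^ 2)
    {a : k} (ha : ∀ z : K, z * z + z ≠ algebraMap k K a)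
    (hb : ∀ v ∈ Bad k K D n, ∃ z : v.comp, z * z + z = algebraMap k v.comp a) (z : D) :
    z * z + z ≠ algebraMap k D a := by
  classical
  intro hz
  have := hS.fin
  have := hS.cen
  have := hS.finK
  have hn : 0 < n := deg_pos hdeg
  have h2K : (2 : K) = 0 := by rw [← map_ofNat (algebraMap k K) 2, h2, map_zero]
  rw [IsScalarTower.algebraMap_apply k K D] at hz
  have hzK : ∀ c : K, algebraMap K D c ≠ z := by
    rintro c rfl
    refine ha c ((algebraMap K D).injective ?_)
    rw [map_add, map_mul, hz]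
  obtain ⟨y, hy0, hy⟩ := exists_swap h2K hz hzK
  -- the degree is at least two
  have hn2 : 2 ≤ n := by
    by_contra hcon
    have h1 : n = 1 := by omega
    rw [h1, one_pow] at hdeg
    obtain ⟨c, hc⟩ := (finrank_eq_one_iff_of_nonzero' (1 : D) one_ne_zero).mp hdeg z
    exact hzK c (by rw [← hc, Algebra.algebraMap_eq_smul_one])
  have hbf := bad_finiteG hS hn.ne' hdeg
  obtain ⟨v0, hv0⟩ := bad_nonemptyG hS hn2 hdeg
  choose π hπ using fun v : Place k => exists_uni v
  obtain ⟨q, hq⟩ := H167.RhoF.exists_notMem (k := k) hbf.toFinset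
  obtain ⟨c, hc, -⟩ := H496.NumF.near_int_fam (S := ((hbf.toFinset : Finset (Place k)) :
    Set (Place k))) (Finset.finite_toSet _) q (fun h => hq (Finset.mem_coe.mp h)) π
    (fun v => v.abv (π v)) (fun v _ => v.abv.pos (hπ v).1)
  have hbadc : ∀ v ∈ Bad k K D n, Uni v c := by
    intro v hv
    exact (hπ v).near (hc v (by rw [Finset.mem_coe, hbf.mem_toFinset]; exact hv))
  -- the degree is even
  have hev : Even n := by
    obtain ⟨ι, -⟩ := id hv0
    obtain ⟨α, hα⟩ := hb v0 hv0
    let Ω := AlgebraicClosure v0.comp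
    obtain ⟨θ, hθ⟩ := IsAlgClosed.exists_pow_nat_eq (algebraMap v0.comp Ω (algebraMap k v0.comp c))
      (n := n / 2) (by omega)
    exact (spl_half hS h2 hdeg hz hy0 hy ι hα (hbadc v0 hv0) (algebraMap v0.comp Ω) hθ).2
  have hh : n / 2 ≠ 0 := by omega
  -- the extension
  have hP : (X ^ (n / 2) - C (algebraMap k K c) : K[X]).natDegree ≠ 0 := by
    rw [natDegree_X_pow_sub_C]
    exact hh
  have hP0 : (X ^ (n / 2) - C (algebraMap k K c) : K[X]) ≠ 0 :=
    (monic_X_pow_sub_C _ hh).ne_zero
  obtain ⟨f, hf, hfP⟩ := exists_irreducible_of_natDegree_ne_zero hP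
  have : Fact (Irreducible f) := ⟨hf⟩
  have hfin : FiniteDimensional K (AdjoinRoot f) := (AdjoinRoot.powerBasis hf.ne_zero).finite
  have hrk : finrank K (AdjoinRoot f) = f.natDegree := by
    rw [(AdjoinRoot.powerBasis hf.ne_zero).finrank, AdjoinRoot.powerBasis_dim]
  have hle : f.natDegree ≤ n / 2 := by
    have h1 := natDegree_le_of_dvd hfP hP0
    rwa [natDegree_X_pow_sub_C] at h1
  have hθ : (AdjoinRoot.root f) ^ (n / 2) = algebraMap K (AdjoinRoot f) (algebraMap k K c) := by
    have h1 : aeval (AdjoinRoot.root f) (X ^ (n / 2) - C (algebraMap k K c) : K[X]) = 0 := by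
      obtain ⟨g, hg⟩ := hfP
      rw [hg, map_mul]
      have h2 : aeval (AdjoinRoot.root f) f = 0 := by
        rw [AdjoinRoot.aeval_eq, AdjoinRoot.mk_self]
      rw [h2, zero_mul]
    rwa [map_sub, map_pow, aeval_X, aeval_C, sub_eq_zero] at h1
  have : FiniteDimensional k (AdjoinRoot f) := Module.Finite.trans K (AdjoinRoot f)
  have : GFF (AdjoinRoot f) := Hey.H63.gff_of_finite (k := k)
  have hspl : Spl D n (algebraMap K (AdjoinRoot f)) := spl_of_local hdeg _ fun W =>
    spl_placeG hS hdeg (AdjoinRoot f) W (by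
      intro v ι φ hv hφ
      obtain ⟨α, hα⟩ := hb v hv
      refine (spl_half hS h2 hdeg hz hy0 hy ι hα (hbadc v hv) φ
        (θ := algebraMap (AdjoinRoot f) W.comp (AdjoinRoot.root f)) ?_).1
      rw [← map_pow, hθ]
      have h3 := RingHom.congr_fun hφ (algebraMap k K c)
      rw [RingHom.comp_apply, RingHom.comp_apply] at h3
      rw [← h3]
      congr 1
      exact ι.commutes c)
  have h3 := H505.Wang.dvd_of_spl hdeg _ hspl
  have h4 := Nat.le_of_dvd (by rw [hrk]; exact hf.natDegree_pos) h3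
  rw [hrk] at h4
  omega

end main

/-- An element of `M₂(D)` commuting with `t`, where `t * t + t = a`, is zero or a unit. -/
theorem unit_of_comm {k D : Type} [Field k] [DivisionRing D] [Algebra k D] {a : k}
    (h : ∀ z : D, z * z + z ≠ algebraMap k D a) {t c : Matrix (Fin 2) (Fin 2) D}
    (ht : t * t + t = algebraMap k _ a) (hct : c * t = t * c) (hc : c ≠ 0) : IsUnit c := by
  obtain ⟨f, hf⟩ : ∃ f : (Fin 2 → D) →ₗ[D] (Fin 2 → D), ∀ v, f v = v ᵥ* c :=
    ⟨Matrix.vecMulLinear c, fun v => rfl⟩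
  have hsum := f.finrank_range_add_finrank_ker
  rw [finrank_fin_fun] at hsum
  have hr : finrank D (LinearMap.range f) ≠ 0 := by
    intro h0
    rw [Submodule.finrank_eq_zero, LinearMap.range_eq_bot] at h0
    apply hc
    ext i j
    have h1 := congrArg (fun g : (Fin 2 → D) →ₗ[D] (Fin 2 → D) => g (Pi.single i 1) j) h0
    simp only [hf, LinearMap.zero_apply, Pi.zero_apply] at h1
    rw [Matrix.single_one_vecMul] at h1
    exact h1
  have hk : finrank D (LinearMap.ker f) ≠ 1 := by
    intro h1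
    obtain ⟨v0, hv0, hspan⟩ := finrank_eq_one_iff'.mp h1
    have hv0' : (v0 : Fin 2 → D) ≠ 0 := fun h => hv0 (Subtype.ext h)
    have h2 : (v0 : Fin 2 → D) ᵥ* t ∈ LinearMap.ker f := by
      rw [LinearMap.mem_ker, hf, Matrix.vecMul_vecMul, ← hct, ← Matrix.vecMul_vecMul, ← hf,
        LinearMap.mem_ker.mp v0.2, Matrix.zero_vecMul]
    obtain ⟨z, hz⟩ := hspan ⟨_, h2⟩
    have hz' : z • (v0 : Fin 2 → D) = (v0 : Fin 2 → D) ᵥ* t := congrArg Subtype.val hz
    refine h z ?_
    have h3 : (z * z + z) • (v0 : Fin 2 → D) = algebraMap k D a • (v0 : Fin 2 → D) := by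
      have h4 : (v0 : Fin 2 → D) ᵥ* (t * t + t) = (z * z + z) • (v0 : Fin 2 → D) := by
        rw [Matrix.vecMul_add, ← Matrix.vecMul_vecMul, ← hz', Matrix.smul_vecMul, ← hz', add_smul,
          mul_smul]
      rw [← h4, ht]
      funext i
      rw [Matrix.algebraMap_eq_diagonal, Matrix.vecMul_diagonal]
      simp only [Pi.smul_apply, smul_eq_mul, Pi.algebraMap_apply]
      exact (Algebra.commutes a _).symm
    have h5 : (z * z + z - algebraMap k D a) • (v0 : Fin 2 → D) = 0 := by
      rw [sub_smul, h3, sub_self]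
    rcases smul_eq_zero.mp h5 with h6 | h6
    · exact sub_eq_zero.mp h6
    · exact absurd h6 hv0'
  have hk0 : finrank D (LinearMap.ker f) = 0 := by omega
  rw [Submodule.finrank_eq_zero] at hk0
  have hinj := LinearMap.ker_eq_bot.mp hk0
  have hsurj := LinearMap.injective_iff_surjective.mp hinj
  choose g hg using fun i : Fin 2 => hsurj (Pi.single i 1)
  have hgc : Matrix.of g * c = 1 := by
    ext i j
    have h1 := congrFun (hg i) j
    rw [hf] at h1
    rw [Matrix.one_apply, Matrix.mul_apply]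
    rw [Pi.single_apply] at h1
    rw [← show (if j = i then (1 : D) else 0) = (if i = j then (1 : D) else 0) by
      simp only [eq_comm], ← h1]
    rfl
  have hcg : c * Matrix.of g = 1 := by
    have h1 : (c * Matrix.of g - 1) * c = 0 := by
      rw [sub_mul, mul_assoc, hgc, mul_one, one_mul, sub_self]
    have h2 : ∀ i, (c * Matrix.of g - 1) i = 0 := by
      intro i
      apply hinj
      rw [map_zero, hf]
      have := congrFun h1 i
      exact this
    exact sub_eq_zero.mp (by ext i j; rw [h2 i]; rfl)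
  exact ⟨⟨c, Matrix.of g, hcg, hgc⟩, rfl⟩

end Vale.Agent.P011.H279.Art
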