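import Vale.Agent.P011.H279.NoRoot
import Vale.Agent.P011.H477.C2.TR

/-!
The index is not lowered by small Artin-Schreier extensions.
-/

set_option linter.unusedSectionVars false

open Module

namespace Vale.Agent.P011.H279.Art

open Vale.Agent.P011.H738 Vale.Agent.P011.H271 Vale.Agent.P011.W Vale.Agent.P011.H279.Sq
open Vale.Agent.P011.H961 (SetG)

/-- Small elements are of the form `z * z + z`. -/
theorem exists_wp_of_small {k : Type} [Field k] [GFF k] (h2 : (2 : k) = 0) {v : Place k} {a : k}
    (ha : v.abv a < 1) : ∃ z : v.comp, z * z + z = algebraMap k v.comp a := by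
  obtain ⟨z, hz⟩ := H477.C2.exists_root_place (P := v) ha
  have h2v : (2 : v.comp) = 0 := by
    rw [← map_ofNat (algebraMap k v.comp) 2, h2, map_zero]
  exact ⟨z, by linear_combination hz + (z - algebraMap k v.comp a) * h2v⟩

variable {k K D : Type} [Field k] [Field K] [StarRing K] [DivisionRing D] [StarRing D]
  [Algebra k K] [Algebra k D] [Algebra K D] [IsScalarTower k K D] {n : ℕ}

/-- **The index is not lowered** by an element which is small at finitely many places. -/
theorem no_root_of_near [GFF k] (hS : SetG k K D) (h2 : (2 : k) = 0)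
    (hdeg : finrank K D = n ^ 2) : ∃ (S : Finset (Place k)) (ε : ℝ), 0 < ε ∧
      ∀ a : k, (∀ v ∈ S, v.abv a < ε) → (∀ z : K, z * z + z ≠ algebraMap k K a) →
        ∀ z : D, z * z + z ≠ algebraMap k D a := by
  have hn : n ≠ 0 := by
    have := hS.fin
    exact (deg_pos hdeg).ne'
  have hbf := bad_finiteG hS hn hdeg
  refine ⟨hbf.toFinset, 1, one_pos, fun a ha haK => ?_⟩
  exact no_root hS h2 hdeg haK fun v hv => exists_wp_of_small h2 (ha v (hbf.mem_toFinset.mpr hv))

end Vale.Agent.P011.H279.Art
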