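import Vale.Agent.P011.H63.FBase
import Vale.Agent.P011.H929.E.Base

/-!
Local and global norm classes over a global function field.
-/

open Module

set_option linter.unusedSectionVars false

namespace Vale.Agent.P011.H279.RB

open Vale.Agent.P011.H738 Vale.Agent.P011.H271 Vale.Agent.P011.H63.FB
open Vale.Agent.P011.Arith (NF)
open Vale.Agent.P011.H271.S3 (Ab below_unique)

section field

variable {F : Type} [Field F]

theorem sq_mem_NF (a y : Fˣ) : y ^ 2 ∈ NF a := ⟨(y : F), 0, by simp⟩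

theorem neg_mem_NF (a : Fˣ) : -a ∈ NF a := ⟨0, 1, by simp⟩

end field

section local_theory

variable {F : Type} [Field F] [GFF F]

theorem sup_eq_top (h2 : (2 : F) ≠ 0) {a : Fˣ} {v : Place F} (ha : a ∈ LSF v) :
    NF a ⊔ LSF v = ⊤ := by
  rw [eq_top_iff]
  intro b _
  rw [← mem_LN_iff v h2, H929.E.LN_of_isSquare (two_ne_comp v h2) (a := iuF v a) ha]
  exact Subgroup.mem_top _

theorem mem_symm (h2 : (2 : F) ≠ 0) {v : Place F} {a b : Fˣ} (h : b ∈ NF a ⊔ LSF v) :
    a ∈ NF b ⊔ LSF v := by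
  rw [← mem_LN_iff v h2] at h ⊢
  exact (H929.E.LN_symm_iff (two_ne_comp v h2)).mp h

theorem index_two (h2 : (2 : F) ≠ 0) {v : Place F} {a : Fˣ} (ha : a ∉ LSF v) :
    (NF a ⊔ LSF v).index = 2 := by
  rw [← index_LN v h2]
  exact (H929.E.indexTwo h2 v).two (iuF v a) ha

theorem notMem_badF {a b : Fˣ} {p : Place F} : p ∉ badF a b ↔ b ∈ NF a ⊔ LSF p := not_not

theorem notMem_LSF_of_bad (h2 : (2 : F) ≠ 0) {a b : Fˣ} {p : Place F} (h : p ∈ badF a b) :
    a ∉ LSF p := by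
  intro h3
  apply h
  rw [sup_eq_top h2 h3]
  exact Subgroup.mem_top _

/-- The Hasse norm theorem for quadratic extensions. -/
theorem hasse_normF (h2 : (2 : F) ≠ 0) (a b : Fˣ) (h : ∀ v : Place F, b ∈ NF a ⊔ LSF v) :
    b ∈ NF a := by
  by_cases ha : IsSquare (a : F)
  · obtain ⟨r, hr⟩ := ha
    have hr0 : r ≠ 0 := by
      rintro rfl
      exact a.ne_zero (by rw [hr, mul_zero])
    refine ⟨((b : F) + 1) / 2, ((b : F) - 1) / (2 * r), ?_⟩
    rw [hr]
    field_simp
    ring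
  · obtain ⟨p, q, hpq⟩ := Vale.Agent.P011.H929.FF.hasse_quad (b := (b : F)) h2 a.ne_zero ha
      fun P => by
        obtain ⟨n, ⟨x, y, hn⟩, l, hl, hnl⟩ := Subgroup.mem_sup.mp (h P)
        obtain ⟨t, ht⟩ := (mem_LSF_iff h2).mp hl
        have hn0 := n.ne_zero
        have ht0 := t.ne_zero
        have hl0 := l.ne_zero
        refine Or.inr ⟨(l : F) / t ^ 2, x / (n * t), y / (n * t), ?_, ?_, Or.inr ht⟩
        · exact div_ne_zero hl0 (pow_ne_zero 2 ht0)
        · have hb : (b : F) = n * l := by rw [← hnl, Units.val_mul]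
          have e : (x / (n * t)) ^ 2 - (a : F) * (y / (n * t)) ^ 2 = 1 / (n * t ^ 2) := by
            have : (x / (n * t)) ^ 2 - (a : F) * (y / (n * t)) ^ 2 =
                (x ^ 2 - a * y ^ 2) / (n * t) ^ 2 := by
              field_simp
            rw [this, ← hn]
            field_simp
          rw [e, hb]
          field_simp
    exact ⟨p, q, hpq⟩

section ext

variable {E : Type} [Field E] [GFF E] [Algebra F E]

theorem NF_map {a b : Fˣ} (h : b ∈ NF a) : incF F E b ∈ NF (incF F E a) := by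
  obtain ⟨x, y, hxy⟩ := h
  refine ⟨algebraMap F E x, algebraMap F E y, ?_⟩
  change algebraMap F E b = _
  rw [hxy]
  simp [incF]

theorem two_ne_ext (h2 : (2 : F) ≠ 0) : (2 : E) ≠ 0 := by
  rw [← map_ofNat (algebraMap F E) 2]
  exact (_root_.map_ne_zero _).mpr h2

theorem LSF_map (h2 : (2 : F) ≠ 0) {w : Place E} {v : Place F} (h : Ab w v) {l : Fˣ}
    (hl : l ∈ LSF v) : incF F E l ∈ LSF w := by
  obtain ⟨t, ht⟩ := (mem_LSF_iff h2).mp hl
  refine (mem_LSF_iff (two_ne_ext (F := F) h2)).mpr ⟨incF F E t, ?_⟩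
  have e : ((incF F E l : Eˣ) : E) / ((incF F E t : Eˣ) : E) ^ 2 - 1 =
      algebraMap F E ((l : F) / (t : F) ^ 2 - 1) := by
    simp [incF]
  rw [e]
  exact h.lt_one ht

theorem sup_mapF (h2 : (2 : F) ≠ 0) {w : Place E} {v : Place F} (h : Ab w v) {a b : Fˣ}
    (hb : b ∈ NF a ⊔ LSF v) : incF F E b ∈ NF (incF F E a) ⊔ LSF w := by
  obtain ⟨n, hn, l, hl, rfl⟩ := Subgroup.mem_sup.mp hb
  rw [map_mul]
  exact Subgroup.mul_mem_sup (NF_map hn) (LSF_map h2 h hl)

end ext

end local_theory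

end Vale.Agent.P011.H279.RB
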