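import Vale.Agent.P011.H973.GoodF
import Vale.Agent.P011.H279.R2Base
import Vale.Agent.P011.Arith.Index

/-!
The possible sets of places at which an element is not a norm from a quadratic extension of a
global function field.
-/

set_option linter.unusedSectionVars false

namespace Vale.Agent.P011.H279.RB

open Vale.Agent.P011.H738 Vale.Agent.P011.H271 Vale.Agent.P011.H63.FB
open Vale.Agent.P011.Arith (NF two_pow_le_relIndex)
open Vale.Agent.P011.H973.PF

variable {F : Type} [Field F] [GFF F]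

theorem mem_badF {a b : Fˣ} {p : Place F} : p ∈ badF a b ↔ b ∉ NF a ⊔ LSF p := Iff.rfl

theorem badF_of_mem_NF {a b : Fˣ} (h : b ∈ NF a) : badF a b = ∅ := by
  ext p
  simp only [Set.mem_empty_iff_false, iff_false, notMem_badF]
  exact Subgroup.mem_sup_left h

theorem badF_one (a : Fˣ) : badF a 1 = ∅ := badF_of_mem_NF (Subgroup.one_mem _)

theorem mem_NF_of_badF (h2 : (2 : F) ≠ 0) {a b : Fˣ} (h : badF a b = ∅) : b ∈ NF a := by
  refine hasse_normF h2 a b fun p => ?_
  rw [← notMem_badF, h]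
  exact Set.notMem_empty p

theorem badF_mul (h2 : (2 : F) ≠ 0) (a b c : Fˣ) :
    badF a (b * c) = symmDiff (badF a b) (badF a c) := by
  ext p
  rw [Set.mem_symmDiff]
  by_cases ha : a ∈ LSF p
  · have h := sup_eq_top h2 ha
    simp [badF, h]
  · have h := index_two h2 ha
    rw [mem_badF, mem_badF, mem_badF, Subgroup.mul_mem_iff_of_index_two h]
    tauto

theorem badF_inv (a b : Fˣ) : badF a b⁻¹ = badF a b := by
  ext p
  rw [mem_badF, mem_badF, inv_mem_iff]

theorem unit_normF (h2 : (2 : F) ≠ 0) {v : Place F} {a b : Fˣ} (ha : v.abv (a : F) = 1)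
    (hb : v.abv (b : F) = 1) : b ∈ NF a ⊔ LSF v := by
  rw [← mem_LN_iff v h2]
  have ha' : ‖((iuF v a : v.compˣ) : v.comp)‖ = 1 := by rw [iuF_val, norm_alg, ha]
  have hb' : ‖((iuF v b : v.compˣ) : v.comp)‖ = 1 := by rw [iuF_val, norm_alg, hb]
  exact H929.E.unit_rep (H929.E.oddLoc h2 v) ha' hb'

theorem finite_ne_oneF (a : Fˣ) : {v : Place F | v.abv (a : F) ≠ 1}.Finite :=
  place_finite a.ne_zero

theorem badF_finite (h2 : (2 : F) ≠ 0) (a b : Fˣ) : (badF a b).Finite := by
  refine ((finite_ne_oneF a).union (finite_ne_oneF b)).subset fun p hp => ?_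
  by_contra hcon
  simp only [Set.mem_union, Set.mem_ofPred_eq, not_or, not_not] at hcon
  exact hp (unit_normF h2 hcon.1 hcon.2)

/-- Outside a good set the non-split places see even orders only. -/
theorem even_orderF (h2 : (2 : F) ≠ 0) {v : Place F} {x b : Fˣ} (hx : v.abv (x : F) = 1)
    (hxv : x ∉ LSF v) (hb : b ∈ NF x ⊔ LSF v) : Even (ml v (b : F)) := by
  rw [← mem_LN_iff v h2] at hb
  have hx' : ‖((iuF v x : v.compˣ) : v.comp)‖ = 1 := by rw [iuF_val, norm_alg, hx]
  obtain ⟨z, hz⟩ := (H929.E.unit_LN (H929.E.oddLoc h2 v) hx' hxv _).mp hb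
  rw [iuF_val, norm_alg] at hz
  have hz0 : z ≠ 0 := by
    rintro rfl
    rw [norm_zero, zero_pow two_ne_zero] at hz
    exact (v.abv.pos b.ne_zero).ne' hz
  obtain ⟨c, hc⟩ := exists_close v hz0
  have hc' := norm_eq_of_close hc
  rw [norm_alg] at hc'
  rw [← hc', ml_spec v b.ne_zero, ml_spec v c.ne_zero] at hz
  refine ⟨ml v (c : F), ?_⟩
  have h3 : ((qq v : ℝ)) ^ ml v (b : F) = (qq v : ℝ) ^ (ml v (c : F) + ml v (c : F)) := by
    rw [hz, zpow_add₀ (qq_pos v).ne', sq]
  exact zpow_right_injective₀ (qq_pos v) (one_lt_qq' v).ne' h3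

/-- An element that is a local norm outside a good set is an `S`-unit up to norms. -/
theorem exists_unit_mulF (h2 : (2 : F) ≠ 0) {x : Fˣ} {S : Set (Place F)} (hS : GoodF x S) {b : Fˣ}
    (hb : badF x b ⊆ S) : ∃ β ∈ NF x, b * β ∈ SUF S := by
  classical
  have hβ : ∀ v : Place F, ∃ β : Fˣ, v ∉ S →
      β ^ (ml v (b : F)) ∈ NF x ∧ v.abv (β : F) = (qq v : ℝ)⁻¹ ∧
      ∀ v' ∉ S, v' ≠ v → v'.abv (β : F) = 1 := by
    intro v
    by_cases hv : v ∈ S
    · exact ⟨1, fun h => absurd hv h⟩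
    by_cases hxv : x ∈ LSF v
    · obtain ⟨β, h1, h2, h3⟩ := hS.split v hv hxv
      exact ⟨β, fun _ => ⟨Subgroup.zpow_mem _ h1 _, h2, h3⟩⟩
    · obtain ⟨π, h1, h3⟩ := hS.pr v hv
      refine ⟨π, fun _ => ⟨?_, h1, h3⟩⟩
      have h3 : b ∈ NF x ⊔ LSF v := by
        by_contra h
        exact hv (hb h)
      obtain ⟨k, hk⟩ := even_orderF h2 (hS.unit v hv) hxv h3
      have h4 : π ^ 2 ∈ NF x := sq_mem_NF x π
      have h5 : π ^ (k + k) = (π ^ 2) ^ k := by
        rw [← zpow_natCast π 2, ← zpow_mul]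
        congr 1
        push_cast
        ring
      rw [hk, h5]
      exact Subgroup.zpow_mem _ h4 _
  choose β hβ using hβ
  let T : Finset (Place F) := (finite_ne_oneF b).toFinset.filter (· ∉ S)
  let B : Fˣ := ∏ v ∈ T, β v ^ (ml v (b : F))
  have hTS : ∀ v ∈ T, v ∉ S := fun v hv => (Finset.mem_filter.mp hv).2
  refine ⟨B, Subgroup.prod_mem _ fun v hv => (hβ v (hTS v hv)).1, ?_⟩
  intro v hv
  have e1 : (B : F) = ∏ v ∈ T, (β v : F) ^ (ml v (b : F)) := by simp [B]
  have hv0 : v.abv (b : F) ≠ 0 := (v.abv.pos b.ne_zero).ne'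
  rw [Units.val_mul, map_mul, e1, map_prod]
  by_cases hvT : v ∈ T
  · rw [Finset.prod_eq_single_of_mem v hvT]
    · rw [map_zpow₀, (hβ v hv).2.1, ml_spec v b.ne_zero, inv_zpow, mul_inv_cancel₀]
      exact zpow_ne_zero _ (qq_pos v).ne'
    · intro v' hv' hne
      rw [map_zpow₀, (hβ v' (hTS v' hv')).2.2 v hv hne.symm, one_zpow]
  · have h1 : v.abv (b : F) = 1 := by
      by_contra h1
      exact hvT (Finset.mem_filter.mpr ⟨(finite_ne_oneF b).mem_toFinset.mpr h1, hv⟩)
    rw [h1, one_mul, Finset.prod_eq_one]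
    intro v' hv'
    have hne : v ≠ v' := fun h => hvT (h ▸ hv')
    rw [map_zpow₀, (hβ v' (hTS v' hv')).2.2 v hv hne, one_zpow]

/-- The place `p` is isolated for `a` if some element fails to be a norm at `p` only. -/
def IsolF (a : Fˣ) (p : Place F) : Prop := ∃ b : Fˣ, badF a b = {p}

/-- If every nonsplit place of a finite set is isolated, each subset is a set of bad places. -/
theorem exists_badF_of_isol (h2 : (2 : F) ≠ 0) {a : Fˣ} {B : Set (Place F)} (hB : B.Finite)
    (h : ∀ p ∈ B, IsolF a p) : ∃ b : Fˣ, badF a b = B := by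
  induction B, hB using Set.Finite.induction_on with
  | empty => exact ⟨1, badF_one a⟩
  | @insert p B hp hB ih =>
    obtain ⟨b, hb⟩ := ih fun q hq => h q (Set.mem_insert_of_mem _ hq)
    obtain ⟨c, hc⟩ := h p (Set.mem_insert _ _)
    refine ⟨c * b, ?_⟩
    rw [badF_mul h2, hc, hb]
    ext q
    simp only [Set.mem_symmDiff, Set.mem_singleton_iff, Set.mem_insert_iff]
    constructor
    · rintro (⟨h1, _⟩ | ⟨h1, _⟩)
      · exact Or.inl h1
      · exact Or.inr h1
    · rintro (rfl | h1)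
      · exact Or.inl ⟨rfl, hp⟩
      · exact Or.inr ⟨h1, fun h2 => hp (h2 ▸ h1)⟩

/-- If the norm form of `x` represents every sign pattern by `S`-units modulo local norms, then
`S` is not good for `x`. -/
theorem not_good_of_patternsF (x : Fˣ) {S : Set (Place F)}
    (hS : GoodF x S)
    (h : ∀ e : Place F → Bool, ∃ u ∈ SUF S, ∀ p ∈ S, x ∉ LSF p →
      (u ∈ NF x ⊔ LSF p ↔ e p = true)) : False := by
  classical
  have hfin : {p | p ∈ S ∧ x ∉ LSF p}.Finite := hS.fin.subset fun p hp => hp.1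
  have : Fintype {p | p ∈ S ∧ x ∉ LSF p} := hfin.fintype
  have hidx := hS.idx
  have hne : (NF x).relIndex (SUF S) ≠ 0 := by
    intro h0
    rw [h0, zero_mul] at hidx
    exact (pow_pos (by norm_num : 0 < 2) _).ne hidx
  have h1 := two_pow_le_relIndex (ι := {p | p ∈ S ∧ x ∉ LSF p}) (NF x) (SUF S)
    (fun p => NF x ⊔ LSF p.1) (fun p => le_sup_left) ?_ hne
  · rw [ncF, Set.ncard_eq_toFinset_card', Set.toFinset_card] at hidx
    have h2 : 0 < 2 ^ Fintype.card {p | p ∈ S ∧ x ∉ LSF p} := by positivity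
    omega
  · intro e
    obtain ⟨u, hu, hu'⟩ := h (fun p => if hp : p ∈ {p | p ∈ S ∧ x ∉ LSF p} then e ⟨p, hp⟩
      else true)
    refine ⟨u, hu, ?_⟩
    rintro ⟨p, hp⟩
    have := hu' p hp.1 hp.2
    rwa [dif_pos hp] at this

/-- Some nonsplit place is not isolated. -/
theorem exists_not_isolF (h2 : (2 : F) ≠ 0) {a : Fˣ} (ha : ¬ IsSquare (a : F)) :
    ∃ p : Place F, a ∉ LSF p ∧ ¬ IsolF a p := by
  by_contra hcon
  push Not at hcon
  obtain ⟨S, hS, hgood⟩ := exists_goodF h2 a ha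
  have hG := hgood S le_rfl hS
  refine not_good_of_patternsF a hG ?_
  intro e
  have hfin : {p | p ∈ S ∧ a ∉ LSF p ∧ e p = false}.Finite :=
    hS.subset fun p hp => hp.1
  obtain ⟨b, hb⟩ := exists_badF_of_isol h2 (a := a) hfin fun p hp => hcon p hp.2.1
  obtain ⟨β, hβ, hu⟩ := exists_unit_mulF h2 hG (b := b) (by rw [hb]; exact fun p hp => hp.1)
  refine ⟨b * β, hu, ?_⟩
  intro p hp hap
  have h1 : p ∉ badF a (b * β) ↔ e p = true := by
    rw [badF_mul h2, hb, badF_of_mem_NF hβ]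
    simp [Set.mem_symmDiff, hp, hap]
  rwa [notMem_badF] at h1

/-- Weak approximation, modulo local squares. -/
theorem weak_approxF (h2 : (2 : F) ≠ 0) {S : Set (Place F)} (hS : S.Finite) (g : Place F → Fˣ) :
    ∃ f : Fˣ, ∀ p ∈ S, f / g p ∈ LSF p := by
  classical
  rcases S.eq_empty_or_nonempty with rfl | ⟨p₀, hp₀⟩
  · exact ⟨1, fun p hp => absurd hp (Set.notMem_empty p)⟩
  have hne : hS.toFinset.Nonempty := ⟨p₀, hS.mem_toFinset.mpr hp₀⟩
  obtain ⟨f, hf⟩ := weakP hS.toFinset (fun v => (g v : F))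
    (ε := hS.toFinset.inf' hne fun v => v.abv (g v : F)) (by
      rw [Finset.lt_inf'_iff]
      exact fun v _ => v.abv.pos (g v).ne_zero)
  have hf' : ∀ v ∈ S, v.abv (f - g v) < v.abv (g v : F) := fun v hv =>
    (hf v (hS.mem_toFinset.mpr hv)).trans_le (Finset.inf'_le _ (hS.mem_toFinset.mpr hv))
  have hf0 : f ≠ 0 := by
    rintro rfl
    have := hf' p₀ hp₀
    rw [zero_sub, AbsoluteValue.map_neg] at this
    exact lt_irrefl _ this
  refine ⟨Units.mk0 f hf0, fun p hp => ?_⟩
  apply LSF_of_near_one p h2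
  have hg0 := (g p).ne_zero
  have e : ((Units.mk0 f hf0 / g p : Fˣ) : F) - 1 = (f - g p) / g p := by
    rw [Units.val_div_eq_div_val, Units.val_mk0]
    field_simp
  rw [e, map_div₀, div_lt_one (p.abv.pos hg0)]
  exact hf' p hp

/-- Of two nonsplit places, one is isolated or both together are a set of bad places. -/
theorem exists_bad_pairF (h2 : (2 : F) ≠ 0) {a : Fˣ} (ha : ¬ IsSquare (a : F)) {p q : Place F}
    (hpq : p ≠ q) (hp : a ∉ LSF p) (hq : a ∉ LSF q) (hp' : ¬ IsolF a p) (hq' : ¬ IsolF a q) :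
    ∃ b : Fˣ, badF a b = {p, q} := by
  classical
  obtain ⟨S₁, hS₁, hgood⟩ := exists_goodF h2 a ha
  have hG := hgood ({p, q} ∪ S₁) Set.subset_union_right ((Set.toFinite _).union hS₁)
  set S : Set (Place F) := {p, q} ∪ S₁ with hSdef
  have hpS : p ∈ S := Or.inl (Or.inl rfl)
  have hqS : q ∈ S := Or.inl (Or.inr rfl)
  -- the subgroup of local norms at the places of `S`
  have hfin : {p | p ∈ S ∧ a ∉ LSF p}.Finite := hG.fin.subset fun p hp => hp.1
  have : Fintype {p | p ∈ S ∧ a ∉ LSF p} := hfin.fintype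
  let N : Subgroup Fˣ := ⨅ r : {p | p ∈ S ∧ a ∉ LSF p}, NF a ⊔ LSF r.1
  have hmemN : ∀ b, b ∈ N ↔ ∀ r ∈ S, a ∉ LSF r → b ∈ NF a ⊔ LSF r := by
    intro b
    simp only [N, Subgroup.mem_iInf]
    exact ⟨fun h r h1 h2 => h ⟨r, h1, h2⟩, fun h r => h r.1 r.2.1 r.2.2⟩
  have hNle : N.index ≤ 2 ^ ncF a S := by
    have h1 : N.index ≤ ∏ r : {p | p ∈ S ∧ a ∉ LSF p}, (NF a ⊔ LSF r.1).index :=
      Subgroup.index_iInf_le _
    rw [Finset.prod_congr rfl (fun r _ => index_two h2 r.2.2), Finset.prod_const,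
      Finset.card_univ] at h1
    rw [ncF, Set.ncard_eq_toFinset_card', Set.toFinset_card]
    exact h1
  have hN0 : N.index ≠ 0 := by
    apply Subgroup.index_iInf_ne_zero
    intro r
    rw [index_two h2 r.2.2]
    norm_num
  have hNU : N ⊓ SUF S = NF a ⊓ SUF S := by
    ext b
    simp only [Subgroup.mem_inf]
    constructor
    · rintro ⟨h1, h3⟩
      refine ⟨mem_NF_of_badF h2 ?_, h3⟩
      ext r
      simp only [Set.mem_empty_iff_false, iff_false]
      intro hr
      by_cases hrS : r ∈ S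
      · exact hr ((hmemN b).mp h1 r hrS (notMem_LSF_of_bad h2 hr))
      · exact hr (unit_normF h2 (hG.unit r hrS) (h3 r hrS))
    · rintro ⟨h1, h3⟩
      exact ⟨(hmemN b).mpr fun r _ _ => Subgroup.mem_sup_left h1, h3⟩
  have hrel : N.relIndex (SUF S) * 2 = 2 ^ ncF a S := by
    rw [← Subgroup.inf_relIndex_right, hNU, Subgroup.inf_relIndex_right]
    exact hG.idx
  have hidx : (N ⊔ SUF S).index ≤ 2 := by
    have h1 : N.relIndex (N ⊔ SUF S) * (N ⊔ SUF S).index = N.index :=
      Subgroup.relIndex_mul_index le_sup_left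
    have h2 : N.relIndex (N ⊔ SUF S) = N.relIndex (SUF S) := by
      rw [sup_comm]
      exact Subgroup.relIndex_sup_right (SUF S) N
    rw [h2] at h1
    have h3 : 0 < N.relIndex (SUF S) := by
      rcases Nat.eq_zero_or_pos (N.relIndex (SUF S)) with h | h
      · rw [h, zero_mul] at h1
        exact absurd h1.symm hN0
      · exact h
    rw [← hrel, ← h1, mul_comm _ 2, mul_comm _ (N ⊔ SUF S).index] at hNle
    exact Nat.le_of_mul_le_mul_right hNle h3
  have hidx0 : (N ⊔ SUF S).index ≠ 0 := fun h =>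
    hN0 (Nat.eq_zero_of_zero_dvd (h ▸ Subgroup.index_dvd_of_le le_sup_left))
  -- elements with prescribed bad places in `S`
  have hpat : ∀ B : Set (Place F), ∃ g : Fˣ, ∀ r ∈ S, a ∉ LSF r → (g ∉ NF a ⊔ LSF r ↔ r ∈ B) := by
    intro B
    have h1 : ∀ r : Place F, ∃ g : Fˣ, a ∉ LSF r → (g ∉ NF a ⊔ LSF r ↔ r ∈ B) := by
      intro r
      by_cases hr : a ∈ LSF r
      · exact ⟨1, fun h => absurd hr h⟩
      · by_cases hB : r ∈ B
        · have h3 : NF a ⊔ LSF r ≠ ⊤ := by
            intro h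
            have h4 := index_two h2 hr
            rw [h, Subgroup.index_top] at h4
            norm_num at h4
          obtain ⟨g, hg⟩ : ∃ g, g ∉ NF a ⊔ LSF r := by
            by_contra hc
            push Not at hc
            exact h3 (eq_top_iff.mpr fun g _ => hc g)
          exact ⟨g, fun _ => by simp [hg, hB]⟩
        · exact ⟨1, fun _ => by simp [hB]⟩
    choose g hg using h1
    obtain ⟨f, hf⟩ := weak_approxF h2 hG.fin g
    refine ⟨f, fun r hr har => ?_⟩
    rw [← hg r har]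
    have h3 : f / g r ∈ NF a ⊔ LSF r := Subgroup.mem_sup_right (hf r hr)
    rw [not_iff_not]
    constructor
    · intro h4
      have h5 := Subgroup.div_mem _ h4 h3
      rwa [div_div_cancel] at h5
    · intro h4
      have h5 := Subgroup.mul_mem _ h3 h4
      rwa [div_mul_cancel] at h5
  have hreal : ∀ (B : Set (Place F)) (g : Fˣ), (∀ r ∈ B, r ∈ S ∧ a ∉ LSF r) →
      (∀ r ∈ S, a ∉ LSF r → (g ∉ NF a ⊔ LSF r ↔ r ∈ B)) →
      g ∈ N ⊔ SUF S → ∃ b, badF a b = B := by
    intro B g hB hg hgN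
    obtain ⟨m, hm, u, hu, rfl⟩ := Subgroup.mem_sup.mp hgN
    refine ⟨u, ?_⟩
    ext r
    constructor
    · intro hr
      by_cases hrS : r ∈ S
      · rw [← hg r hrS (notMem_LSF_of_bad h2 hr)]
        intro h1
        rw [Subgroup.mul_mem_cancel_left _ ((hmemN m).mp hm r hrS (notMem_LSF_of_bad h2 hr))] at h1
        exact hr h1
      · exfalso
        exact hr (unit_normF h2 (hG.unit r hrS) (hu r hrS))
    · intro hr
      obtain ⟨h1, h2⟩ := hB r hr
      have h3 := (hg r h1 h2).mpr hr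
      intro h4
      exact h3 (Subgroup.mul_mem _ ((hmemN m).mp hm r h1 h2) h4)
  obtain ⟨gp, hgp⟩ := hpat {p}
  obtain ⟨gq, hgq⟩ := hpat {q}
  have hcp : gp ∉ N ⊔ SUF S := fun h => hp' (hreal {p} gp (by
    rintro r rfl
    exact ⟨hpS, hp⟩) hgp h)
  have hcq : gq ∉ N ⊔ SUF S := fun h => hq' (hreal {q} gq (by
    rintro r rfl
    exact ⟨hqS, hq⟩) hgq h)
  have hidx2 : (N ⊔ SUF S).index = 2 := by
    have h1 : (N ⊔ SUF S).index ≠ 1 := fun h => by
      rw [Subgroup.index_eq_one] at h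
      exact hcp (h ▸ Subgroup.mem_top _)
    omega
  have hpq' : gp * gq ∈ N ⊔ SUF S := by
    rw [Subgroup.mul_mem_iff_of_index_two hidx2]
    exact ⟨fun h => absurd h hcp, fun h => absurd h hcq⟩
  refine hreal {p, q} (gp * gq) ?_ ?_ hpq'
  · rintro r (rfl | rfl)
    · exact ⟨hpS, hp⟩
    · exact ⟨hqS, hq⟩
  · intro r hr har
    have h1 := hgp r hr har
    have h3 := hgq r hr har
    rw [Subgroup.mul_mem_iff_of_index_two (index_two h2 har)]
    simp only [Set.mem_singleton_iff] at h1 h3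
    simp only [Set.mem_insert_iff, Set.mem_singleton_iff]
    rw [← h1, ← h3]
    by_cases h5 : gp ∈ NF a ⊔ LSF r <;> by_cases h4 : gq ∈ NF a ⊔ LSF r
    · simp [h5, h4]
    · simp [h5, h4]
    · simp [h5, h4]
    · exfalso
      exact hpq (((h1.mp h5).symm.trans (h3.mp h4)))

/-- The sets of bad places: exactly those nonsplit finite sets with an even number of elements
that are not isolated. -/
theorem exists_bad_iffF (h2 : (2 : F) ≠ 0) {a : Fˣ} (ha : ¬ IsSquare (a : F))
    {B : Set (Place F)} (hB : B.Finite) (hBa : ∀ p ∈ B, a ∉ LSF p) :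
    (∃ b : Fˣ, badF a b = B) ↔ Even {p | p ∈ B ∧ ¬ IsolF a p}.ncard := by
  classical
  -- reduce to subsets without isolated places
  have key : ∀ n : ℕ, ∀ B : Set (Place F), B.Finite → (∀ p ∈ B, a ∉ LSF p ∧ ¬ IsolF a p) →
      B.ncard = n → ((∃ b : Fˣ, badF a b = B) ↔ Even n) := by
    intro n
    induction n using Nat.strong_induction_on with
    | _ n ih =>
      intro B hB hBn hn
      rcases Nat.lt_or_ge n 2 with h3 | h3
      · interval_cases n
        · rw [Set.ncard_eq_zero hB] at hn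
          subst hn
          exact iff_of_true ⟨1, badF_one a⟩ (by norm_num)
        · rw [Set.ncard_eq_one] at hn
          obtain ⟨p, rfl⟩ := hn
          exact iff_of_false (hBn p rfl).2 (by norm_num)
      · obtain ⟨p, hp, q, hq, hpq⟩ := (Set.one_lt_ncard hB).mp (by omega)
        obtain ⟨c, hc⟩ := exists_bad_pairF h2 ha hpq (hBn p hp).1 (hBn q hq).1 (hBn p hp).2
          (hBn q hq).2
        have hsub : ({p, q} : Set (Place F)) ⊆ B := by
          rintro r (rfl | rfl)
          · exact hp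
          · exact hq
        have hcard : (B \ {p, q}).ncard = n - 2 := by
          rw [Set.ncard_sdiff hsub (Set.toFinite _), hn, Set.ncard_pair hpq]
        have h4 := ih (n - 2) (by omega) (B \ {p, q}) hB.sdiff
          (fun r hr => hBn r hr.1) hcard
        have hev : Even n ↔ Even (n - 2) := by
          rw [Nat.even_sub h3]
          simp
        rw [hev, ← h4]
        constructor
        · rintro ⟨b, hb⟩
          refine ⟨b * c, ?_⟩
          rw [badF_mul h2, hb, hc]
          ext r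
          simp only [Set.mem_symmDiff, Set.mem_sdiff]
          constructor
          · rintro (h | ⟨h4, h5⟩)
            · exact h
            · exact absurd (hsub h4) h5
          · exact fun h => Or.inl h
        · rintro ⟨b, hb⟩
          refine ⟨b * c, ?_⟩
          rw [badF_mul h2, hb, hc]
          ext r
          simp only [Set.mem_symmDiff, Set.mem_sdiff]
          constructor
          · rintro (⟨⟨h4, _⟩, _⟩ | ⟨h4, _⟩)
            · exact h4
            · exact hsub h4
          · intro h4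
            by_cases h5 : r ∈ ({p, q} : Set (Place F))
            · exact Or.inr ⟨h5, fun h => h.2 h5⟩
            · exact Or.inl ⟨⟨h4, h5⟩, h5⟩
  have hfin1 : {p | p ∈ B ∧ ¬ IsolF a p}.Finite := hB.subset fun p hp => hp.1
  have hfin2 : {p | p ∈ B ∧ IsolF a p}.Finite := hB.subset fun p hp => hp.1
  rw [← key _ _ hfin1 (fun p hp => ⟨hBa p hp.1, hp.2⟩) rfl]
  obtain ⟨c, hc⟩ := exists_badF_of_isol h2 (a := a) hfin2 fun p hp => hp.2
  constructor
  · rintro ⟨b, hb⟩
    refine ⟨b * c, ?_⟩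
    rw [badF_mul h2, hb, hc]
    ext r
    simp only [Set.mem_symmDiff, Set.mem_ofPred_eq]
    tauto
  · rintro ⟨b, hb⟩
    refine ⟨b * c, ?_⟩
    rw [badF_mul h2, hb, hc]
    ext r
    simp only [Set.mem_symmDiff, Set.mem_ofPred_eq]
    tauto

end Vale.Agent.P011.H279.RB
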