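import Vale.Agent.P011.H279.CtrlF
import Vale.Agent.P011.H73.Sp3

/-!
Elements with prescribed norm classes over a global function field.
-/

open Module

set_option linter.unusedSectionVars false

namespace Vale.Agent.P011.H279.RB

open Vale.Agent.P011.H738 Vale.Agent.P011.H271 Vale.Agent.P011.H63.FB
open Vale.Agent.P011.Arith (NF)
open Vale.Agent.P011.H271.S3 (Ab below_unique)
open Vale.Agent.P011.H73.Sp (exists_above above_finite nrm_localF parity_splitF notMem_LSF_above)

variable {F : Type} [Field F] [GFF F]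

variable {E : Type} [Field E] [GFF E] [Algebra F E] [FiniteDimensional F E]
  [Algebra.IsSeparable F E]

/-- The places at which the norm of any element is controlled by the number of bad places
above. -/
def ParF (E : Type) [Field E] [Algebra F E] (d : Fˣ) (p : Place F) : Prop :=
  ∀ c : Eˣ, (p ∉ badF d (nrmF F E c) ↔ Even {q : Place E | Ab q p ∧ q ∈ badF (incF F E d) c}.ncard)

theorem parF (h2 : (2 : F) ≠ 0) {v : Place F} (hv : TotSplitF E v) (d : Fˣ) : ParF E d v := by
  intro c
  rw [notMem_badF]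
  exact parity_splitF h2 hv d c

theorem nrm_good (h2 : (2 : F) ≠ 0) {d : Fˣ} {c : Eˣ} {p : Place F}
    (h : ∀ q : Place E, Ab q p → q ∉ badF (incF F E d) c) : p ∉ badF d (nrmF F E c) := by
  rw [notMem_badF]
  exact nrm_localF h2 p d c fun w hw => notMem_badF.mp (h w hw)

/-- The bad places of a norm. -/
theorem bad_nrm (h2 : (2 : F) ≠ 0) {d : Fˣ} {T : Set (Place F)} (hT : ∀ p ∈ T, ParF E d p) {c : Eˣ}
    (hc : ∀ q ∈ badF (incF F E d) c, ∃ p ∈ T, Ab q p) :
    badF d (nrmF F E c) =
      {p | p ∈ T ∧ Odd {q : Place E | Ab q p ∧ q ∈ badF (incF F E d) c}.ncard} := by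
  ext p
  by_cases hp : p ∈ T
  · have h1 := hT p hp c
    simp only [Set.mem_ofPred_eq, hp, true_and]
    rw [← Nat.not_even_iff_odd, ← h1, not_not]
  · simp only [Set.mem_ofPred_eq, hp, false_and, iff_false]
    refine nrm_good h2 fun q hq hqb => ?_
    obtain ⟨p', hp', hqp'⟩ := hc q hqb
    exact hp (below_unique hq hqp' ▸ hp')

section main

variable {d : Fˣ} (h2 : (2 : F) ≠ 0) (hd : ¬ IsSquare (algebraMap F E (d : F)))
    {T : Set (Place F)} (hTf : T.Finite)
    (hT : ∀ p ∈ T, ParF E d p) (hT' : ∀ p ∈ T, ∀ q : Place E, Ab q p → incF F E d ∉ LSF q)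

include h2 hT in
/-- If a place above a place of `T` is isolated then so is the place below. -/
theorem isol_below {p : Place F} (hp : p ∈ T) {q : Place E} (hq : Ab q p)
    (h : IsolF (incF F E d) q) : IsolF d p := by
  obtain ⟨c, hc⟩ := h
  refine ⟨nrmF F E c, ?_⟩
  rw [bad_nrm h2 hT (c := c) (by
    rw [hc]
    rintro q' rfl
    exact ⟨p, hp, hq⟩), hc]
  ext p'
  simp only [Set.mem_ofPred_eq, Set.mem_singleton_iff]
  constructor
  · rintro ⟨_, h1⟩
    by_contra hne
    have : {q_1 | Ab q_1 p' ∧ q_1 = q} = (∅ : Set (Place E)) := by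
      ext q'
      simp only [Set.mem_ofPred_eq, Set.mem_empty_iff_false, iff_false, not_and]
      rintro h2 rfl
      exact hne (below_unique h2 hq)
    rw [this] at h1
    simp at h1
  · rintro rfl
    refine ⟨hp, ?_⟩
    have : {q_1 | Ab q_1 p' ∧ q_1 = q} = ({q} : Set (Place E)) := by
      ext q'
      simp only [Set.mem_ofPred_eq, Set.mem_singleton_iff]
      constructor
      · exact fun h => h.2
      · rintro rfl
        exact ⟨hq, rfl⟩
    rw [this]
    simp

include h2 hd hT hT' in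
/-- If `T` contains a place which is not isolated then the isolated places above `T` are exactly
those above the isolated ones. -/
theorem isol_above {p₀ : Place F} (hp₀ : p₀ ∈ T) (hq₀ : ∃ q₀ : Place E, Ab q₀ p₀)
    (hJ : ¬ IsolF d p₀) {p : Place F} (hp : p ∈ T) {q : Place E} (hq : Ab q p) (h : IsolF d p) :
    IsolF (incF F E d) q := by
  classical
  have h2' : (2 : E) ≠ 0 := by
    rw [← map_ofNat (algebraMap F E) 2]
    exact (_root_.map_ne_zero _).mpr h2
  obtain ⟨q₀, hq₀⟩ := hq₀
  by_contra hcon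
  have h0 : ¬ IsolF (incF F E d) q₀ := fun h => hJ (isol_below h2 hT hp₀ hq₀ h)
  have hne : p ≠ p₀ := by
    rintro rfl
    exact hJ h
  have hqne : q ≠ q₀ := by
    rintro rfl
    exact hne (below_unique hq hq₀)
  obtain ⟨c, hc⟩ := exists_bad_pairF (a := incF F E d) h2' hd hqne (hT' p hp q hq)
    (hT' p₀ hp₀ q₀ hq₀) hcon h0
  obtain ⟨b, hb⟩ := h
  apply hJ
  refine ⟨nrmF F E c * b, ?_⟩
  rw [badF_mul h2, hb, bad_nrm h2 hT (c := c) (by
    rw [hc]
    rintro q' (rfl | rfl)
    · exact ⟨p, hp, hq⟩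
    · exact ⟨p₀, hp₀, hq₀⟩), hc]
  have h1 : ∀ p', {q' | Ab q' p' ∧ q' ∈ ({q, q₀} : Set (Place E))}.ncard =
      if p' = p ∨ p' = p₀ then 1 else 0 := by
    intro p'
    by_cases h2 : p' = p
    · subst h2
      have : {q' | Ab q' p' ∧ q' ∈ ({q, q₀} : Set (Place E))} = {q} := by
        ext q'
        simp only [Set.mem_ofPred_eq, Set.mem_singleton_iff, Set.mem_insert_iff]
        constructor
        · rintro ⟨h3, rfl | rfl⟩
          · rfl
          · exact absurd (below_unique h3 hq₀) hne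
        · rintro rfl
          exact ⟨hq, Or.inl rfl⟩
      rw [this]
      simp
    · by_cases h3 : p' = p₀
      · subst h3
        have : {q' | Ab q' p' ∧ q' ∈ ({q, q₀} : Set (Place E))} = {q₀} := by
          ext q'
          simp only [Set.mem_ofPred_eq, Set.mem_singleton_iff, Set.mem_insert_iff]
          constructor
          · rintro ⟨h3, rfl | rfl⟩
            · exact absurd (below_unique h3 hq) h2
            · rfl
          · rintro rfl
            exact ⟨hq₀, Or.inr rfl⟩
        rw [this]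
        simp
      · have : {q' | Ab q' p' ∧ q' ∈ ({q, q₀} : Set (Place E))} = ∅ := by
          ext q'
          simp only [Set.mem_ofPred_eq, Set.mem_empty_iff_false, iff_false, not_and,
            Set.mem_insert_iff, Set.mem_singleton_iff]
          rintro h4 (rfl | rfl)
          · exact h2 (below_unique h4 hq)
          · exact h3 (below_unique h4 hq₀)
        rw [this, if_neg (by tauto)]
        simp
  ext p'
  simp only [Set.mem_symmDiff, Set.mem_ofPred_eq, Set.mem_singleton_iff, h1]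
  by_cases h2 : p' = p
  · subst h2
    simp [hp, hne]
  · by_cases h3 : p' = p₀
    · subst h3
      simp [h2, hp₀]
    · simp [h2, h3]

include h2 hd hTf hT hT' in
/-- PNC: elements with prescribed bad places above `T` exist as soon as the norm does. -/
theorem exists_bad_above (hJ : ∃ p₀ ∈ T, ¬ IsolF d p₀ ∧ ∃ q₀ : Place E, Ab q₀ p₀)
    (a : Fˣ) (ha : badF d a ⊆ T) {B : Set (Place E)} (hB : ∀ q ∈ B, ∃ p ∈ T, Ab q p)
    (hBT : ∀ p ∈ T, (p ∈ badF d a ↔ Odd {q : Place E | Ab q p ∧ q ∈ B}.ncard)) :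
    ∃ c : Eˣ, badF (incF F E d) c = B ∧ nrmF F E c * a ∈ NF d := by
  classical
  have h2' : (2 : E) ≠ 0 := by
    rw [← map_ofNat (algebraMap F E) 2]
    exact (_root_.map_ne_zero _).mpr h2
  obtain ⟨p₀, hp₀, hJ₀, hq₀⟩ := hJ
  have hiso : ∀ p ∈ T, ∀ q : Place E, Ab q p → (IsolF (incF F E d) q ↔ IsolF d p) :=
    fun p hp q hq => ⟨isol_below h2 hT hp hq, isol_above h2 hd hT hT' hp₀ hq₀ hJ₀ hp hq⟩
  have hBf : B.Finite := by
    refine (hTf.biUnion fun p _ => above_finite (E := E) p).subset ?_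
    intro q hq
    obtain ⟨p, hp, hqp⟩ := hB q hq
    exact Set.mem_biUnion hp hqp
  have hdF : ¬ IsSquare (d : F) := by
    rintro ⟨r, hr⟩
    exact hd ⟨algebraMap F E r, by rw [hr, map_mul]⟩
  have hexists : ∃ c : Eˣ, badF (incF F E d) c = B := by
    rw [exists_bad_iffF (a := incF F E d) h2' hd hBf (fun q hq => by
      obtain ⟨p, hp, hqp⟩ := hB q hq
      exact hT' p hp q hqp)]
    -- count fibrewise
    have hbadf : (badF d a).Finite := badF_finite h2 d a
    have h1 : Even {p | p ∈ badF d a ∧ ¬ IsolF d p}.ncard :=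
      (exists_bad_iffF h2 hdF hbadf (fun p hp => notMem_LSF_of_bad h2 hp)).mp ⟨a, rfl⟩
    let T' : Finset (Place F) := hTf.toFinset.filter fun p => ¬ IsolF d p
    let f : Place F → ℕ := fun p => {q : Place E | Ab q p ∧ q ∈ B}.ncard
    have h2 : {q | q ∈ B ∧ ¬ IsolF (incF F E d) q}.ncard = ∑ p ∈ T', f p := by
      have hfin : ∀ p : Place F, {q : Place E | Ab q p ∧ q ∈ B}.Finite := fun p =>
        hBf.subset fun q hq => hq.2
      have e1 : {q | q ∈ B ∧ ¬ IsolF (incF F E d) q} =
          ((T'.biUnion fun p => (hfin p).toFinset : Finset (Place E)) : Set (Place E)) := by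
        ext q
        simp only [Set.mem_ofPred_eq, Finset.coe_biUnion, Set.mem_iUnion, Set.Finite.coe_toFinset,
          exists_prop, T', Finset.coe_filter, Set.Finite.mem_toFinset]
        constructor
        · rintro ⟨h3, h4⟩
          obtain ⟨p, hp, hqp⟩ := hB q h3
          exact ⟨p, ⟨hp, fun h5 => h4 ((hiso p hp q hqp).mpr h5)⟩, hqp, h3⟩
        · rintro ⟨p, ⟨hp, h4⟩, hqp, h3⟩
          exact ⟨h3, fun h5 => h4 ((hiso p hp q hqp).mp h5)⟩
      rw [e1, Set.ncard_coe_finset, Finset.card_biUnion]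
      · exact Finset.sum_congr rfl fun p _ => (Set.ncard_eq_toFinset_card _ (hfin p)).symm
      · intro p _ p' _ hne
        rw [Function.onFun, Finset.disjoint_left]
        intro q hq hq'
        rw [Set.Finite.mem_toFinset] at hq hq'
        exact hne (below_unique hq.1 hq'.1)
    rw [h2, ← Nat.not_odd_iff_even, Finset.odd_sum_iff_odd_card_odd, Nat.not_odd_iff_even]
    have h3 : {p | p ∈ badF d a ∧ ¬ IsolF d p} =
        ((T'.filter fun p => Odd (f p) : Finset (Place F)) : Set (Place F)) := by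
      ext p
      simp only [Set.mem_ofPred_eq, Finset.coe_filter, Finset.mem_filter, T',
        Set.Finite.mem_toFinset]
      constructor
      · rintro ⟨h4, h5⟩
        exact ⟨⟨ha h4, h5⟩, (hBT p (ha h4)).mp h4⟩
      · rintro ⟨⟨h4, h5⟩, h6⟩
        exact ⟨(hBT p h4).mpr h6, h5⟩
    rw [h3, Set.ncard_coe_finset] at h1
    exact h1
  obtain ⟨c, hc⟩ := hexists
  refine ⟨c, hc, mem_NF_of_badF h2 ?_⟩
  rw [badF_mul h2, bad_nrm h2 hT (c := c) (by rw [hc]; exact hB), hc]
  have : {p | p ∈ T ∧ Odd {q : Place E | Ab q p ∧ q ∈ B}.ncard} = badF d a := by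
    ext p
    constructor
    · rintro ⟨h1, h2⟩
      exact (hBT p h1).mpr h2
    · intro h1
      exact ⟨ha h1, (hBT p (ha h1)).mp h1⟩
  rw [this, symmDiff_self]
  rfl

end main

/-- PNC: let `d` be a nonsquare in `E` and `a` an element of `F` with a controlling set of
places which are totally split in `E`. Then there are `μ` in `E` such that `N(μ) a` is a norm from
`F(√d)`, with at most the given bad places. -/
theorem pnc_abF (h2 : (2 : F) ≠ 0) {d a : Fˣ} (hd : ¬ IsSquare (algebraMap F E (d : F)))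
    {V : Set (Place F)} (hV : CtrlF d a V) (hsplit : ∀ v ∈ V, TotSplitF E v)
    (ab : Place F → Place E) (hab : ∀ v, Ab (ab v) v) :
    ∃ μ : Eˣ, nrmF F E μ * a ∈ NF d ∧
      ∀ w : Place E, μ ∉ NF (incF F E d) ⊔ LSF w → ∃ v ∈ V, w = ab v := by
  classical
  have hT : ∀ p ∈ V, ParF E d p := fun p hp => parF h2 (hsplit p hp) d
  have hT' : ∀ p ∈ V, ∀ q : Place E, Ab q p → incF F E d ∉ LSF q := fun p hp q hq =>
    notMem_LSF_above h2 (hsplit p hp) (hV.nonsplit p hp) hq
  have hJ : ∃ p₀ ∈ V, ¬ IsolF d p₀ ∧ ∃ q₀ : Place E, Ab q₀ p₀ := by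
    obtain ⟨p, hp, hJ⟩ := hV.jet
    exact ⟨p, hp, hJ, ab p, hab p⟩
  have ha : badF d a ⊆ V := fun v hv => hV.bad v hv
  let B : Set (Place E) := ab '' badF d a
  have hB : ∀ q ∈ B, ∃ p ∈ V, Ab q p := by
    rintro q ⟨v, hv, rfl⟩
    exact ⟨v, ha hv, hab v⟩
  have hBT : ∀ p ∈ V, (p ∈ badF d a ↔ Odd {q : Place E | Ab q p ∧ q ∈ B}.ncard) := by
    intro v hv
    have h1 : {q : Place E | Ab q v ∧ q ∈ B} = if v ∈ badF d a then {ab v} else ∅ := by
      split_ifs with hb
      · ext q
        simp only [Set.mem_ofPred_eq, Set.mem_singleton_iff]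
        constructor
        · rintro ⟨h1, ⟨v', hv', rfl⟩⟩
          have h2 : v' = v := below_unique (hab v') h1
          rw [h2]
        · rintro rfl
          exact ⟨hab v, v, hb, rfl⟩
      · ext q
        simp only [Set.mem_ofPred_eq, Set.mem_empty_iff_false, iff_false, not_and]
        rintro h1 ⟨v', hv', rfl⟩
        have h2 : v' = v := below_unique (hab v') h1
        exact hb (h2 ▸ hv')
    rw [h1]
    split_ifs with hb
    · simp [hb]
    · simp [hb]
  obtain ⟨c, hc, hca⟩ := exists_bad_above h2 hd hV.fin hT hT' hJ a ha hB hBT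
  refine ⟨c, hca, fun w hw => ?_⟩
  have h1 : w ∈ badF (incF F E d) c := hw
  rw [hc] at h1
  obtain ⟨v, hv, rfl⟩ := h1
  exact ⟨v, ha hv, rfl⟩

end Vale.Agent.P011.H279.RB
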