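import Vale.Agent.P011.H775.M3b
import Vale.Agent.P011.H948.EtaB
import Vale.Agent.P011.H305.SetF
import Vale.Agent.P011.H182.Nma

/-!
# The interface of Part I over function fields
-/

set_option linter.unusedSectionVars false

open Module TensorProduct

namespace Vale.Agent.P011.H279.Asm

open Vale.Agent.P011.H738 Vale.Agent.P011.H271 Vale.Agent.P011.H775 Vale.Agent.P011.H948
open Vale.Agent.P011.H305 Vale.Agent.P011.H182

section ring

variable {k K D : Type} [Field k] [Field K] [StarRing K] [DivisionRing D] [StarRing D]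
  [Algebra k K] [Algebra k D] [Algebra K D]

/-- `r` lies in `V₀(g)` and `T (g p² r^#) = c`, `p = 3 + g⁻¹`. -/
def Val (C : Cub K D) (g r : D) (c : k) : Prop :=
  star r = r ∧ C.T r = 0 ∧ C.T (g * r) = 0 ∧ C.T (g * g * r) = 0 ∧
    C.T (g * pp g * pp g * C.adj r) = algebraMap k K c

/-- `g` and `y` are the parameters of the chart attached to `x` and `u`. -/
structure Chart (C : Cub K D) (s : K) (x u g y : D) : Prop where
  hg : star g = g
  hy : star y = y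
  Tg : C.T g = -1
  Ty : C.T y = 0
  eq : (2 : K) • ((C.T ((x - 1) * u))⁻¹ • ((x - 1) * u)) = 1 + g + s • y

/-- The local point of the Skolem surface. -/
def LocPt {k F : Type} [Field k] [Field F] [Algebra k F] (v : Place k) (A : F) (G : k) : Prop :=
  ∃ f : v.comp ⊗[k] F, Algebra.norm v.comp f +
    Algebra.trace v.comp (v.comp ⊗[k] F) ((1 ⊗ₜ[k] A) * f) + algebraMap k v.comp G = 0

end ring

section star

variable {k K D : Type} [Field k] [Field K] [StarRing K] [DivisionRing D] [StarRing D]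
  [Algebra k K] [Algebra k D] [Algebra K D] [IsScalarTower k K D]

section dat

variable [FiniteDimensional K D] [Algebra.IsCentral K D] {F : Type} [Field F] [Algebra k F]
  [FiniteDimensional k F] [Algebra.IsSeparable k F]

/-- `M` is attached to `g`, `y`, `r`. -/
structure DatAt {C : Cub K D} {φ : F →ₐ[k] D} (M : Dat C φ) (d : kˣ) (s : K) (g y r : D)
    (σ : F) : Prop where
  hF : finrank k F = 3
  hσ : φ σ = r * (pp g)⁻¹
  hp : M.p = pp g
  hg : M.g = g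
  hy : M.y = y
  hδ : M.δ = s
  hd : M.d = (d : k)

end dat

/-- **M8.** The conditions at one place. -/
def M8At [FiniteDimensional K D] [Algebra.IsCentral K D] (C : Cub K D) {N : ℕ}
    (B : Basis (Fin N) k D) (d : kˣ) (s : K) (x0 : D) (v : Place k) : Prop :=
  ∃ uv : D, uv * star uv = 1 ∧ ∃ ε : ℝ, 0 < ε ∧ ∀ x u : D, x * star x = 1 → u * star u = 1 →
    na B v.abv (x - x0) < ε → na B v.abv (u - uv) < ε → C.T ((x - 1) * u) ≠ 0 ∧
    ∀ g y : D, Chart C s x u g y → (∀ c : K, g ≠ c • (1 : D)) ∧ 3 * C.S g ≠ 1 ∧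
    ∃ (z z' : D) (a b t : k), Val C g z a ∧ Val C g z' b ∧ Val C g (z + z') t ∧
      t - a - b ≠ 0 ∧ v.abv (a * b) < v.abv (t - a - b) ^ 2 ∧ ∃ γ : ℝ, 0 < γ ∧
    ∀ r : D, Val C g r (0 : k) → (∃ c : k, v.abv c ≤ v.abv (a / (t - a - b)) ∧
        na B v.abv (r - z - c • z') < γ) →
    ∀ (F : Type) [Field F] [Algebra k F] [FiniteDimensional k F] [Algebra.IsSeparable k F]
      (φ : F →ₐ[k] D) (σ : F) (M : Dat C φ), DatAt M d s g y r σ →
    ∀ (m : ℕ) (B' : Basis (Fin m) k (F × k)), ∃ e e' : F × k, QuadraticMap.polar M.Q e e' ≠ 0 ∧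
      v.abv (M.Q e * M.Q e') < v.abv (QuadraticMap.polar M.Q e e') ^ 2 ∧ ∃ γ' : ℝ, 0 < γ' ∧
    ∀ ρ : F × k, M.Q ρ = 0 → (∃ c : k, v.abv c ≤ v.abv (M.Q e / QuadraticMap.polar M.Q e e') ∧
        ∀ i, v.abv (B'.repr (ρ - e - c • e') i) < γ') →
      Nonempty (F →ₐ[k] v.comp) ∨ LocPt v (M.A ρ) (M.G ρ)

/-- **F1.** The data attached to a unitary element and an isotropic element. -/
def F1Stmt [FiniteDimensional K D] [Algebra.IsCentral K D] (C : Cub K D) (d : kˣ) (s : K) :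
    Prop :=
  ∀ x u : D, u * star u = 1 → C.T ((x - 1) * u) ≠ 0 → ∃ g y : D, Chart C s x u g y ∧
    ∀ r : D, (∀ c : K, g ≠ c • (1 : D)) → 3 * C.S g ≠ 1 → r ≠ 0 → Val C g r (0 : k) →
      ∃ (F : Type) (_ : Field F) (_ : Algebra k F) (_ : FiniteDimensional k F)
        (_ : Algebra.IsSeparable k F) (φ : F →ₐ[k] D) (σ : F) (M : Dat C φ),
        DatAt M d s g y r σ ∧ ∀ z : F × k, z ≠ 0 → M.Q z = 0 → ∀ e : F,
          Algebra.norm k e + Algebra.trace k F (e * M.A z) + M.G z = 0 →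
          ∃ w : D, w * star w = 1 ∧ C.T ((x - 1) * w) = 0

/-- **F2.** An isotropic vector, and weak approximation. -/
def F2Stmt (C : Cub K D) {N : ℕ} (B : Basis (Fin N) k D) : Prop :=
  ∀ g : D, star g = g → C.T g = -1 → (∀ c : K, g ≠ c • (1 : D)) → ∀ (T : Set (Place k)),
    T.Finite → ∀ (z z' : Place k → D) (a b t : Place k → k),
    (∀ v ∈ T, Val C g (z v) (a v)) → (∀ v ∈ T, Val C g (z' v) (b v)) →
    (∀ v ∈ T, Val C g (z v + z' v) (t v)) → (∀ v ∈ T, t v - a v - b v ≠ 0) →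
    (∀ v ∈ T, v.abv (a v * b v) < v.abv (t v - a v - b v) ^ 2) → ∀ γ : Place k → ℝ,
    (∀ v ∈ T, 0 < γ v) →
    ∃ r : D, r ≠ 0 ∧ Val C g r (0 : k) ∧ ∀ v ∈ T, ∃ c : k,
      v.abv c ≤ v.abv (a v / (t v - a v - b v)) ∧ na B v.abv (r - z v - c • z' v) < γ v

end star

/-- **F4.** Skolem's theorem over `k`, for the cubic extension `F`. -/
def SkStmt (k F : Type) [Field k] [Field F] [Algebra k F] : Prop :=
  ∃ (Good : Place k → k → k → Prop) (S₀ : Set (Place k)), S₀.Finite ∧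
    (∀ A : F, A ≠ 0 → ∀ G : k, (∀ v : Place k,
      Nonempty (F →ₐ[k] v.comp) ∨ ∃ c : k, c ≠ 0 ∧
        (Good v (c ^ 6 * Algebra.norm k A) (c ^ 3 * G) ∨
          (v ∉ S₀ ∧ v.abv (c ^ 6 * Algebra.norm k A) = 1 ∧
            v.abv (c ^ 3 * G) ≤ 1))) →
      ∃ f : F, Algebra.norm k f + Algebra.trace k F (A * f) + G = 0) ∧
    (∀ (v : Place k) (a : Polynomial F) (g : Polynomial k), a.natDegree ≤ 4 →
      g.natDegree ≤ 6 → a.eval 0 ≠ 0 → LocPt v (a.eval 0) (g.eval 0) →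
      ¬ Nonempty (F →ₐ[k] v.comp) → ∃ γ : ℝ, 0 < γ ∧ ∀ t : k,
        v.abv t < γ → ∃ c : k, c ≠ 0 ∧
          Good v (c ^ 6 * Algebra.norm k (a.eval (algebraMap k F t))) (c ^ 3 * g.eval t)) ∧
    (∀ (v : Place k) (a : Polynomial F) (g : Polynomial k), a.natDegree ≤ 4 →
      g.natDegree ≤ 6 → a.coeff 4 ≠ 0 → LocPt v (a.coeff 4) (g.coeff 6) →
      ¬ Nonempty (F →ₐ[k] v.comp) → ∃ γ : ℝ, ∀ t : k,
        γ < v.abv t → ∃ c : k, c ≠ 0 ∧
          Good v (c ^ 6 * Algebra.norm k (a.eval (algebraMap k F t))) (c ^ 3 * g.eval t))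

/-- **F7.** A point of the parameter quadric near given points. -/
def F7Stmt (k F : Type) [Field k] [Field F] [Algebra k F] : Prop :=
  ∀ (Q : QuadraticForm k (F × k)) (c₁ : k), c₁ ≠ 0 → (∀ t, Q (t, 0) = c₁ * e2 k t) →
    ∀ a b : F, Algebra.trace k F a = 0 → Algebra.trace k F b = 0 → D0 k a b ≠ 0 →
    ∀ al : F, al ≠ 0 → ∀ (be : F) (m : ℕ) (B : Basis (Fin m) k (F × k)) (T : Set (Place k)),
    T.Finite → ∀ z y : Place k → F × k, (∀ v ∈ T, QuadraticMap.polar Q (z v) (y v) ≠ 0) →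
    (∀ v ∈ T, v.abv (Q (z v) * Q (y v)) < v.abv (QuadraticMap.polar Q (z v) (y v)) ^ 2) →
    ∀ γ : Place k → ℝ, (∀ v ∈ T, 0 < γ v) →
    ∃ ρ : F × k, Q ρ = 0 ∧ (∀ v ∈ T, ∃ s : k,
      v.abv s ≤ v.abv (Q (z v) / QuadraticMap.polar Q (z v) (y v)) ∧
      ∀ i, v.abv (B.repr (ρ - z v - s • y v) i) < γ v) ∧
      al * ρ.1 ^ 2 + be * algebraMap k F ρ.2 ^ 2 ≠ 0 ∧
      QuadraticMap.polar Q ρ (sh k a, 0) ≠ 0

end Vale.Agent.P011.H279.Asm
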