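import Vale.Agent.P011.H279.SqrtB
import Vale.Agent.P011.H279.ArtB
import Vale.Agent.P011.H961.SetG
import Vale.Agent.P011.H738.SolvFF

/-!
Splitting fields of division algebras with an involution of the second kind over global function
fields, in every characteristic.
-/

set_option linter.unusedSectionVars false

open Module Polynomial TensorProduct

namespace Vale.Agent.P011.H279.Art

open Vale.Agent.P011.H738 Vale.Agent.P011.H271 Vale.Agent.P011.W Vale.Agent.P011.H279.Sq
open Vale.Agent.P011.H961 (SetG)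

section general

variable {k K D : Type} [Field k] [Field K] [StarRing K] [DivisionRing D] [StarRing D]
  [Algebra k K] [Algebra k D] [Algebra K D] [IsScalarTower k K D] {n : ℕ}

/-- Homomorphisms of `K` are determined by the images of `k` and of `κ`. -/
theorem hom_extG (hS : SetG k K D) {κ : K} (hκ : star κ ≠ κ) {M : Type} [Ring M]
    {f g : K →+* M} (h1 : ∀ c : k, f (algebraMap k K c) = g (algebraMap k K c))
    (h2 : f κ = g κ) : f = g := by
  ext x
  obtain ⟨a, b, rfl⟩ := hS.exists_coord hκ x
  rw [map_add, map_mul, map_add, map_mul, h1, h1, h2]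

theorem kappa_notMem (hS : SetG k K D) {κ : K} (hκ : star κ ≠ κ) :
    κ ∉ (algebraMap k K).range := by
  rintro ⟨c, rfl⟩
  exact hκ (hS.star_algebraMap c)

/-- The polynomial of an element of trace one. -/
noncomputable def kp (ν : k) : k[X] := X ^ 2 + (C (-1) * X + C ν)

theorem kp_monic (ν : k) : (kp ν).Monic := by
  refine monic_X_pow_add ?_
  exact degree_linear_le.trans_lt (by norm_num)

theorem kp_deg (ν : k) : (kp ν).natDegree = 2 := by
  have h1 : (X ^ 2 + (C (-1) * X + C ν) : k[X]).natDegree = (X ^ 2 : k[X]).natDegree := by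
    refine natDegree_add_eq_left_of_natDegree_lt ?_
    rw [natDegree_X_pow]
    exact (natDegree_linear_le).trans_lt (by norm_num)
  rw [kp, h1, natDegree_X_pow]

theorem aeval_kp {M : Type} [CommRing M] [Algebra k M] {ν : k} {u : M} :
    aeval u (kp ν) = 0 ↔ u ^ 2 = u - algebraMap k M ν := by
  rw [kp, map_add, map_add, map_mul, map_pow, aeval_X, aeval_C, aeval_C, map_neg, map_one]
  constructor
  · intro h
    linear_combination h
  · intro h
    linear_combination h

/-- The bad places are finite in number. -/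
theorem bad_finiteG [GFF k] (hS : SetG k K D) (hn : n ≠ 0) (hdeg : finrank K D = n ^ 2) :
    (Bad k K D n).Finite := by
  have := hS.fin
  have := hS.cen
  obtain ⟨T, hT⟩ := H961.exists_split_ae (k := k) (K := K) (A := D) hS.fix hn hdeg
  refine T.finite_toSet.subset ?_
  rintro v ⟨ι, hι⟩
  by_contra hv
  obtain ⟨g, hg⟩ := @hT v (fun h => hv (Finset.mem_coe.mpr h)) v.comp (nnfPlace v) _ _
    (ι : K →+* v.comp) fun c => by
      rw [AlgHom.coe_toRingHom, AlgHom.commutes]
      exact norm_alg v c
  exact hι ⟨g, hg⟩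

/-- The splitting at a place of nonsplit type. -/
theorem spl_nonsplitG [GFF k] (hS : SetG k K D) (hdeg : finrank K D = n ^ 2) {v : Place k}
    (hv : IsEmpty (K →ₐ[k] v.comp)) {M : Type} [Field M] (Φ : K →+* M) (φ : v.comp →+* M)
    (hφ : ∀ c : k, φ (algebraMap k v.comp c) = Φ (algebraMap k K c)) : Spl D n Φ := by
  have := hS.fin
  have := hS.cen
  have := hS.starModule
  have hn0 : n ≠ 0 := (deg_pos hdeg).ne'
  obtain ⟨κ, hκ1, hκ⟩ := hS.exists_kappa
  obtain ⟨ν, -, hν⟩ := hS.exists_nu κ hκ1
  obtain ⟨L, _, _, _, _, _, φL, hst, hφs, hd, hφL, hnorm, hL2⟩ :=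
    exists_quad_field hS.fix hS.star_ne v hv
  obtain ⟨g, hg⟩ := H738.splitNS (hS.anis hdeg) hn0 v hv L φL hst hφs hd hφL hnorm hL2
  let _ : Algebra v.comp M := φ.toAlgebra
  have hroot : aeval (φL κ) (kp (algebraMap k v.comp ν)) = 0 := by
    rw [aeval_kp, ← map_pow, hν, map_sub, hφL]
  have hnr : φL κ ∉ (algebraMap v.comp L).range := by
    rintro ⟨c, hc⟩
    have h1 : c ^ 2 = c - algebraMap k v.comp ν := by
      apply (algebraMap v.comp L).injective
      rw [map_pow, map_sub, hc, ← map_pow, hν, map_sub, hφL]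
    obtain ⟨ι, -⟩ := exists_hom' (F := k) (L := K) (M := v.comp) hS.rank (kappa_notMem hS hκ)
      (kp_monic ν) (kp_deg ν) (by rw [aeval_kp]; exact hν) (u := c) (by rw [aeval_kp]; exact h1)
    exact hv.false ι
  obtain ⟨ψ, hψ⟩ := exists_hom' (F := v.comp) (L := L) (M := M) hL2 hnr
    (kp_monic (algebraMap k v.comp ν)) (kp_deg _) hroot (u := Φ κ) (by
      rw [aeval_kp, ← map_pow, hν, map_sub]
      congr 1
      exact (hφ ν).symm)
  have h1 : Spl D n φL := ⟨g, hg⟩
  have h2 := h1.comp (ψ : L →+* M)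
  have h3 : (ψ : L →+* M).comp φL = Φ := by
    refine hom_extG hS hκ (fun c => ?_) hψ
    rw [RingHom.comp_apply, hφL]
    change ψ (algebraMap v.comp L (algebraMap k v.comp c)) = _
    rw [ψ.commutes]
    exact hφ c
  rwa [h3] at h2

/-- **The splitting at the places of an extension.** -/
theorem spl_placeG [GFF k] (hS : SetG k K D) (hdeg : finrank K D = n ^ 2) (E : Type) [Field E]
    [GFF E] [Algebra K E] [Algebra k E] [IsScalarTower k K E] [Algebra.IsAlgebraic k E]
    (W : Place E)
    (hbad : ∀ (v : Place k) (ι : K →ₐ[k] v.comp) (φ : v.comp →+* W.comp), v ∈ Bad k K D n →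
      φ.comp (ι : K →+* v.comp) = (algebraMap E W.comp).comp (algebraMap K E) →
      Spl D n (φ.comp (ι : K →+* v.comp))) :
    Spl D n ((algebraMap E W.comp).comp (algebraMap K E)) := by
  have := hS.fin
  have := hS.cen
  obtain ⟨κ, hκ1, hκ⟩ := hS.exists_kappa
  obtain ⟨ν, -, hν⟩ := hS.exists_nu κ hκ1
  obtain ⟨v, e, he, hvW⟩ := Hey.H63.exists_below (k := k) W
  obtain ⟨φ, hφ⟩ := Hey.H63.exists_compHom v W he hvW
  have hφ' : ∀ c : k, φ (algebraMap k v.comp c) =
      ((algebraMap E W.comp).comp (algebraMap K E)) (algebraMap k K c) := by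
    intro c
    rw [hφ, RingHom.comp_apply, ← IsScalarTower.algebraMap_apply k K E]
  rcases isEmpty_or_nonempty (K →ₐ[k] v.comp) with hv | ⟨⟨ι0⟩⟩
  · exact spl_nonsplitG hS hdeg hv _ φ hφ'
  · obtain ⟨r, hr, hrs⟩ : ∃ r : v.comp, r ^ 2 = r - algebraMap k v.comp ν ∧
        φ r = ((algebraMap E W.comp).comp (algebraMap K E)) κ := by
      have h1 : ι0 κ ^ 2 = ι0 κ - algebraMap k v.comp ν := by
        rw [← map_pow, hν, map_sub, ι0.commutes]
      have h2 : (((algebraMap E W.comp).comp (algebraMap K E)) κ) ^ 2 =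
          ((algebraMap E W.comp).comp (algebraMap K E)) κ - φ (algebraMap k v.comp ν) := by
        rw [← map_pow, hν, map_sub, hφ']
      have h3 : φ (ι0 κ) ^ 2 = φ (ι0 κ) - φ (algebraMap k v.comp ν) := by
        rw [← map_pow, h1, map_sub]
      have h4 : (((algebraMap E W.comp).comp (algebraMap K E)) κ - φ (ι0 κ)) *
          (((algebraMap E W.comp).comp (algebraMap K E)) κ - φ (1 - ι0 κ)) = 0 := by
        rw [map_sub, map_one]
        linear_combination h2 - h3
      rcases mul_eq_zero.mp h4 with h | h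
      · exact ⟨ι0 κ, h1, (sub_eq_zero.mp h).symm⟩
      · exact ⟨1 - ι0 κ, by linear_combination h1, (sub_eq_zero.mp h).symm⟩
    obtain ⟨ι, hι⟩ := exists_hom' (F := k) (L := K) (M := v.comp) hS.rank (kappa_notMem hS hκ)
      (kp_monic ν) (kp_deg ν) (by rw [aeval_kp]; exact hν) (u := r) (by rw [aeval_kp]; exact hr)
    have hcomp : φ.comp (ι : K →+* v.comp) = (algebraMap E W.comp).comp (algebraMap K E) := by
      refine hom_extG hS hκ (fun c => ?_) ?_
      · rw [RingHom.comp_apply]
        change φ (ι (algebraMap k K c)) = _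
        rw [ι.commutes, hφ']
      · rw [RingHom.comp_apply]
        change φ (ι κ) = _
        rw [hι, hrs]
    by_cases hsp : Spl D n (ι : K →+* v.comp)
    · have h1 := hsp.comp φ
      rwa [hcomp] at h1
    · have h1 := hbad v ι φ ⟨ι, hsp⟩ hcomp
      rwa [hcomp] at h1

/-- Some place is bad. -/
theorem bad_nonemptyG [GFF k] (hS : SetG k K D) (hn : 2 ≤ n) (hdeg : finrank K D = n ^ 2) :
    (Bad k K D n).Nonempty := by
  by_contra hcon
  rw [Set.not_nonempty_iff_eq_empty] at hcon
  have := hS.fin
  have := hS.cen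
  have := hS.finK
  have : GFF K := Hey.H63.gff_of_finite (k := k)
  have h1 : Spl D n (algebraMap K K) := spl_of_local hdeg K fun W =>
    spl_placeG hS hdeg K W (by
      intro v ι φ hv
      rw [hcon] at hv
      exact hv.elim)
  have h2 := H505.Wang.dvd_of_spl hdeg K h1
  rw [finrank_self, Nat.dvd_one] at h2
  omega

/-- **Embedding of an extension which splits `D` at the places above the bad places.** -/
theorem exists_embG [GFF k] (hS : SetG k K D) (hdeg : finrank K D = n ^ 2) (E : Type) [Field E]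
    [Algebra K E] [FiniteDimensional K E] (hE : finrank K E ≤ n)
    (hbad : ∀ (v : Place k) (ι : K →ₐ[k] v.comp), v ∈ Bad k K D n → ∀ (M : Type) [Field M]
      (φ : v.comp →+* M) (ψ : E →+* M), φ.comp (ι : K →+* v.comp) = ψ.comp (algebraMap K E) →
      Spl D n (φ.comp (ι : K →+* v.comp))) : Nonempty (E →ₐ[K] D) := by
  have := hS.fin
  have := hS.cen
  have := hS.finK
  have hn : 0 < n := deg_pos hdeg
  let _ : Algebra k E := ((algebraMap K E).comp (algebraMap k K)).toAlgebra
  have : IsScalarTower k K E := IsScalarTower.of_algebraMap_eq fun x => rfl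
  have : FiniteDimensional k E := Module.Finite.trans K E
  have : GFF E := Hey.H63.gff_of_finite (k := k)
  have hspl : Spl D n (algebraMap K E) := spl_of_local hdeg _ fun W =>
    spl_placeG hS hdeg E W fun v ι φ hv hφ => hbad v ι hv W.comp φ (algebraMap E W.comp) hφ
  have h3 := H505.Wang.dvd_of_spl hdeg _ hspl
  have h4 : finrank K E = n := le_antisymm hE (Nat.le_of_dvd finrank_pos h3)
  exact embed_of_spl hdeg h4 hspl

end general

end Vale.Agent.P011.H279.Art
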