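import Vale.Agent.P011.H505.WangB
import Vale.Agent.P011.W.LocC

/-!
A local central division algebra of degree `q` contains a `q`-th root of every uniformizer, in
every characteristic.
-/

set_option linter.unusedSectionVars false

open Module Polynomial

namespace Vale.Agent.P011.H279.Sq

open Vale.Agent.P011.Even.LocDiv Vale.Agent.P011.W

section loc

variable {k E : Type} [NontriviallyNormedField k] [CompleteSpace k] [NormedDivisionRing E]
  [NormedAlgebra k E] [IsUltrametricDist E] [FiniteDimensional k E]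
  [Algebra.IsCentral k E] {R : Frame E} {W : Type} [Field W] [Algebra k W] (C : Cyc k E W R)

/-- The period of a frame is the degree. -/
theorem m_eq {q : ℕ} (hq : finrank k E = q ^ 2) : C.m = q := by
  obtain ⟨X, hX, hdim⟩ := C.exists_X
  have hfdW : FiniteDimensional k W := FiniteDimensional.of_injective C.ι.toLinearMap C.inj
  rw [Module.finrank_fin_fun] at hdim
  have hq0 : 0 < q := deg_pos hq
  have h1 : C.m ≤ finrank k W := by
    let s : Fin C.m → (W →ₐ[k] W) := fun i => C.σ ^ (i : ℕ)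
    have hs : ∀ i : Fin C.m, s i C.ω = C.ω ^ (R.j ^ (i : ℕ)) := by
      intro i
      have h2 : ∀ n : ℕ, (C.σ ^ n) C.ω = C.σ^[n] C.ω := by
        intro n
        rw [AlgHom.coe_pow]
      rw [← C.σ_ω]
      exact h2 i
    have hinj : Function.Injective s := by
      intro a b hab
      by_contra hne
      have hne' : (a : ℕ) ≠ b := fun h => hne (Fin.ext h)
      have h2 := congrArg (fun g : W →ₐ[k] W => C.ι (g C.ω)) hab
      simp only [hs, map_pow, C.hω] at h2
      have h3 := C.norm_ζ_sub hne' a.2 b.2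
      rw [h2, sub_self, norm_zero] at h3
      exact zero_ne_one h3
    have h2 := Nat.card_le_card_of_injective s hinj
    rw [Nat.card_eq_fintype_card, Fintype.card_fin] at h2
    exact h2.trans (card_algHom_le_finrank k W W)
  have h2 : finrank k W ≤ q := by
    obtain ⟨L, _, _, _, j, u, hL, hu⟩ := exists_maxfield hq R.ζ
    have h3 : LinearMap.range C.ι.toLinearMap ≤ LinearMap.range j.toLinearMap := by
      rintro _ ⟨w, rfl⟩
      obtain ⟨p, rfl⟩ := C.gen w
      refine ⟨aeval u p, ?_⟩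
      change j (aeval u p) = C.ι (aeval C.ω p)
      rw [← aeval_algHom_apply, ← aeval_algHom_apply, hu, C.hω]
    have h4 := Submodule.finrank_mono h3
    have e1 : finrank k (LinearMap.range C.ι.toLinearMap) = finrank k W :=
      LinearMap.finrank_range_of_inj C.inj
    have e2 : finrank k (LinearMap.range j.toLinearMap) = finrank k L :=
      LinearMap.finrank_range_of_inj j.injective
    rw [e1, e2, hL] at h4
    exact h4
  rw [hq] at hdim
  refine le_antisymm (h1.trans h2) ?_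
  by_contra hcon
  rw [not_le] at hcon
  have h3 : C.m * finrank k W ≤ C.m * q := Nat.mul_le_mul_left _ h2
  have h4 : C.m * q < q * q := Nat.mul_lt_mul_of_pos_right hcon hq0
  rw [hdim, pow_two] at h3
  omega

theorem mul_pow_pi (w : W) (i : ℕ) :
    (C.ι w * R.π) ^ i = C.ι (∏ l ∈ Finset.range i, C.σ^[l] w) * R.π ^ i := by
  induction i with
  | zero => rw [pow_zero, pow_zero, Finset.range_zero, Finset.prod_empty, map_one, mul_one]
  | succ i ih =>
    rw [pow_succ, ih, Finset.prod_range_succ, map_mul, pow_succ, mul_assoc (C.ι _) (R.π ^ i),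
      ← mul_assoc (R.π ^ i), C.σ_iter]
    simp only [mul_assoc]

/-- A uniformizer has a root. -/
theorem exists_root_aux [ProperSpace E] (R : Frame E) {q : ℕ} (hq : finrank k E = q ^ 2) {c : k}
    (hc0 : c ≠ 0) (hc1 : ‖c‖ < 1) (hcm : ∀ y : k, ‖y‖ < 1 → ‖y‖ ≤ ‖c‖) :
    ∃ x : E, x ^ q = algebraMap k E c := by
  obtain ⟨W, _, _, _, ⟨C⟩⟩ := exists_cyc (k := k) R
  have hm : C.m = q := m_eq C hq
  have hm0 : 0 < C.m := C.m0
  obtain ⟨ϖ, hϖ⟩ := C.exists_ϖ
  have hϖn : ‖ϖ‖ = ‖R.π‖ ^ C.m := by rw [← norm_algebraMap' E ϖ, hϖ, norm_pow]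
  have hϖ0 : ϖ ≠ 0 := by
    rw [← norm_ne_zero_iff, hϖn]
    exact pow_ne_zero _ R.πpos.ne'
  have hϖ1 : ‖ϖ‖ < 1 := by
    rw [hϖn]
    exact pow_lt_one₀ (norm_nonneg _) R.π1 hm0.ne'
  have h1 : ‖ϖ‖ ≤ ‖c‖ := hcm _ hϖ1
  obtain ⟨i, hi⟩ := norm_eq_zpow R.π0 R.π1 R.πm (x := algebraMap k E c)
    ((_root_.map_ne_zero _).mpr hc0)
  rw [norm_algebraMap'] at hi
  obtain ⟨t, ht⟩ := C.dvd_of_norm' hi
  have hct : ‖c‖ = ‖ϖ‖ ^ t := by rw [hi, ht, hϖn, zpow_mul, zpow_natCast]
  have h2 : ‖c‖ ≤ ‖ϖ‖ := by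
    have hϖp : 0 < ‖ϖ‖ := norm_pos_iff.mpr hϖ0
    have ht1 : 1 ≤ t := by
      by_contra hcon
      have h3 : t ≤ 0 := by omega
      have h4 : 1 ≤ ‖ϖ‖ ^ t := one_le_zpow_of_nonpos₀ hϖp hϖ1.le h3
      rw [← hct] at h4
      exact absurd hc1 (not_lt.mpr h4)
    rw [hct]
    calc ‖ϖ‖ ^ t ≤ ‖ϖ‖ ^ (1 : ℤ) := zpow_le_zpow_right_of_le_one₀ hϖp hϖ1.le ht1
      _ = ‖ϖ‖ := zpow_one _
  have hcϖ : ‖c‖ = ‖ϖ‖ := le_antisymm h2 h1
  set u : k := c / ϖ with hu
  have hu1 : ‖u‖ = 1 := by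
    rw [hu, norm_div, hcϖ, div_self (norm_ne_zero_iff.mpr hϖ0)]
  let F : E → E := fun x => (x * R.π) ^ C.m
  have hF : Continuous F := by fun_prop
  have hcomp : IsCompact (F '' Metric.sphere (0 : E) 1) :=
    (isCompact_sphere (0 : E) 1).image hF
  have hmem : algebraMap k E c ∈ closure (F '' Metric.sphere (0 : E) 1) := by
    rw [Metric.mem_closure_iff]
    intro ε hε
    obtain ⟨n, hn⟩ := exists_pow_lt_of_lt_one (y := ‖R.π‖) (x := ε / ‖ϖ‖)
      (div_pos hε (norm_pos_iff.mpr hϖ0)) R.π1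
    obtain ⟨w, c', hw, hc', hcy⟩ := C.unit_approx n u hu1
    refine ⟨F (C.ι w), ⟨C.ι w, by rw [mem_sphere_zero_iff_norm, hw], rfl⟩, ?_⟩
    have h3 : F (C.ι w) = algebraMap k E (c' * ϖ) := by
      change (C.ι w * R.π) ^ C.m = _
      rw [mul_pow_pi, ← hϖ, map_mul]
      have h4 : C.ι (∏ l ∈ Finset.range C.m, C.σ^[l] w) = algebraMap k E c' := by
        change C.ι (C.N w) = _
        rw [← hc', C.ι.commutes]
      rw [h4]
    have h5 : algebraMap k E c - algebraMap k E (c' * ϖ) = algebraMap k E (ϖ * (u - c')) := by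
      rw [← map_sub]
      congr 1
      rw [hu]
      field_simp
    rw [h3, dist_eq_norm, h5, norm_algebraMap', norm_mul, norm_sub_rev]
    have h6 : ‖c' - u‖ < ε / ‖ϖ‖ := by
      refine hcy.trans_lt (lt_of_le_of_lt ?_ hn)
      exact pow_le_pow_of_le_one (norm_nonneg _) R.π1.le (by omega)
    rw [lt_div_iff₀ (norm_pos_iff.mpr hϖ0), mul_comm] at h6
    exact h6
  rw [hcomp.isClosed.closure_eq] at hmem
  obtain ⟨x, -, hx⟩ := hmem
  refine ⟨x * R.π, ?_⟩
  rw [← hm]
  exact hx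

end loc

section final

variable {k E : Type} [NontriviallyNormedField k] [IsUltrametricDist k] [ProperSpace k]
  [DivisionRing E] [Algebra k E] [FiniteDimensional k E] [Algebra.IsCentral k E]

/-- **A local central division algebra of degree `q` contains a `q`-th root of every
uniformizer**. -/
theorem exists_root {q : ℕ} (hq : finrank k E = q ^ 2) {c : k}
    (hc0 : c ≠ 0) (hc1 : ‖c‖ < 1) (hcm : ∀ y : k, ‖y‖ < 1 → ‖y‖ ≤ ‖c‖) :
    ∃ x : E, x ^ q = algebraMap k E c ∧ (minpoly k x).natDegree = q := by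
  let _ : NormedDivisionRing E := ndr k
  let _ : NormedAlgebra k E :=
    { (inferInstance : Algebra k E) with
      norm_smul_le := fun c x => by
        change nm k (c • x) ≤ ‖c‖ * nm k x
        rw [Algebra.smul_def, nm_mul, nm_algebraMap] }
  have hU : IsUltrametricDist E := IsUltrametricDist.isUltrametricDist_of_forall_norm_add_le_max_norm
    (fun x y => nm_add_le_max k x y)
  have : ProperSpace E := FiniteDimensional.proper k E
  have hc : ‖algebraMap k E c‖ = ‖c‖ := nm_algebraMap k c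
  have hcne : algebraMap k E c ≠ 0 := (_root_.map_ne_zero _).mpr hc0
  obtain ⟨R⟩ := exists_frame (algebraMap k E c) hcne (by rw [hc]; exact hc1)
  obtain ⟨x, hx⟩ := exists_root_aux (k := k) R hq hc0 hc1 hcm
  refine ⟨x, hx, ?_⟩
  have hq0 : 0 < q := deg_pos hq
  obtain ⟨L, _, _, _, j, u, hL, hu⟩ := exists_maxfield hq x
  have hint : IsIntegral k x := Algebra.IsIntegral.isIntegral x
  set e := (minpoly k x).natDegree with he
  have he0 : 0 < e := minpoly.natDegree_pos hint
  have hle : e ≤ q := by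
    rw [he, ← hu, minpoly.algHom_eq j j.injective, ← hL]
    exact minpoly.natDegree_le u
  -- the norm of the root
  have h1 : nm k x ^ q = ‖c‖ := by
    have h2 := congrArg norm hx
    rw [norm_pow, hc] at h2
    exact h2
  have hcoe : (minpoly k x).coeff 0 ≠ 0 := by
    refine minpoly.coeff_zero_ne_zero hint ?_
    rintro rfl
    rw [zero_pow hq0.ne'] at hx
    exact hcne hx.symm
  have h3 : nm k x ^ e = ‖(minpoly k x).coeff 0‖ := by
    rw [nm_eq_coeff, ← he, ← Real.rpow_natCast, ← Real.rpow_mul (norm_nonneg _)]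
    have h4 : (1 / (e : ℝ)) * (e : ℝ) = 1 := by
      have : (e : ℝ) ≠ 0 := by exact_mod_cast he0.ne'
      field_simp
    rw [h4, Real.rpow_one]
  obtain ⟨t, ht⟩ := norm_eq_zpow hc0 hc1 hcm hcoe
  have h5 : ‖c‖ ^ (e : ℤ) = ‖c‖ ^ (t * q) := by
    rw [zpow_mul, ← ht, ← h3, zpow_natCast, zpow_natCast, ← h1, ← pow_mul, ← pow_mul, mul_comm]
  have hcp : 0 < ‖c‖ := norm_pos_iff.mpr hc0
  have h6 : (e : ℤ) = t * q := zpow_right_injective₀ hcp hc1.ne h5
  have h7 : (q : ℤ) ∣ e := ⟨t, by rw [h6, mul_comm]⟩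
  have h8 : q ∣ e := by exact_mod_cast h7
  exact le_antisymm hle (Nat.le_of_dvd he0 h8)

/-- A local division algebra is split by the roots of a uniformizer. -/
theorem spl_root {q : ℕ} (hq : finrank k E = q ^ 2) {c : k}
    (hc0 : c ≠ 0) (hc1 : ‖c‖ < 1) (hcm : ∀ y : k, ‖y‖ < 1 → ‖y‖ ≤ ‖c‖) {M : Type} [Field M]
    [Algebra k M] {θ : M} (hθ : θ ^ q = algebraMap k M c) : Spl E q (algebraMap k M) := by
  obtain ⟨x, hx, hdeg⟩ := exists_root hq hc0 hc1 hcm (E := E)
  have hq0 : 0 < q := deg_pos hq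
  have hint : IsIntegral k x := Algebra.IsIntegral.isIntegral x
  have h1 : minpoly k x ∣ X ^ q - C c := minpoly.dvd k x (by
    rw [map_sub, map_pow, aeval_X, aeval_C, hx, sub_self])
  have h2 : minpoly k x = X ^ q - C c :=
    (eq_of_monic_of_dvd_of_natDegree_le (minpoly.monic hint) (monic_X_pow_sub_C c hq0.ne') h1
      (by rw [natDegree_X_pow_sub_C, hdeg])).symm
  refine spl_of_root hq x hdeg θ ?_
  rw [h2, map_sub, map_pow, aeval_X, aeval_C, hθ, sub_self]

end final

/-- **The local step**: a central division algebra of degree `n` over `K` is split, over a local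
field containing `K`, by the `n`-th roots of a uniformizer. -/
theorem spl_step {K D F M : Type} [Field K] [DivisionRing D] [Algebra K D] [FiniteDimensional K D]
    [Algebra.IsCentral K D] {n : ℕ} (hD : finrank K D = n ^ 2) [NontriviallyNormedField F]
    [IsUltrametricDist F] [ProperSpace F] (ι : K →+* F) {c : F}
    (hc0 : c ≠ 0) (hc1 : ‖c‖ < 1) (hcm : ∀ y : F, ‖y‖ < 1 → ‖y‖ ≤ ‖c‖) [Field M] (φ : F →+* M)
    {θ : M} (hθ : θ ^ n = φ c) : Spl D n (φ.comp ι) := by
  let _ : Algebra K F := ι.toAlgebra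
  obtain ⟨r, q, Δ, _, _, _, _, hrq, hr0, hΔ, hiff⟩ := H505.Wang.exists_part hD F
  have h1 := (hiff M φ).mpr
  refine h1 ?_
  let _ : Algebra F M := φ.toAlgebra
  exact spl_root hΔ hc0 hc1 hcm (M := M) (θ := θ ^ r) (by rw [← pow_mul, hrq, hθ]; rfl)

end Vale.Agent.P011.H279.Sq
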