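import Vale.Agent.P011.H279.SqrtB

/-!
The square roots: the global construction.
-/

set_option linter.unusedSectionVars false

open Module Polynomial TensorProduct

namespace Vale.Agent.P011.H279.Sq

open Vale.Agent.P011.H738 Vale.Agent.P011.H271 Vale.Agent.P011.H305 Vale.Agent.P011.W
open Vale.Agent.P011.H63.FB (LSF)

variable {k K D : Type} [Field k] [Field K] [StarRing K] [DivisionRing D] [StarRing D]
  [Algebra k K] [Algebra k D] [Algebra K D] [IsScalarTower k K D] {d : kˣ} {s : K} {n : ℕ}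

/-- Some place is bad. -/
theorem bad_nonempty [GFF k] (hS : SetF k K D d s) (hn : 2 ≤ n) (hdeg : finrank K D = n ^ 2) :
    (Bad k K D n).Nonempty := by
  by_contra hcon
  rw [Set.not_nonempty_iff_eq_empty] at hcon
  have := hS.fin
  have := hS.cen
  have hfd : FiniteDimensional k K := Module.finite_of_finrank_pos (by rw [hS.rank]; norm_num)
  have : GFF K := Hey.H63.gff_of_finite (k := k)
  have h1 : Spl D n (algebraMap K K) := spl_of_local hdeg K fun W =>
    spl_place hS hdeg (c := 1) (by rw [hcon]; exact fun v hv => hv.elim) K (by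
      rintro W ⟨v, hv, -⟩
      rw [hcon] at hv
      exact hv.elim) W
  have h2 := H505.Wang.dvd_of_spl hdeg K h1
  rw [finrank_self, Nat.dvd_one] at h2
  omega

theorem d_mem_of_bad [GFF k] (hS : SetF k K D d s) {v : Place k} (hv : v ∈ Bad k K D n) :
    d ∈ LSF v := by
  obtain ⟨ι, -⟩ := hv
  exact ⟨ι s, by rw [← pow_two, ← map_pow, hS.sq, AlgHom.commutes]⟩

/-- **Roots in `D`.** If `c` is a uniformizer at the places of split type at which `D` does not
split, then `D` contains an `n`-th root of `c`. -/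
theorem exists_nth_root [GFF k] (hS : SetF k K D d s) (hn : n ≠ 0) (hdeg : finrank K D = n ^ 2)
    {c : k} (hc : ∀ v ∈ Bad k K D n, Uni v c) :
    ∃ y : D, y ^ n = algebraMap K D (algebraMap k K c) := by
  have := hS.fin
  have := hS.cen
  have hfd : FiniteDimensional k K := Module.finite_of_finrank_pos (by rw [hS.rank]; norm_num)
  have hP : (X ^ n - C (algebraMap k K c) : K[X]).natDegree ≠ 0 := by
    rw [natDegree_X_pow_sub_C]
    exact hn
  have hP0 : (X ^ n - C (algebraMap k K c) : K[X]) ≠ 0 := (monic_X_pow_sub_C _ hn).ne_zero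
  obtain ⟨f, hf, hfP⟩ := exists_irreducible_of_natDegree_ne_zero hP
  have : Fact (Irreducible f) := ⟨hf⟩
  have hfin : FiniteDimensional K (AdjoinRoot f) := (AdjoinRoot.powerBasis hf.ne_zero).finite
  have hrk : finrank K (AdjoinRoot f) = f.natDegree := by
    rw [(AdjoinRoot.powerBasis hf.ne_zero).finrank, AdjoinRoot.powerBasis_dim]
  have hle : f.natDegree ≤ n := by
    have h1 := natDegree_le_of_dvd hfP hP0
    rwa [natDegree_X_pow_sub_C] at h1
  have : FiniteDimensional k (AdjoinRoot f) := Module.Finite.trans K (AdjoinRoot f)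
  have : GFF (AdjoinRoot f) := Hey.H63.gff_of_finite (k := k)
  have hθ : (AdjoinRoot.root f) ^ n = algebraMap k (AdjoinRoot f) c := by
    have h1 : aeval (AdjoinRoot.root f) (X ^ n - C (algebraMap k K c) : K[X]) = 0 := by
      obtain ⟨g, hg⟩ := hfP
      rw [hg, map_mul]
      have h2 : aeval (AdjoinRoot.root f) f = 0 := by
        rw [AdjoinRoot.aeval_eq, AdjoinRoot.mk_self]
      rw [h2, zero_mul]
    rw [map_sub, map_pow, aeval_X, aeval_C, sub_eq_zero] at h1
    rw [h1, ← IsScalarTower.algebraMap_apply k K (AdjoinRoot f)]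
  have hspl : Spl D n (algebraMap K (AdjoinRoot f)) := spl_of_local hdeg _ fun W =>
    spl_place hS hdeg hc (AdjoinRoot f) (fun W _ => ⟨AdjoinRoot.root f, hθ⟩) W
  have h3 := H505.Wang.dvd_of_spl hdeg _ hspl
  have h4 : finrank K (AdjoinRoot f) = n := by
    refine le_antisymm (by rw [hrk]; exact hle) (Nat.le_of_dvd ?_ h3)
    rw [hrk]
    exact hf.natDegree_pos
  obtain ⟨j⟩ := embed_of_spl hdeg h4 hspl
  refine ⟨j (AdjoinRoot.root f), ?_⟩
  rw [← map_pow, hθ, IsScalarTower.algebraMap_apply k K (AdjoinRoot f), j.commutes]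

/-- **Square roots in `D` of elements of the fixed field**, with approximation at places of
nonsplit type. -/
theorem exists_sqrtF [GFF k] {m : ℕ} (hS : SetF k K D d s) (hdeg : finrank K D = (2 * m) ^ 2)
    (hm : 0 < m) (S : Finset (Place k)) (b : Place k → k) {ε : ℝ} (hε : 0 < ε) :
    ∃ (a : kˣ) (x : D), x * x = algebraMap K D (algebraMap k K (a : k)) ∧ ¬ IsSquare (a : k) ∧
      ¬ IsSquare ((a * d : kˣ) : k) ∧ ∀ v ∈ S, d ∉ LSF v → v.abv ((a : k) - b v) < ε := by
  classical
  have hn : 2 * m ≠ 0 := by omega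
  have hbf := bad_finite hS hn hdeg
  obtain ⟨v0, hv0⟩ := bad_nonempty hS (by omega) hdeg
  choose π hπ using fun v : Place k => exists_uni v
  obtain ⟨q, hq⟩ := H167.RhoF.exists_notMem (k := k) (hbf.toFinset ∪ S)
  obtain ⟨c, hc, -⟩ := H496.NumF.near_int_fam (S := ((hbf.toFinset ∪ S : Finset (Place k)) :
    Set (Place k))) (Finset.finite_toSet _) q (fun h => hq (Finset.mem_coe.mp h))
    (fun v => if v ∈ Bad k K D (2 * m) then π v else b v)
    (fun v => if v ∈ Bad k K D (2 * m) then v.abv (π v) else ε) (by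
      intro v _
      split_ifs
      · exact v.abv.pos (hπ v).1
      · exact hε)
  have hbad : ∀ v ∈ Bad k K D (2 * m), Uni v c := by
    intro v hv
    have h1 := hc v (by
      rw [Finset.coe_union, Set.mem_union, Finset.mem_coe, hbf.mem_toFinset]
      exact Or.inl hv)
    simp only [if_pos hv] at h1
    exact (hπ v).near h1
  have hc0 : c ≠ 0 := (hbad v0 hv0).1
  obtain ⟨y, hy⟩ := exists_nth_root hS hn hdeg hbad
  refine ⟨Units.mk0 c hc0, y ^ m, ?_, ?_, ?_, ?_⟩
  · rw [← pow_add, ← two_mul, hy, Units.val_mk0]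
  · rintro ⟨r, hr⟩
    rw [Units.val_mk0] at hr
    exact (hbad v0 hv0).not_sq ⟨algebraMap k v0.comp r, by rw [hr, map_mul]⟩
  · rintro ⟨r, hr⟩
    rw [Units.val_mul, Units.val_mk0] at hr
    obtain ⟨t, ht⟩ := d_mem_of_bad hS hv0
    have ht0 : algebraMap k v0.comp (d : k) ≠ 0 := (_root_.map_ne_zero _).mpr d.ne_zero
    refine (hbad v0 hv0).not_sq ⟨algebraMap k v0.comp r / t, ?_⟩
    have ht1 : t ≠ 0 := by
      rintro rfl
      rw [mul_zero] at ht
      exact ht0 ht
    have h1 := congrArg (algebraMap k v0.comp) hr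
    rw [map_mul, map_mul, ht] at h1
    field_simp
    linear_combination h1
  · intro v hv hdv
    have hnb : v ∉ Bad k K D (2 * m) := fun h => hdv (d_mem_of_bad hS h)
    have h1 := hc v (by
      rw [Finset.coe_union, Set.mem_union]
      exact Or.inr (Finset.mem_coe.mpr hv))
    simp only [if_neg hnb] at h1
    exact h1

end Vale.Agent.P011.H279.Sq
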