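import Vale.Agent.P011.H279.TnA
import Vale.Agent.P011.H775.M3b

/-!
# Convergence of scalars, for any field and any absolute value
-/

set_option linter.unusedSectionVars false

open Module Filter Topology

namespace Vale.Agent.P011.H279.TnA

open Vale.Agent.P011.H775
open Vale.Agent.P011.H182 (na na_zero na_nonneg na_smul na_add_le na_neg na_pos)

variable {k K D : Type} [Field k] [Field K] [DivisionRing D] [Algebra k K] [Algebra k D]
  [Algebra K D] [IsScalarTower k K D] {N : ℕ} {B : Basis (Fin N) k D} {q : AbsoluteValue k ℝ}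
  {X : Type} {l : Filter X}

/-- Convergence of scalars of `K`. -/
def TK (B : Basis (Fin N) k D) (q : AbsoluteValue k ℝ) (l : Filter X) (f : X → K) (c : K) :
    Prop := Tn B q l (fun x => f x • (1 : D)) (c • (1 : D))

namespace TK

theorem const (c : K) : TK B q l (fun _ => c) c := Tn.const _

theorem add {f h : X → K} {a b : K} (hf : TK B q l f a) (hh : TK B q l h b) :
    TK B q l (fun x => f x + h x) (a + b) := by
  have := Tn.add hf hh
  simpa only [TK, add_smul] using this

theorem neg {f : X → K} {a : K} (hf : TK B q l f a) : TK B q l (fun x => -f x) (-a) := by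
  have := Tn.neg hf
  simpa only [TK, neg_smul] using this

theorem sub {f h : X → K} {a b : K} (hf : TK B q l f a) (hh : TK B q l h b) :
    TK B q l (fun x => f x - h x) (a - b) := by
  have := Tn.sub hf hh
  simpa only [TK, sub_smul] using this

theorem mul {f h : X → K} {a b : K} (hf : TK B q l f a) (hh : TK B q l h b) :
    TK B q l (fun x => f x * h x) (a * b) := by
  have := Tn.mul hf hh
  simpa only [TK, smul_mul_smul_comm, mul_one] using this

theorem smul {f : X → K} {h : X → D} {a : K} {b : D} (hf : TK B q l f a) (hh : Tn B q l h b) :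
    Tn B q l (fun x => f x • h x) (a • b) := by
  have := Tn.mul hf hh
  simpa only [smul_mul_assoc, one_mul] using this

theorem inv {f : X → K} {a : K} (hf : TK B q l f a) (ha : a ≠ 0) :
    TK B q l (fun x => (f x)⁻¹) a⁻¹ := by
  have e : ∀ c : K, (c • (1 : D))⁻¹ = c⁻¹ • (1 : D) := by
    intro c
    by_cases hc : c = 0
    · rw [hc, inv_zero, zero_smul, inv_zero]
    · apply inv_eq_of_mul_eq_one_right
      rw [smul_mul_smul_comm, mul_one, mul_inv_cancel₀ hc, one_smul]
  have := Tn.inv hf (smul_ne_zero ha one_ne_zero)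
  simpa only [TK, e] using this

theorem div {f h : X → K} {a b : K} (hf : TK B q l f a) (hh : TK B q l h b) (hb : b ≠ 0) :
    TK B q l (fun x => f x / h x) (a / b) := by
  simpa only [div_eq_mul_inv] using hf.mul (hh.inv hb)

theorem ev_ne {f : X → K} {a b : K} (hf : TK B q l f a) (hab : a ≠ b) : ∀ᶠ x in l, f x ≠ b := by
  have := Tn.ev_ne (b := b • (1 : D)) hf (fun h => hab (by
    have h1 : (a - b) • (1 : D) = 0 := by rw [sub_smul, h, sub_self]
    exact sub_eq_zero.1 ((smul_eq_zero.1 h1).resolve_right one_ne_zero)))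
  filter_upwards [this] with x hx h
  exact hx (by rw [h])

theorem of_k {f : X → k} {c : k} (hf : Tendsto (fun x => q (f x - c)) l (𝓝 0)) :
    TK B q l (fun x => algebraMap k K (f x)) (algebraMap k K c) := by
  have := Tn.smul (B := B) hf (1 : D)
  simpa only [TK, algebraMap_smul] using this

end TK

/-- the reduced trace is continuous -/
theorem Tn.T (C : Cub K D) {f : X → D} {a : D} (hf : Tn B q l f a) :
    TK B q l (fun x => C.T (f x)) (C.T a) := by
  exact hf.linear
    { toFun := fun x => C.T x • (1 : D)
      map_add' := fun x y => by rw [map_add, add_smul]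
      map_smul' := fun c x => by
        rw [← algebraMap_smul K c x, map_smul, smul_eq_mul, mul_smul, algebraMap_smul,
          RingHom.id_apply] }

theorem S_eq (C : Cub K D) (h2 : (2 : K) ≠ 0) (x : D) :
    C.S x = (C.T x * C.T x - C.T (x * x)) / 2 := by
  have h3 := congrArg C.T (C.adj_eq x)
  rw [map_add, map_sub, map_smul, map_smul, C.T_one, smul_eq_mul, smul_eq_mul] at h3
  have h5 : C.T (C.adj x) = C.S x := rfl
  rw [h5] at h3
  rw [eq_div_iff h2]
  linear_combination -h3

theorem Tn.S (C : Cub K D) (h2 : (2 : K) ≠ 0) {f : X → D} {a : D} (hf : Tn B q l f a) :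
    TK B q l (fun x => C.S (f x)) (C.S a) := by
  simp only [S_eq C h2]
  exact (((hf.T C).mul (hf.T C)).sub ((hf.mul hf).T C)).div (TK.const 2) h2

theorem Tn.adj (C : Cub K D) (h2 : (2 : K) ≠ 0) {f : X → D} {a : D} (hf : Tn B q l f a) :
    Tn B q l (fun x => C.adj (f x)) (C.adj a) := by
  simp only [C.adj_eq]
  exact ((hf.mul hf).sub ((hf.T C).smul hf)).add ((hf.S C h2).smul (Tn.const 1))

theorem Tn.cr (C : Cub K D) (h2 : (2 : K) ≠ 0) {f h : X → D} {a b : D} (hf : Tn B q l f a)
    (hh : Tn B q l h b) : Tn B q l (fun x => C.cr (f x) (h x)) (C.cr a b) := by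
  have e : ∀ x y, C.cr x y = C.adj (x + y) - C.adj x - C.adj y := by
    intro x y
    rw [C.adj_add]
    abel
  simp only [e]
  exact (((hf.add hh).adj C h2).sub (hf.adj C h2)).sub (hh.adj C h2)

/-- the size of a scalar of `k` -/
theorem na_k (c : k) : na B q (algebraMap k K c • (1 : D)) = q c * na B q 1 := by
  rw [algebraMap_smul, na_smul]

end Vale.Agent.P011.H279.TnA
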