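import Vale.Agent.P011.H279.R2Base

/-!
Local representation by ternary forms, and the ternary form `⟨a, c, -a c⟩` over a global function
field.
-/

open Module

set_option linter.unusedSectionVars false
set_option linter.style.haveILetI false

namespace Vale.Agent.P011.H279.RB

open Vale.Agent.P011.H738 Vale.Agent.P011.H271 Vale.Agent.P011.H63.FB
open Vale.Agent.P011.Arith (NF)
open Vale.Agent.P011.H271.S3 (Ab below_unique)
open Vale.Agent.P011.H929.FF (QE om om_sq om_ne)

section loc

variable {F : Type} [Field F] [GFF F]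

/-- A locally nonsplit quaternion algebra represents every nonsquare `e`. -/
theorem local_splitF (h2 : (2 : F) ≠ 0) (v : Place F) (a b e : Fˣ) (he : e ∉ LSF v) :
    b ∈ NF a ⊔ LSF v ∨
      ∃ (x : F) (n l : Fˣ), n ∈ NF a ∧ l ∈ LSF v ∧ (e : F) - a * x ^ 2 = b * n * l := by
  by_cases hb : b ∈ NF a ⊔ LSF v
  · exact Or.inl hb
  right
  have ha : a ∉ LSF v := by
    intro h
    rw [sup_eq_top h2 h] at hb
    exact hb (Subgroup.mem_top _)
  have hidx := index_two h2 ha
  -- it suffices to find `x` with `e - a x ^ 2` not a local norm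
  suffices hx : ∃ (x : F) (u : Fˣ), (u : F) = e - a * x ^ 2 ∧ u ∉ NF a ⊔ LSF v by
    obtain ⟨x, u, hu, hun⟩ := hx
    have h1 : u / b ∈ NF a ⊔ LSF v := by
      have h2 : u * b ∈ NF a ⊔ LSF v := by
        rw [Subgroup.mul_mem_iff_of_index_two hidx]
        exact ⟨fun h => absurd h hun, fun h => absurd h hb⟩
      have h3 : (b ^ 2)⁻¹ ∈ NF a ⊔ LSF v :=
        inv_mem (Subgroup.mem_sup_left (sq_mem_NF a b))
      have h4 : u / b = u * b * (b ^ 2)⁻¹ := by
        rw [div_eq_mul_inv, pow_two, mul_inv, mul_assoc, ← mul_assoc b, mul_inv_cancel, one_mul]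
      rw [h4]
      exact mul_mem h2 h3
    obtain ⟨n, hn, l, hl, hnl⟩ := Subgroup.mem_sup.mp h1
    refine ⟨x, n, l, hn, hl, ?_⟩
    rw [← hu, mul_assoc, ← Units.val_mul, hnl, ← Units.val_mul, mul_div_cancel]
  by_contra hcon
  push Not at hcon
  set g : Fˣ := e / a with hg
  have hle : NF g ⊔ LSF v ≤ NF a ⊔ LSF v := by
    refine sup_le ?_ le_sup_right
    rintro t ⟨x, y, ht⟩
    by_cases hy : y = 0
    · have hx : x ≠ 0 := by
        rintro rfl
        rw [hy] at ht
        exact t.ne_zero (by rw [ht]; simp)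
      have : t = (Units.mk0 x hx) ^ 2 := Units.ext (by rw [ht, hy]; simp)
      rw [this]
      exact Subgroup.mem_sup_left (sq_mem_NF a _)
    · have hu : ((t * (-a) / (Units.mk0 y hy) ^ 2 : Fˣ) : F) = e - a * (x / y) ^ 2 := by
        rw [Units.val_div_eq_div_val, Units.val_mul, Units.val_neg, Units.val_pow_eq_pow_val,
          Units.val_mk0, ht, hg, Units.val_div_eq_div_val]
        have := a.ne_zero
        field_simp
        ring
      have h1 := hcon (x / y) _ hu
      have h2 : t = (t * (-a) / (Units.mk0 y hy) ^ 2) * (Units.mk0 y hy) ^ 2 / (-a) := by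
        rw [div_mul_cancel, mul_div_cancel_right]
      rw [h2]
      exact div_mem (mul_mem h1 (Subgroup.mem_sup_left (sq_mem_NF a _)))
        (Subgroup.mem_sup_left (neg_mem_NF a))
  have hgLS : g ∉ LSF v := by
    intro h
    rw [sup_eq_top h2 h] at hle
    exact hb (hle (Subgroup.mem_top _))
  have hidxg := index_two h2 hgLS
  have heq : NF g ⊔ LSF v = NF a ⊔ LSF v := by
    have h1 := Subgroup.relIndex_mul_index hle
    rw [hidx, hidxg] at h1
    have h2 : (NF g ⊔ LSF v).relIndex (NF a ⊔ LSF v) = 1 := by omega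
    exact le_antisymm hle (Subgroup.relIndex_eq_one.mp h2)
  have hall : ∀ t : Fˣ, e ∈ NF t ⊔ LSF v := by
    intro t
    have hag : e = a * g := by rw [hg, mul_div_cancel]
    have hiff : a ∈ NF t ⊔ LSF v ↔ g ∈ NF t ⊔ LSF v := by
      constructor
      · intro h
        have h1 := mem_symm h2 h
        rw [← heq] at h1
        exact mem_symm h2 h1
      · intro h
        have h1 := mem_symm h2 h
        rw [heq] at h1
        exact mem_symm h2 h1
    by_cases ht : t ∈ LSF v
    · rw [sup_eq_top h2 ht]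
      exact Subgroup.mem_top _
    · rw [hag, Subgroup.mul_mem_iff_of_index_two (index_two h2 ht)]
      exact hiff
  have hidxe := index_two h2 he
  have htop : NF e ⊔ LSF v = ⊤ := by
    rw [eq_top_iff]
    intro t _
    exact mem_symm h2 (hall t)
  rw [htop, Subgroup.index_top] at hidxe
  norm_num at hidxe

end loc

section tern

variable {F : Type} [Field F]

theorem norm_ne_zero_of {a : F} (ha : ¬ IsSquare a) {x y : F} (h : ¬ (x = 0 ∧ y = 0)) :
    x ^ 2 - a * y ^ 2 ≠ 0 := by
  intro h0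
  apply h
  by_cases hy : y = 0
  · subst hy
    refine ⟨?_, rfl⟩
    have : x ^ 2 = 0 := by linear_combination h0
    exact pow_eq_zero_iff two_ne_zero |>.mp this
  · exact absurd ⟨x / y, by field_simp; linear_combination -h0⟩ ha

/-- Reduction to the base field of a norm equation over a quadratic extension. -/
theorem descendF (h2 : (2 : F) ≠ 0) {a b e : F} {X Y : QE e}
    (h : algebraMap F (QE e) b = X ^ 2 - algebraMap F (QE e) a * Y ^ 2) :
    ∃ x1 x2 y1 y2 : F, b = (x1 ^ 2 - a * y1 ^ 2) + e * (x2 ^ 2 - a * y2 ^ 2) ∧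
      x1 * x2 = a * y1 * y2 := by
  have h3 := congrArg QuadraticAlgebra.re h
  have h4 := congrArg QuadraticAlgebra.im h
  simp only [pow_two, QuadraticAlgebra.re_sub, QuadraticAlgebra.im_sub, QuadraticAlgebra.re_mul,
    QuadraticAlgebra.im_mul, QuadraticAlgebra.algebraMap_re, QuadraticAlgebra.algebraMap_im] at h3 h4
  refine ⟨X.re, X.im, Y.re, Y.im, ?_, ?_⟩
  · linear_combination h3
  · have h5 : (2 : F) * (X.re * X.im - a * Y.re * Y.im) = 0 := by linear_combination -h4
    rcases mul_eq_zero.mp h5 with h | h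
    · exact absurd h h2
    · exact sub_eq_zero.mp h

/-- The ternary form represents the elements which are not squares at the places where it is
anisotropic. -/
theorem ternaryF [GFF F] (h2 : (2 : F) ≠ 0) {a : Fˣ} (ha : ¬ IsSquare (a : F)) (c e : Fˣ)
    (h : ∀ w : Place F, c ∉ NF a ⊔ LSF w → e ∉ LSF w) :
    ∃ y p q : F, (e : F) = a * y ^ 2 + c * (p ^ 2 - a * q ^ 2) ∧ p ^ 2 - a * q ^ 2 ≠ 0 := by
  -- the case of a norm
  have hsplit : c ∈ NF a → ∃ y p q : F, (e : F) = a * y ^ 2 + c * (p ^ 2 - a * q ^ 2) ∧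
      p ^ 2 - a * q ^ 2 ≠ 0 := by
    rintro ⟨x, x', hx⟩
    have ha0 := a.ne_zero
    obtain ⟨u, hu⟩ : ∃ u, u = (((e : F) - 1) / a - 1) / 2 := ⟨_, rfl⟩
    have hn : (1 : F) ^ 2 - a * u ^ 2 ≠ 0 := norm_ne_zero_of ha (by simp)
    have hcn : x ^ 2 - a * x' ^ 2 ≠ 0 := by rw [← hx]; exact c.ne_zero
    refine ⟨u + 1, (1 * x - a * u * x') / (x ^ 2 - a * x' ^ 2),
      (u * x - 1 * x') / (x ^ 2 - a * x' ^ 2), ?_, ?_⟩
    · have h1 : (c : F) * (((1 * x - a * u * x') / (x ^ 2 - a * x' ^ 2)) ^ 2 -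
          a * ((u * x - 1 * x') / (x ^ 2 - a * x' ^ 2)) ^ 2) = 1 - a * u ^ 2 := by
        rw [hx]
        field_simp
        ring
      rw [h1, hu]
      field_simp
      ring
    · have h1 : ((1 * x - a * u * x') / (x ^ 2 - a * x' ^ 2)) ^ 2 -
          a * ((u * x - 1 * x') / (x ^ 2 - a * x' ^ 2)) ^ 2 =
          (1 ^ 2 - a * u ^ 2) / (x ^ 2 - a * x' ^ 2) := by
        field_simp
        ring
      rw [h1]
      exact div_ne_zero hn hcn
  by_cases hcN : c ∈ NF a
  · exact hsplit hcN
  -- `e` is not a square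
  have hensq : ¬ IsSquare (e : F) := by
    intro hsq
    apply hcN
    refine hasse_normF h2 a c fun v => ?_
    by_contra hv
    exact h v hv (hsq.map (algebraMap F v.comp))
  haveI : Fact (∀ r : F, r ^ 2 ≠ (e : F) + 0 * r) := ⟨fun r hr => hensq ⟨r, by
    rw [zero_mul, add_zero, sq] at hr; exact hr.symm⟩⟩
  have hE : finrank F (QE (e : F)) = 2 := QuadraticAlgebra.finrank_eq_two _ _
  haveI : FiniteDimensional F (QE (e : F)) := Module.finite_of_finrank_pos (by rw [hE]; norm_num)
  haveI : GFF (QE (e : F)) := Hey.H63.gff_of_finite (k := F)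
  set E := QE (e : F) with hEdef
  have hθ : om (e : F) ^ 2 = algebraMap F E (e : F) := by rw [sq, om_sq]
  have hθ' : ∀ x : F, algebraMap F E x ≠ om (e : F) := om_ne
  have h2' : (2 : E) ≠ 0 := by
    rw [← map_ofNat (algebraMap F E) 2]
    exact (_root_.map_ne_zero _).mpr h2
  have hιv : ∀ u : Fˣ, ((incF F E u : Eˣ) : E) = algebraMap F E u := fun _ => rfl
  have key : incF F E c ∈ NF (incF F E a) := by
    refine hasse_normF h2' (incF F E a) (incF F E c) fun w => ?_
    obtain ⟨v, hv⟩ := Hey.H63.exists_below (k := F) w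
    by_cases hvS : c ∈ NF a ⊔ LSF v
    · exact sup_mapF h2 hv hvS
    · rcases local_splitF h2 v a c e (h v hvS) with h1 | ⟨y, n, l, hn, hl, h1⟩
      · exact absurd h1 hvS
      · have h3 : incF F E (c * n * l) ∈ NF (incF F E a) := by
          refine ⟨om (e : F), algebraMap F E y, ?_⟩
          rw [hιv, hθ, hιv]
          have h3 : ((c * n * l : Fˣ) : F) = (e : F) - a * y ^ 2 := by
            rw [h1]; push_cast; ring
          rw [h3]
          simp
        have h4 : incF F E c = incF F E (c * n * l) * (incF F E n)⁻¹ * (incF F E l)⁻¹ := by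
          rw [map_mul, map_mul, mul_right_comm (incF F E c * incF F E n) (incF F E l) (incF F E n)⁻¹,
            mul_inv_cancel_right, mul_inv_cancel_right]
        rw [h4]
        exact mul_mem (mul_mem (Subgroup.mem_sup_left h3)
          (inv_mem (Subgroup.mem_sup_left (NF_map hn))))
          (inv_mem (Subgroup.mem_sup_right (LSF_map h2 hv hl)))
  obtain ⟨X, Y, hXY⟩ := key
  obtain ⟨x1, x2, y1, y2, h1, h3⟩ :=
    descendF (a := (a : F)) (b := (c : F)) h2 hXY
  by_cases hn : x2 = 0 ∧ y2 = 0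
  · refine absurd ⟨x1, y1, ?_⟩ hcN
    rw [h1, hn.1, hn.2]
    ring
  have hn' := norm_ne_zero_of ha hn
  refine ⟨(y1 * x2 - x1 * y2) / (x2 ^ 2 - a * y2 ^ 2), x2 / (x2 ^ 2 - a * y2 ^ 2),
    y2 / (x2 ^ 2 - a * y2 ^ 2), ?_, ?_⟩
  · field_simp
    rw [h1]
    linear_combination (-(x1 * x2) + a * y1 * y2) * h3
  · have h4 : (x2 / (x2 ^ 2 - a * y2 ^ 2)) ^ 2 - a * (y2 / (x2 ^ 2 - a * y2 ^ 2)) ^ 2 =
        1 / (x2 ^ 2 - a * y2 ^ 2) := by
      field_simp
    rw [h4]
    exact one_div_ne_zero hn'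

end tern

end Vale.Agent.P011.H279.RB
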