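import Vale.Agent.P011.H279.NdF
import Vale.Agent.P011.H167.RhoFC

/-!
# The isotropic element `r` near local data, over function fields

(Twin of `H321/WaR.lean` and `H321/WaR2.lean`.)
-/

set_option linter.unusedSectionVars false

open Module QuadraticMap

namespace Vale.Agent.P011.H279.WaRF

open Vale.Agent.P011.H738 Vale.Agent.P011.H271 Vale.Agent.P011.H775 Vale.Agent.P011.H948
open Vale.Agent.P011.H305 Vale.Agent.P011.H279.Asm Vale.Agent.P011.H279.V0F
open Vale.Agent.P011.H182 (na na_nonneg na_sum_le na_smul)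

section alg

variable {k V : Type} [Field k] [AddCommGroup V] [Module k V] [FiniteDimensional k V]

/-- In a non-degenerate quadratic space of dimension at least three a non-zero isotropic vector
is orthogonal to an anisotropic one. -/
theorem exists_orth_of_nondeg (Q : QuadraticForm k V)
    (hnd : ∀ x : V, x ≠ 0 → ∃ y, polar Q x y ≠ 0) (hV : 3 ≤ finrank k V) {p : V} (hp0 : p ≠ 0) :
    ∃ y, polar Q p y = 0 ∧ Q y ≠ 0 := by
  by_contra hcon
  push Not at hcon
  set b : V →ₗ[k] k := (QuadraticMap.polarBilin Q p) with hb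
  have hbv : ∀ y, b y = polar Q p y := fun _ => rfl
  -- an element of the orthogonal complement outside the line
  obtain ⟨y, hy, hyl⟩ : ∃ y, polar Q p y = 0 ∧ ∀ c : k, y ≠ c • p := by
    by_contra hall
    push Not at hall
    have h1 : LinearMap.ker b ≤ k ∙ p := by
      intro y hy
      obtain ⟨c, hc⟩ := hall y (by rw [← hbv]; exact hy)
      rw [hc]
      exact Submodule.smul_mem _ _ (Submodule.mem_span_singleton_self p)
    have h3 : finrank k (LinearMap.ker b) ≤ 1 :=
      (Submodule.finrank_mono h1).trans (finrank_span_singleton hp0).le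
    have h4 := LinearMap.finrank_range_add_finrank_ker b
    have h5 : finrank k (LinearMap.range b) ≤ 1 := by
      have := Submodule.finrank_le (LinearMap.range b)
      rwa [finrank_self] at this
    omega
  -- everything orthogonal to `p` is orthogonal to `y`
  have h6 : ∀ y', polar Q p y' = 0 → polar Q y y' = 0 := by
    intro y' hy'
    have e1 := hcon y hy
    have e2 := hcon y' hy'
    have e3 := hcon (y + y') (by rw [polar_add_right, hy, hy', add_zero])
    rw [polar, e1, e2, e3]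
    simp
  obtain ⟨z, hz⟩ := hnd p hp0
  set c : k := polar Q y z / polar Q p z with hc
  have h7 : y - c • p ≠ 0 := fun h => hyl c (sub_eq_zero.mp h)
  obtain ⟨t, ht⟩ := hnd _ h7
  apply ht
  have h8 : polar Q p (t - (polar Q p t / polar Q p z) • z) = 0 := by
    rw [polar_sub_right, polar_smul_right, smul_eq_mul, div_mul_cancel₀ _ hz, sub_self]
  have h9 := h6 _ h8
  rw [polar_sub_right, polar_smul_right, smul_eq_mul] at h9
  rw [polar_sub_left, polar_smul_left, smul_eq_mul, hc]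
  field_simp at h9 ⊢
  linear_combination h9

end alg

variable {k : Type} [Field k]

variable {V D : Type} [AddCommGroup V] [Module k V] [DivisionRing D] [Algebra k D] {N : ℕ}
  (BD : Basis (Fin N) k D)

/-- Small coordinates give small elements. -/
theorem exists_thr {ι : Type} [Fintype ι] (B : Basis ι k V) (L : V →ₗ[k] D)
    (v : Place k) {ε : ℝ} (hε : 0 < ε) :
    ∃ γ : ℝ, 0 < γ ∧ ∀ x : V, (∀ i, v.abv (B.repr x i) < γ) →
      na BD v.abv (L x) < ε := by
  classical
  set M : ℝ := ∑ i, na BD v.abv (L (B i)) with hM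
  have hM0 : 0 ≤ M := Finset.sum_nonneg fun _ _ => na_nonneg _ _ _
  refine ⟨ε / (M + 1), by positivity, fun x hx => ?_⟩
  have e1 : L x = ∑ i, B.repr x i • L (B i) := by
    conv_lhs => rw [← B.sum_repr x, map_sum]
    simp only [map_smul]
  have h2 : na BD v.abv (L x) ≤ ε / (M + 1) * M := by
    rw [e1]
    refine (na_sum_le _ _ _ _).trans ?_
    rw [hM, Finset.mul_sum]
    refine Finset.sum_le_sum fun i _ => ?_
    rw [na_smul]
    exact mul_le_mul_of_nonneg_right (hx i).le (na_nonneg _ _ _)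
  refine h2.trans_lt ?_
  rw [div_mul_eq_mul_div, div_lt_iff₀ (by positivity)]
  nlinarith

/-- **Weak approximation on a non-degenerate quadric**, with the closeness measured in an
algebra. -/
theorem exists_zero_na [GFF k] [FiniteDimensional k V] (Q : QuadraticForm k V) (L : V →ₗ[k] D)
    (hnd : ∀ x : V, x ≠ 0 → ∃ y, polar Q x y ≠ 0) (hV : 3 ≤ finrank k V) {p : V} (hp0 : p ≠ 0)
    (hp : Q p = 0) {T : Set (Place k)} (hT : T.Finite)
    (z y : Place k → V) (hP : ∀ v ∈ T, polar Q (z v) (y v) ≠ 0)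
    (hN : ∀ v ∈ T, v.abv (Q (z v) * Q (y v)) < v.abv (polar Q (z v) (y v)) ^ 2)
    (ε : Place k → ℝ) (hε : ∀ v ∈ T, 0 < ε v) :
    ∃ ρ : V, ρ ≠ 0 ∧ Q ρ = 0 ∧ ∀ v ∈ T, ∃ s : k,
      v.abv s ≤ v.abv (Q (z v) / polar Q (z v) (y v)) ∧
      na BD v.abv (L (ρ - z v - s • y v)) < ε v := by
  classical
  set B := finBasis k V with hB
  obtain ⟨i, hi⟩ : ∃ i, B.repr p i ≠ 0 := by
    by_contra hcon
    push Not at hcon
    apply hp0
    apply B.repr.injective
    rw [map_zero]
    ext i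
    exact hcon i
  have h1 : ∀ v : Place k, ∃ γ : ℝ, 0 < γ ∧ (v ∈ T → ∀ x : V,
      (∀ i, v.abv (B.repr x i) < γ) → na BD v.abv (L x) < ε v) := by
    intro v
    by_cases hv : v ∈ T
    · obtain ⟨γ, hγ, h⟩ := exists_thr BD B L v (hε v hv)
      exact ⟨γ, hγ, fun _ => h⟩
    · exact ⟨1, one_pos, fun h => absurd h hv⟩
  choose γ hγ hγT using h1
  obtain ⟨ρ, hρ, hρT, hρi⟩ := H167.RhoF.exists_zero_near Q B hp (hnd p hp0)
    (exists_orth_of_nondeg Q hnd hV hp0) hT.toFinset z y
    (fun v hv => hP v (hT.mem_toFinset.mp hv)) (fun v hv => hN v (hT.mem_toFinset.mp hv)) γ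
    (fun v _ => hγ v) (MvPolynomial.X i) hp (hnd p hp0) (by rw [MvPolynomial.eval_X]; exact hi)
  refine ⟨ρ, ?_, hρ, fun v hv => ?_⟩
  · rintro rfl
    apply hρi
    rw [MvPolynomial.eval_X, map_zero]
    rfl
  · obtain ⟨s, hs, h⟩ := hρT v (hT.mem_toFinset.mpr hv)
    exact ⟨s, hs, hγT v hv _ h⟩

section final

variable {k K D : Type} [Field k] [Field K] [StarRing K] [DivisionRing D] [StarRing D]
  [Algebra k K] [Algebra k D] [Algebra K D] [IsScalarTower k K D] {d : kˣ} {s : K} {N : ℕ}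

/-- The form `qV` is non-degenerate. -/
theorem qV_nondeg (hS : SetF k K D d s) (h3 : (3 : k) ≠ 0) (hdeg : finrank K D = 3 ^ 2)
    (C : Cub K D) {g : D} (hg : star g = g) (hgc : ∀ c : K, g ≠ c • (1 : D)) (r : V0 hS C g)
    (hr : r ≠ 0) : ∃ r', polar (qV hS C g) r r' ≠ 0 := by
  obtain ⟨r', h1, h2, h3, h4, h5⟩ := NdF.nondeg hS h3 hdeg C hg hgc r.2.1
    (fun h0 => hr (Subtype.ext h0)) r.2.2.1 r.2.2.2.1 r.2.2.2.2
  refine ⟨⟨r', h1, h2, h3, h4⟩, fun h0 => h5 ?_⟩
  have h6 := qV_polar_eq hS hdeg C hg r ⟨r', h1, h2, h3, h4⟩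
  rw [h0, map_zero] at h6
  exact h6.symm

/-- `Val` in terms of the quadratic form. -/
theorem qV_of_val (hS : SetF k K D d s) (hdeg : finrank K D = 3 ^ 2) (C : Cub K D) {g r : D}
    (hg : star g = g) {c : k} (h : Val C g r c) :
    qV hS C g ⟨r, h.1, h.2.1, h.2.2.1, h.2.2.2.1⟩ = c := by
  apply (algebraMap k K).injective
  rw [qV_apply hS hdeg C hg]
  exact h.2.2.2.2

/-- **The isotropic element `r` near local data.** -/
theorem f2 [GFF k] (hS : SetF k K D d s) (h3 : (3 : k) ≠ 0) (hdeg : finrank K D = 3 ^ 2)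
    (C : Cub K D) (B : Basis (Fin N) k D) : F2Stmt C B := by
  classical
  intro g hg _ hgc T hT z z' a b t hz hz' hzz ht hN γ hγ
  have hfd : FiniteDimensional k D := finite_kD hS
  obtain ⟨p, hp0, hp⟩ := exists_r hS hdeg C hg
  have h0 : Val C g (0 : D) (0 : k) :=
    ⟨star_zero D, map_zero _, by rw [mul_zero, map_zero], by rw [mul_zero, map_zero],
      by rw [C.adj_zero, mul_zero, map_zero, map_zero]⟩
  let Z : Place k → V0 hS C g := fun v =>
    if h : v ∈ T then ⟨z v, (hz v h).1, (hz v h).2.1, (hz v h).2.2.1, (hz v h).2.2.2.1⟩ else 0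
  let Z' : Place k → V0 hS C g := fun v =>
    if h : v ∈ T then ⟨z' v, (hz' v h).1, (hz' v h).2.1, (hz' v h).2.2.1, (hz' v h).2.2.2.1⟩ else 0
  have hZ : ∀ v ∈ T, qV hS C g (Z v) = a v ∧ (Z v : D) = z v := fun v hv => by
    simp only [Z, dif_pos hv]
    exact ⟨qV_of_val hS hdeg C hg (hz v hv), trivial⟩
  have hZ' : ∀ v ∈ T, qV hS C g (Z' v) = b v ∧ (Z' v : D) = z' v := fun v hv => by
    simp only [Z', dif_pos hv]
    exact ⟨qV_of_val hS hdeg C hg (hz' v hv), trivial⟩
  have hZZ : ∀ v ∈ T, polar (qV hS C g) (Z v) (Z' v) = t v - a v - b v := fun v hv => by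
    rw [polar, (hZ v hv).1, (hZ' v hv).1]
    have h1 : qV hS C g (Z v + Z' v) = t v := by
      have h2 := qV_of_val hS hdeg C hg (hzz v hv)
      rw [← h2]
      congr 1
      apply Subtype.ext
      rw [Submodule.coe_add, (hZ v hv).2, (hZ' v hv).2]
    rw [h1]
  obtain ⟨ρ, hρ0, hρ, h⟩ := exists_zero_na B (qV hS C g) (V0 hS C g).subtype
    (qV_nondeg hS h3 hdeg C hg hgc) ((by norm_num : 3 ≤ 6).trans (finrank_V0 hS hdeg C hg))
    hp0 hp hT Z Z' (fun v hv => by rw [hZZ v hv]; exact ht v hv)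
    (fun v hv => by rw [hZZ v hv, (hZ v hv).1, (hZ' v hv).1]; exact hN v hv) γ hγ
  refine ⟨ρ, fun h0 => hρ0 (Subtype.ext h0), ⟨ρ.2.1, ρ.2.2.1, ρ.2.2.2.1, ρ.2.2.2.2, ?_⟩,
    fun v hv => ?_⟩
  · rw [← qV_apply hS hdeg C hg, hρ]
  · obtain ⟨c, hc, h'⟩ := h v hv
    refine ⟨c, ?_, ?_⟩
    · rw [hZZ v hv, (hZ v hv).1] at hc
      exact hc
    · rw [map_sub, map_sub, map_smul] at h'
      change na B v.abv ((ρ : D) - (Z v : D) - c • (Z' v : D)) < γ v at h'
      rwa [(hZ v hv).2, (hZ' v hv).2] at h'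

end final

end Vale.Agent.P011.H279.WaRF
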