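import Vale.Agent.P011.H279.NoRootN
import Vale.Agent.P011.H511.MatF
import Vale.Agent.P011.H308.C2.Sym
import Vale.Agent.P011.H756.Herm

/-!
Artin-Schreier elements at a nonsplit place of a function field of characteristic two: the class
of the reduced norm of a symmetric element `g` with `g * Y = star Y * g`.
-/

open Module Matrix TensorProduct

set_option linter.unusedSectionVars false

namespace Vale.Agent.P011.H279.X2

open Vale.Agent.P011.H738 Vale.Agent.P011.H271 Vale.Agent.P011.W Vale.Agent.P011.H279.Sq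
open Vale.Agent.P011.H279.Art
open Vale.Agent.P011.H961 (SetG)
open Vale.Agent.P011.H511.SX (proj_conj herm_conj)

section lin

variable {L : Type} [Field L]

/-- Idempotent matrices which are conjugate to their complements are conjugate. -/
theorem conj_idem {n : ℕ} {y z : Matrix (Fin n) (Fin n) L} (hy : y * y = y) (hz : z * z = z)
    (ty : ∃ a a' : Matrix (Fin n) (Fin n) L, a * a' = 1 ∧ a' * a = 1 ∧ a * y = (1 - y) * a)
    (tz : ∃ a a' : Matrix (Fin n) (Fin n) L, a * a' = 1 ∧ a' * a = 1 ∧ a * z = (1 - z) * a) :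
    ∃ P : Matrix (Fin n) (Fin n) L, IsUnit P ∧ P * y = z * P := by
  have hidem : ∀ w : Matrix (Fin n) (Fin n) L, w * w = w →
      IsIdempotentElem (Matrix.toLin' w) := by
    intro w hw
    have h2 := Matrix.toLin'_mul w w
    rw [hw] at h2
    exact h2.symm
  have hrk : ∀ w : Matrix (Fin n) (Fin n) L, w * w = w →
      (∃ a a' : Matrix (Fin n) (Fin n) L, a * a' = 1 ∧ a' * a = 1 ∧ a * w = (1 - w) * a) →
      2 * finrank L (LinearMap.range (Matrix.toLin' w)) = n := by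
    intro w hw ⟨a, a', haa', ha'a, haw⟩
    have hk := (Matrix.toLin' w).finrank_range_add_finrank_ker
    rw [finrank_fin_fun] at hk
    have hinj : Function.Injective (Matrix.toLin' a) := by
      intro x y hxy
      rw [Matrix.toLin'_apply, Matrix.toLin'_apply] at hxy
      have h1 := congrArg (fun z => a' *ᵥ z) hxy
      simpa only [Matrix.mulVec_mulVec, ha'a, Matrix.one_mulVec] using h1
    have hmap : Submodule.map (Matrix.toLin' a) (LinearMap.range (Matrix.toLin' w)) =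
        LinearMap.ker (Matrix.toLin' w) := by
      have hwa : w * a = a * (1 - w) := by
        rw [mul_sub, mul_one, haw, sub_mul, one_mul, sub_sub_cancel]
      ext x
      constructor
      · rintro ⟨y, ⟨z, rfl⟩, rfl⟩
        rw [LinearMap.mem_ker]
        simp only [Matrix.toLin'_apply]
        have e0 : w * (a * w) = 0 := by
          rw [← mul_assoc, hwa, mul_assoc, sub_mul, one_mul, hw, sub_self, mul_zero]
        rw [Matrix.mulVec_mulVec, Matrix.mulVec_mulVec]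
        first
          | rw [e0, Matrix.zero_mulVec]
          | rw [mul_assoc, e0, Matrix.zero_mulVec]
      · intro hx
        rw [LinearMap.mem_ker, Matrix.toLin'_apply] at hx
        have hx1 : w *ᵥ (a' *ᵥ x) = a' *ᵥ x := by
          have h1 : a *ᵥ (w *ᵥ (a' *ᵥ x)) = a *ᵥ (a' *ᵥ x) := by
            rw [Matrix.mulVec_mulVec, haw, ← Matrix.mulVec_mulVec, Matrix.mulVec_mulVec _ a,
              haa', Matrix.one_mulVec, Matrix.sub_mulVec, Matrix.one_mulVec, hx, sub_zero]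
          apply hinj
          rw [Matrix.toLin'_apply, Matrix.toLin'_apply]
          exact h1
        refine ⟨a' *ᵥ x, ⟨a' *ᵥ x, ?_⟩, ?_⟩
        · rw [Matrix.toLin'_apply]
          exact hx1
        · rw [Matrix.toLin'_apply, Matrix.mulVec_mulVec, haa', Matrix.one_mulVec]
    have hfr : finrank L (LinearMap.ker (Matrix.toLin' w)) =
        finrank L (LinearMap.range (Matrix.toLin' w)) := by
      rw [← hmap]
      exact (LinearEquiv.finrank_eq (Submodule.equivMapOfInjective _ hinj _)).symm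
    omega
  obtain ⟨φ, hφ⟩ := proj_conj (hidem y hy) (hidem z hz) (by
    have h1 := hrk y hy ty
    have h2 := hrk z hz tz
    omega)
  obtain ⟨P, hP⟩ : ∃ P, P = LinearMap.toMatrix' (φ : (Fin n → L) →ₗ[L] (Fin n → L)) := ⟨_, rfl⟩
  have hPv : ∀ x, P *ᵥ x = φ x := by
    intro x
    rw [hP, LinearMap.toMatrix'_mulVec]
    rfl
  refine ⟨P, ?_, ?_⟩
  · rw [hP, LinearMap.isUnit_toMatrix'_iff, Module.End.isUnit_iff]
    exact φ.bijective
  · apply Matrix.toLin'.injective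
    refine LinearMap.ext fun x => ?_
    rw [Matrix.toLin'_apply, Matrix.toLin'_apply, ← Matrix.mulVec_mulVec, hPv,
      ← Matrix.mulVec_mulVec, hPv x]
    have := hφ x
    rw [Matrix.toLin'_apply, Matrix.toLin'_apply] at this
    exact this

/-- The determinants of two hermitian matrices with lagrangian idempotents. -/
theorem det_class_idem [StarRing L] {n : ℕ} {x₁ x₂ H₁ H₂ : Matrix (Fin n) (Fin n) L}
    (q₁ : x₁ * x₁ = x₁) (q₂ : x₂ * x₂ = x₂)
    (t₁ : ∃ a a' : Matrix (Fin n) (Fin n) L, a * a' = 1 ∧ a' * a = 1 ∧ a * x₁ = (1 - x₁) * a)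
    (t₂ : ∃ a a' : Matrix (Fin n) (Fin n) L, a * a' = 1 ∧ a' * a = 1 ∧ a * x₂ = (1 - x₂) * a)
    (hs₁ : H₁ᴴ = H₁) (hs₂ : H₂ᴴ = H₂)
    (r₁ : H₁ * x₁ = (1 - x₁ᴴ) * H₁) (r₂ : H₂ * x₂ = (1 - x₂ᴴ) * H₂) (hu : IsUnit H₂) :
    ∃ p : L, H₁.det = p * star p * H₂.det := by
  obtain ⟨P, hP, hPx⟩ := conj_idem q₁ q₂ t₁ t₂
  have hK : Pᴴ * H₂ * P * x₁ = (1 - x₁ᴴ) * (Pᴴ * H₂ * P) := by
    have e1 : x₁ᴴ * Pᴴ = Pᴴ * x₂ᴴ := by
      rw [← Matrix.conjTranspose_mul, hPx, Matrix.conjTranspose_mul]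
    calc Pᴴ * H₂ * P * x₁ = Pᴴ * (H₂ * x₂) * P := by
          rw [mul_assoc, hPx]; simp only [mul_assoc]
      _ = (Pᴴ - Pᴴ * x₂ᴴ) * H₂ * P := by
          rw [r₂, ← mul_assoc Pᴴ, mul_sub, mul_one]
      _ = _ := by rw [← e1, sub_mul, sub_mul, sub_mul, one_mul]; simp only [mul_assoc]
  have hsK : (Pᴴ * H₂ * P)ᴴ = Pᴴ * H₂ * P := by
    rw [Matrix.conjTranspose_mul, Matrix.conjTranspose_mul, Matrix.conjTranspose_conjTranspose,
      hs₂, mul_assoc]
  have huK : IsUnit (Pᴴ * H₂ * P) := by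
    refine (IsUnit.mul ?_ hu).mul hP
    exact hP.star
  have hee : x₁ᴴ * x₁ᴴ = x₁ᴴ := by rw [← Matrix.conjTranspose_mul, q₁]
  obtain ⟨t, ht⟩ := herm_conj hee hs₁ hsK (by rw [Matrix.conjTranspose_conjTranspose, r₁])
    (by rw [Matrix.conjTranspose_conjTranspose, hK]) huK
  refine ⟨t.det * star P.det, ?_⟩
  rw [ht, Matrix.det_mul, Matrix.det_mul, Matrix.det_mul, Matrix.det_mul,
    Matrix.det_conjTranspose, Matrix.det_conjTranspose, star_mul', star_star]
  ring

/-- The determinants of two hermitian matrices with `H y = yᴴ H`, in characteristic two. -/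
theorem det_class2 [StarRing L] (h2 : (2 : L) = 0) {n : ℕ} {δ₁ δ₂ : L} (hδ₁ : star δ₁ = δ₁ + 1)
    (hδ₂ : star δ₂ = δ₂ + 1) {y₁ y₂ H₁ H₂ : Matrix (Fin n) (Fin n) L}
    (hy₁ : y₁ * y₁ + y₁ = algebraMap L _ (δ₁ * δ₁ + δ₁))
    (hy₂ : y₂ * y₂ + y₂ = algebraMap L _ (δ₂ * δ₂ + δ₂))
    (ty₁ : ∃ a a' : Matrix (Fin n) (Fin n) L, a * a' = 1 ∧ a' * a = 1 ∧ a * y₁ = (y₁ + 1) * a)
    (ty₂ : ∃ a a' : Matrix (Fin n) (Fin n) L, a * a' = 1 ∧ a' * a = 1 ∧ a * y₂ = (y₂ + 1) * a)
    (hs₁ : H₁ᴴ = H₁) (hs₂ : H₂ᴴ = H₂)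
    (hH₁ : H₁ * y₁ = y₁ᴴ * H₁) (hH₂ : H₂ * y₂ = y₂ᴴ * H₂) (hu : IsUnit H₂) :
    ∃ p : L, H₁.det = p * star p * H₂.det := by
  have h2M : (2 : Matrix (Fin n) (Fin n) L) = 0 := by
    rw [← map_ofNat (algebraMap L (Matrix (Fin n) (Fin n) L)) 2, h2, map_zero]
  have key : ∀ {δ : L} {y H : Matrix (Fin n) (Fin n) L}, star δ = δ + 1 →
      y * y + y = algebraMap L _ (δ * δ + δ) →
      (∃ a a' : Matrix (Fin n) (Fin n) L, a * a' = 1 ∧ a' * a = 1 ∧ a * y = (y + 1) * a) →
      H * y = yᴴ * H →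
      (y + algebraMap L _ δ) * (y + algebraMap L _ δ) = y + algebraMap L _ δ ∧
      (∃ a a' : Matrix (Fin n) (Fin n) L, a * a' = 1 ∧ a' * a = 1 ∧
        a * (y + algebraMap L _ δ) = (1 - (y + algebraMap L _ δ)) * a) ∧
      H * (y + algebraMap L _ δ) = (1 - (y + algebraMap L _ δ)ᴴ) * H := by
    intro δ y H hδ hy ⟨a, a', h1, h2', h3⟩ hH
    obtain ⟨A, hA⟩ : ∃ A : Matrix (Fin n) (Fin n) L, A = algebraMap L _ δ := ⟨_, rfl⟩
    have hAA : A * A + A = y * y + y := by rw [hy, hA, ← map_mul, ← map_add]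
    have hAc : ∀ z, A * z = z * A := fun z => by rw [hA]; exact Algebra.commutes _ _
    have hAs : Aᴴ = A + 1 := by
      rw [hA, Matrix.algebraMap_eq_diagonal, Matrix.diagonal_conjTranspose]
      rw [← Matrix.diagonal_one, Matrix.diagonal_add]
      congr 1
      funext i
      exact hδ
    have hneg : ∀ z : Matrix (Fin n) (Fin n) L, -z = z := by
      intro z
      have : -z = z - 2 * z := by noncomm_ring
      rw [this, h2M, zero_mul, sub_zero]
    rw [← hA]
    refine ⟨?_, ⟨a, a', h1, h2', ?_⟩, ?_⟩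
    · have e : (y + A) * (y + A) = (y * y + y) + (A * A + A) + (y * A + A * y) - (y + A) := by
        noncomm_ring
      rw [e, hAA, hAc y, ← two_mul, ← two_mul, h2M, zero_mul, zero_mul, zero_add, zero_sub, hneg]
    · rw [mul_add, h3, ← hAc a]
      have e : (1 - (y + A)) * a = (y + 1) * a + A * a - 2 * ((y + A) * a) := by noncomm_ring
      rw [e, h2M, zero_mul, sub_zero]
    · rw [Matrix.conjTranspose_add, hAs, mul_add, hH, ← hAc H]
      have e : (1 - (yᴴ + (A + 1))) * H = -(yᴴ * H + A * H) := by noncomm_ring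
      rw [e, hneg]
  obtain ⟨a1, b1, c1⟩ := key hδ₁ hy₁ ty₁ hH₁
  obtain ⟨a2, b2, c2⟩ := key hδ₂ hy₂ ty₂ hH₂
  exact det_class_idem a1 a2 b1 b2 hs₁ hs₂ c1 c2 hu

end lin

section det

variable {k K D : Type} [Field k] [Field K] [StarRing K] [DivisionRing D] [StarRing D]
  [Algebra k K] [Algebra k D] [Algebra K D] [IsScalarTower k K D] {n : ℕ}

/-- Reduced norms in a model. -/
theorem det_modelG (hS : SetG k K D) (hdeg : finrank K D = n ^ 2) {Ω : Type} [Field Ω]
    [Algebra K Ω] (f : D →ₐ[K] Matrix (Fin n) (Fin n) Ω) {L : Type} [Field L] (φ : K →+* L)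
    (g : D →+* Matrix (Fin n) (Fin n) L) (hg : ∀ c : K, g (algebraMap K D c) = algebraMap L _ (φ c))
    {x : D} {c : K} (h : (f x).det = algebraMap K Ω c) : (g x).det = φ c := by
  have := hS.fin
  have := hS.cen
  have hn0 : 0 < n := deg_pos hdeg
  let _ : Algebra K L := φ.toAlgebra
  let g' : D →ₐ[K] Matrix (Fin n) (Fin n) L := { g with commutes' := fun c => hg c }
  exact H268.det_compare hn0 hdeg f g' x h

theorem star_algKD (hS : SetG k K D) (c : K) :
    star (algebraMap K D c) = algebraMap K D (star c) := hS.star_algebraMapD c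

/-- The reduced norm of a symmetric element. -/
theorem exists_nrdG (hS : SetG k K D) (hdeg : finrank K D = n ^ 2) {Ω : Type} [Field Ω]
    [Algebra K Ω] (f : D →ₐ[K] Matrix (Fin n) (Fin n) Ω) {x : D} (hx : star x = x) (hx0 : x ≠ 0) :
    ∃ ν : k, ν ≠ 0 ∧ (f x).det = algebraMap K Ω (algebraMap k K ν) := by
  have := hS.fin
  have := hS.cen
  have hn0 : 0 < n := deg_pos hdeg
  obtain ⟨ν, hν⟩ := H268.exists_nrd hn0 hdeg f x
  obtain ⟨c, rfl⟩ := (hS.fix ν).mp (H268.star_nrd hn0 hdeg (star_algKD hS) f hx hν)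
  refine ⟨c, ?_, hν⟩
  rintro rfl
  rw [map_zero, map_zero] at hν
  have h1 : f x * f x⁻¹ = 1 := by rw [← map_mul, mul_inv_cancel₀ hx0, map_one]
  have h2 := congrArg Matrix.det h1
  rw [Matrix.det_mul, hν, zero_mul, Matrix.det_one] at h2
  exact zero_ne_one h2

end det

end Vale.Agent.P011.H279.X2
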