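import Vale.Agent.P011.H279.X2A

/-!
Artin-Schreier elements and symmetric elements in characteristic two: the class of the reduced norm
of `g` with `g * Y = star Y * g` at almost all nonsplit places.
-/

open Module Matrix TensorProduct

set_option linter.unusedSectionVars false

namespace Vale.Agent.P011.H279.X2

open Vale.Agent.P011.H738 Vale.Agent.P011.H271 Vale.Agent.P011.W Vale.Agent.P011.H279.Sq
open Vale.Agent.P011.H279.Art
open Vale.Agent.P011.H961 (SetG)
open Vale.Agent.P011.H477.C2 (nf nf_mul loc_int)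

section alg

variable {k K D : Type} [Field k] [Field K] [StarRing K] [DivisionRing D] [StarRing D]
  [Algebra k K] [Algebra k D] [Algebra K D] [IsScalarTower k K D] {n : ℕ}

theorem two_eq_zero_D (h2 : (2 : k) = 0) : (2 : D) = 0 := by
  rw [← map_ofNat (algebraMap k D) 2, h2, map_zero]

/-- A symmetric element `g` with `g * x = star x * g`. -/
theorem exists_sig (hS : SetG k K D) (h2 : (2 : k) = 0) {a : k} {x : D}
    (hx : x * x + x = algebraMap k D a) (hxK : ∀ c : K, algebraMap K D c ≠ x) :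
    ∃ g : D, g ≠ 0 ∧ star g = g ∧ g * x = star x * g := by
  have h2D : (2 : D) = 0 := two_eq_zero_D h2
  have := hS.cen
  have hxs : star x * star x + star x = algebraMap k D a := by
    rw [← star_mul, ← star_add, hx, hS.star_algebraMapk]
  have hcomm : ∀ u : D, algebraMap k D a * u = u * algebraMap k D a := fun u =>
    Algebra.commutes a u
  have key : ∀ u : D, (star x * u + u * x + u) * x = star x * (star x * u + u * x + u) := by
    intro u
    have e1 : (star x * u + u * x + u) * x = star x * u * x + u * (x * x + x) := by noncomm_ring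
    have e2 : star x * (star x * u + u * x + u) =
        star x * u * x + (star x * star x + star x) * u := by noncomm_ring
    rw [e1, e2, hx, hxs, hcomm]
  have hsym : ∀ u : D, star u = u → star (star x * u + u * x + u) = star x * u + u * x + u := by
    intro u hu
    rw [star_add, star_add, star_mul, star_mul, star_star, hu, add_comm (u * x)]
  by_contra hcon
  push Not at hcon
  have h0 : ∀ u : D, star u = u → star x * u + u * x + u = 0 := by
    intro u hu
    by_contra h
    exact hcon _ h (hsym u hu) (key u)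
  have h1 : star x = x + 1 := by
    have e := h0 1 (star_one D)
    rw [mul_one, one_mul, add_assoc] at e
    have e2 : star x = (star x + (x + 1)) + (x + 1) - 2 * (x + 1) := by noncomm_ring
    rw [e2, e, h2D, zero_mul, sub_zero, zero_add]
  -- so `x` commutes with all the symmetric elements
  have h3 : ∀ u : D, star u = u → x * u = u * x := by
    intro u hu
    have e := h0 u hu
    rw [h1] at e
    have e2 : x * u = ((x + 1) * u + u * x + u) + u * x - 2 * (u + u * x) := by noncomm_ring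
    rw [e2, e, h2D, zero_mul, sub_zero, zero_add]
  obtain ⟨κ, hκ⟩ := hS.star_ne
  have := hS.starModule
  have h4 : ∀ y : D, x * y = y * x := by
    intro y
    obtain ⟨p, q, hp, hq, rfl⟩ := H308.C2.sym_decomp hS.fix hκ y
    rw [mul_add, add_mul, h3 p hp, mul_smul_comm, smul_mul_assoc, h3 q hq]
  have h5 : x ∈ Subalgebra.center K D := by
    rw [Subalgebra.mem_center_iff]
    exact fun b => (h4 b).symm
  have h6 := Algebra.IsCentral.out h5
  rw [Algebra.mem_bot] at h6
  obtain ⟨c, hc⟩ := h6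
  exact hxK c hc

/-- An element swapping the roots and symmetric for the involution twisted by `g`. -/
theorem exists_twist (hS : SetG k K D) (h2 : (2 : k) = 0) {b : k} {Y g : D}
    (hY : Y * Y + Y = algebraMap k D b) (hK : ∀ c : K, algebraMap K D c ≠ Y) (hg : star g = g)
    (hg0 : g ≠ 0) (h : g * Y = star Y * g) :
    ∃ j : D, j ≠ 0 ∧ j * Y = (Y + 1) * j ∧ star j * g = g * j := by
  have h2D : (2 : D) = 0 := two_eq_zero_D h2
  have h2K : (2 : K) = 0 := by rw [← map_ofNat (algebraMap k K) 2, h2, map_zero]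
  have := hS.cen
  rw [IsScalarTower.algebraMap_apply k K D] at hY
  obtain ⟨z, hz0, hz⟩ := exists_swap h2K hY hK
  have hinv : Y * g⁻¹ = g⁻¹ * star Y := by
    apply mul_left_cancel₀ hg0
    rw [← mul_assoc, h, mul_assoc, mul_inv_cancel₀ hg0, mul_one, ← mul_assoc, mul_inv_cancel₀ hg0,
      one_mul]
  have hYz : Y * z = z * (Y + 1) := by
    have e : Y * z = (Y + 1) * z + z - 2 * z := by noncomm_ring
    rw [e, ← hz, h2D, zero_mul, sub_zero, mul_add, mul_one]
  have e1 : g⁻¹ * star z * g * Y = (Y + 1) * (g⁻¹ * star z * g) := by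
    calc g⁻¹ * star z * g * Y = g⁻¹ * (star z * star Y) * g := by
          rw [mul_assoc, h]; simp only [mul_assoc]
      _ = g⁻¹ * star (Y * z) * g := by rw [star_mul]
      _ = (g⁻¹ * star Y + g⁻¹) * star z * g := by
        rw [hYz, star_mul, star_add, star_one, ← mul_assoc, mul_add, mul_one]
      _ = _ := by rw [← hinv]; noncomm_ring
  have e2 : star (g⁻¹ * star z * g) * g = g * z := by
    rw [star_mul, star_mul, star_star, hg, star_inv₀, hg, mul_assoc, mul_assoc,
      inv_mul_cancel₀ hg0, mul_one]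
  have e3 : star z * g = g * (g⁻¹ * star z * g) := by
    rw [← mul_assoc, ← mul_assoc, mul_inv_cancel₀ hg0, one_mul]
  by_cases h0 : z + g⁻¹ * star z * g = 0
  · refine ⟨z, hz0, hz, ?_⟩
    have h1 : g⁻¹ * star z * g = z := by
      have e : g⁻¹ * star z * g = (z + g⁻¹ * star z * g) + z - 2 * z := by noncomm_ring
      rw [e, h0, h2D, zero_mul, sub_zero, zero_add]
    rw [e3, h1]
  · refine ⟨z + g⁻¹ * star z * g, h0, ?_, ?_⟩
    · rw [add_mul, hz, e1, mul_add]
    · rw [star_add, add_mul, e2, e3, mul_add, add_comm]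

/-- A root of `X ^ 2 + X + a` is not in the centre. -/
theorem root_ne (hS : SetG k K D) (h2 : (2 : k) = 0) {κ : K} (hκ : star κ = κ + 1) {ν : k}
    (hν : κ * κ + κ = algebraMap k K ν) {a : k} (ha : ∀ z : k, z * z + z ≠ a)
    (haν : ∀ z : k, z * z + z ≠ a + ν) {x : D} (hx : x * x + x = algebraMap k D a) (c : K) :
    algebraMap K D c ≠ x := by
  have h2K : (2 : K) = 0 := by rw [← map_ofNat (algebraMap k K) 2, h2, map_zero]
  rintro rfl
  have h1 : c * c + c = algebraMap k K a := by
    apply (algebraMap K D).injective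
    rw [map_add, map_mul, hx, ← IsScalarTower.algebraMap_apply]
  have h3 : star c * star c + star c = c * c + c := by
    rw [← star_mul, ← star_add, h1, hS.star_algebraMap]
  have h4 : (star c + c) * (star c + c + 1) = 0 := by
    linear_combination h3 + (c * c + c + star c * c) * h2K
  rcases mul_eq_zero.mp h4 with h5 | h5
  · have h6 : star c = c := by linear_combination h5 - c * h2K
    obtain ⟨r, rfl⟩ := (hS.fix c).mp h6
    exact ha r ((algebraMap k K).injective (by rw [map_add, map_mul, h1]))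
  · have h6 : star (c + κ) = c + κ := by
      rw [star_add, hκ]
      linear_combination h5 - c * h2K
    obtain ⟨r, hr⟩ := (hS.fix _).mp h6
    refine haν r ((algebraMap k K).injective ?_)
    rw [map_add, map_mul, hr, map_add, ← h1, ← hν]
    linear_combination c * κ * h2K

end alg

section loc

variable {k K D : Type} [Field k] [GFF k] [Field K] [StarRing K] [DivisionRing D] [StarRing D]
  [Algebra k K] [Algebra k D] [Algebra K D] [IsScalarTower k K D] {n : ℕ}

/-- `ν` is not of the form `z * z + z` at a nonsplit place. -/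
theorem nu_notMem (hS : SetG k K D) {κ : K}
    (hκ : star κ = κ + 1) {ν : k} (hν : κ * κ + κ = algebraMap k K ν) {v : Place k}
    (hv : IsEmpty (K →ₐ[k] v.comp)) (z : v.comp) : z * z + z ≠ algebraMap k v.comp ν := by
  intro hz
  have hne : star κ ≠ κ := by
    rw [hκ]
    intro h
    exact one_ne_zero (add_eq_left.mp h)
  obtain ⟨ι, -⟩ := exists_hom' (F := k) (L := K) (M := v.comp) hS.rank (kappa_notMem hS hne)
    (ap_monic ν) (ap_deg ν) (aeval_ap.mpr hν) (u := z) (aeval_ap.mpr hz)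
  exact hv.false ι

/-- **The class of the symmetric elements `g` with `g * Y = star Y * g`**, where `Y * Y + Y = b`
and `b` and `ν` have the same class at the nonsplit place `v`. -/
theorem mat_lemma (hS : SetG k K D) (h2 : (2 : k) = 0) (hdeg : finrank K D = n ^ 2) {Ω : Type}
    [Field Ω] [Algebra K Ω] (f : D →ₐ[K] Matrix (Fin n) (Fin n) Ω) {κ : K}
    (hκ : star κ = κ + 1) {ν : k} (hν : κ * κ + κ = algebraMap k K ν) {v : Place k}
    (hv : IsEmpty (K →ₐ[k] v.comp)) {b₁ b₂ : k} {Y₁ Y₂ g₁ g₂ : D}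
    (hY₁ : Y₁ * Y₁ + Y₁ = algebraMap k D b₁) (hY₂ : Y₂ * Y₂ + Y₂ = algebraMap k D b₂)
    (hK₁ : ∀ c : K, algebraMap K D c ≠ Y₁) (hK₂ : ∀ c : K, algebraMap K D c ≠ Y₂)
    (hb₁ : ∃ z : v.comp, z * z + z = algebraMap k v.comp (b₁ + ν))
    (hb₂ : ∃ z : v.comp, z * z + z = algebraMap k v.comp (b₂ + ν))
    (hg₁ : star g₁ = g₁) (hg₂ : star g₂ = g₂) (h0₂ : g₂ ≠ 0)
    (h₁ : g₁ * Y₁ = star Y₁ * g₁) (h₂ : g₂ * Y₂ = star Y₂ * g₂) {ν₁ ν₂ : k}
    (hν₁ : (f g₁).det = algebraMap K Ω (algebraMap k K ν₁))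
    (hν₂ : (f g₂).det = algebraMap K Ω (algebraMap k K ν₂)) :
    ∃ x y : v.comp, nf (algebraMap k v.comp ν) x y = algebraMap k v.comp (ν₁ * ν₂) := by
  have := hS.fin
  have := hS.cen
  have := hS.starModule
  have hn0 : n ≠ 0 := (deg_pos hdeg).ne'
  have hA := hS.anis hdeg
  obtain ⟨L, _, _, _, _, _, φ, hst, hφ, hdense, hk, hFL, hfin⟩ :=
    exists_quad_field hA.fixed hA.star_ne v hv
  obtain ⟨gg, hgg⟩ := H738.splitNS hA hn0 v hv L φ hst hφ hdense hk hFL hfin
  have hne : ∃ x : L, star x ≠ x := by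
    obtain ⟨x, hx⟩ := hA.star_ne
    refine ⟨φ x, fun h => hx ?_⟩
    rw [← hφ] at h
    exact φ.injective h
  have hfix : ∀ x : L, star x = x ↔ x ∈ Set.range (algebraMap v.comp L) := by
    let _ := nnfPlace v
    intro x
    refine H73.fixed_iff (F := v.comp) hst hne hFL hfin (S := Set.range (algebraMap k v.comp))
      ?_ ?_ x
    · change DenseRange (algebraMap k v.comp)
      rw [Metric.denseRange_iff]
      intro x ε hε
      obtain ⟨a, ha⟩ := dense_alg v x hε
      exact ⟨a, by rwa [dist_eq_norm]⟩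
    · rintro _ ⟨c, rfl⟩
      rw [← hk, ← hφ, (hA.fixed _).2 ⟨c, rfl⟩]
  have hst' : ∀ a : v.comp, star (algebraMap v.comp L a) = algebraMap v.comp L a := fun a =>
    (hfix _).mpr ⟨a, rfl⟩
  obtain ⟨H, hHs, hHd, hH⟩ := H756.exists_herm hn0 hA.finrank_eq hne φ hφ gg hgg
  have hHu : IsUnit H.det := isUnit_iff_ne_zero.mpr hHd
  obtain ⟨G, hG0⟩ : ∃ G, G = H⁻¹ := ⟨_, rfl⟩
  have hGu : IsUnit G := by
    rw [hG0]
    exact (Matrix.isUnit_iff_isUnit_det _).mpr (Matrix.isUnit_nonsing_inv_det _ hHu)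
  have hGs : Gᴴ = G := by rw [hG0, Matrix.conjTranspose_nonsing_inv, hHs]
  have hG : ∀ x, G * gg (star x) = (gg x)ᴴ * G := by
    intro x
    rw [hG0]
    calc H⁻¹ * gg (star x) = H⁻¹ * (gg (star x) * H) * H⁻¹ := by
          rw [Matrix.mul_assoc H⁻¹, Matrix.mul_assoc _ H, Matrix.mul_nonsing_inv _ hHu,
            Matrix.mul_one]
      _ = (H⁻¹ * H) * (gg x)ᴴ * H⁻¹ := by rw [hH, Matrix.mul_assoc H⁻¹ H]
      _ = _ := by rw [Matrix.nonsing_inv_mul _ hHu, Matrix.one_mul]
  have h2L : (2 : L) = 0 := by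
    rw [← map_ofNat φ 2, ← map_ofNat (algebraMap k K) 2, h2, map_zero, map_zero]
  have hunit : ∀ c : D, c ≠ 0 → IsUnit (gg c) := fun c hc => (IsUnit.mk0 c hc).map gg
  -- the element of trace one
  have hκL : star (φ κ) = φ κ + 1 := by rw [← hφ, hκ, map_add, map_one]
  have hνL : φ κ * φ κ + φ κ = algebraMap v.comp L (algebraMap k v.comp ν) := by
    rw [← map_mul, ← map_add, hν, hk]
  have hroot : ∀ b : k, (∃ z : v.comp, z * z + z = algebraMap k v.comp (b + ν)) →
      ∃ δ : L, star δ = δ + 1 ∧ δ * δ + δ = algebraMap v.comp L (algebraMap k v.comp b) := by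
    rintro b ⟨z, hz⟩
    refine ⟨φ κ + algebraMap v.comp L z, ?_, ?_⟩
    · rw [star_add, hκL, hst']
      ring
    · have h3 := congrArg (algebraMap v.comp L) hz
      rw [map_add, map_mul, map_add, map_add] at h3
      linear_combination hνL + h3 + (φ κ * algebraMap v.comp L z +
        algebraMap v.comp L (algebraMap k v.comp ν)) * h2L
  have hsq : ∀ {b : k} {Y : D}, Y * Y + Y = algebraMap k D b →
      gg Y * gg Y + gg Y = algebraMap L _ (algebraMap v.comp L (algebraMap k v.comp b)) := by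
    intro b Y hY
    rw [← map_mul, ← map_add, hY, IsScalarTower.algebraMap_apply k K D, hgg, hk]
  have h2K : (2 : K) = 0 := by rw [← map_ofNat (algebraMap k K) 2, h2, map_zero]
  have htr : ∀ {b : k} {Y : D}, Y * Y + Y = algebraMap k D b → (∀ c : K, algebraMap K D c ≠ Y) →
      ∃ a a' : Matrix (Fin n) (Fin n) L, a * a' = 1 ∧ a' * a = 1 ∧
        a * gg Y = (gg Y + 1) * a := by
    intro b Y hY hK
    rw [IsScalarTower.algebraMap_apply k K D] at hY
    obtain ⟨z, hz0, hz⟩ := exists_swap h2K hY hK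
    refine ⟨gg z, gg z⁻¹, ?_, ?_, ?_⟩
    · rw [← map_mul, mul_inv_cancel₀ hz0, map_one]
    · rw [← map_mul, inv_mul_cancel₀ hz0, map_one]
    · rw [← map_mul, hz, map_mul, map_add, map_one]
  have hherm : ∀ {g : D}, star g = g → (G * gg g)ᴴ = G * gg g := by
    intro g hg
    rw [Matrix.conjTranspose_mul, hGs, ← hG, hg]
  have hint : ∀ {g Y : D}, g * Y = star Y * g → G * gg g * gg Y = (gg Y)ᴴ * (G * gg g) := by
    intro g Y h
    rw [mul_assoc, ← map_mul, h, map_mul, ← mul_assoc, hG, mul_assoc]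
  obtain ⟨δ₁, e1, e2⟩ := hroot b₁ hb₁
  obtain ⟨δ₂, e3, e4⟩ := hroot b₂ hb₂
  obtain ⟨p, hp⟩ := det_class2 h2L e1 e3 (by rw [hsq hY₁, e2]) (by rw [hsq hY₂, e4])
    (htr hY₁ hK₁) (htr hY₂ hK₂) (hherm hg₁) (hherm hg₂) (hint h₁) (hint h₂)
    (hGu.mul (hunit g₂ h0₂))
  have hd1 : (gg g₁).det = algebraMap v.comp L (algebraMap k v.comp ν₁) := by
    rw [det_modelG hS hdeg f φ gg hgg hν₁]
    exact hk _
  have hd2 : (gg g₂).det = algebraMap v.comp L (algebraMap k v.comp ν₂) := by
    rw [det_modelG hS hdeg f φ gg hgg hν₂]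
    exact hk _
  have hGd : G.det ≠ 0 := ((Matrix.isUnit_iff_isUnit_det G).mp hGu).ne_zero
  rw [Matrix.det_mul, Matrix.det_mul, hd1, hd2] at hp
  have hp1 : algebraMap v.comp L (algebraMap k v.comp ν₁) =
      p * star p * algebraMap v.comp L (algebraMap k v.comp ν₂) := by
    apply mul_left_cancel₀ hGd
    rw [hp]; ring
  have hκr : φ κ ∉ (algebraMap v.comp L).range := by
    rintro ⟨c, hc⟩
    refine nu_notMem hS hκ hν hv c ((algebraMap v.comp L).injective ?_)
    rw [map_add, map_mul, hc, hνL]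
  obtain ⟨x, y, rfl⟩ := exists_rep hfin hκr p
  refine ⟨x * algebraMap k v.comp ν₂, y * algebraMap k v.comp ν₂, ?_⟩
  apply (algebraMap v.comp L).injective
  rw [map_mul (algebraMap k v.comp), map_mul (algebraMap v.comp L) (algebraMap k v.comp ν₁), hp1,
    star_add, star_mul', hst', hst', hκL]
  simp only [nf, map_add, map_mul, map_pow]
  rw [← hνL]
  linear_combination (- algebraMap v.comp L x * algebraMap v.comp L y * φ κ *
    algebraMap v.comp L (algebraMap k v.comp ν₂) ^ 2) * h2L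

/-- **The class at almost all nonsplit places.** -/
theorem exists_ref (hS : SetG k K D) (h2 : (2 : k) = 0) (hdeg : finrank K D = n ^ 2) {Ω : Type}
    [Field Ω] [Algebra K Ω] (f : D →ₐ[K] Matrix (Fin n) (Fin n) Ω) {κ : K}
    (hκ : star κ = κ + 1) {ν : k} (hν : κ * κ + κ = algebraMap k K ν) :
    ∃ S : Set (Place k), S.Finite ∧ ∀ v ∉ S, IsEmpty (K →ₐ[k] v.comp) →
      ∀ (b : k) (Y g : D), Y * Y + Y = algebraMap k D b → (∀ c : K, algebraMap K D c ≠ Y) →
        (∃ z : v.comp, z * z + z = algebraMap k v.comp (b + ν)) → star g = g → g ≠ 0 →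
        g * Y = star Y * g → ∀ r : k, (f g).det = algebraMap K Ω (algebraMap k K r) →
        ∃ x y : v.comp, nf (algebraMap k v.comp ν) x y = algebraMap k v.comp r := by
  have h2D : (2 : D) = 0 := two_eq_zero_D h2
  by_cases hex : ∃ (b : k) (Y g : D), Y * Y + Y = algebraMap k D b ∧
      (∀ c : K, algebraMap K D c ≠ Y) ∧ star g = g ∧ g ≠ 0 ∧ g * Y = star Y * g
  · obtain ⟨b₁, Y₁, g₁, hY₁, hK₁, hg₁, h0₁, h₁⟩ := hex
    obtain ⟨j, hj0, hjY, hjg⟩ := exists_twist hS h2 hY₁ hK₁ hg₁ h0₁ h₁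
    -- the second reference
    obtain ⟨A, hA⟩ : ∃ A : D, A = algebraMap K D κ := ⟨_, rfl⟩
    have hAc : ∀ y : D, A * y = y * A := fun y => by rw [hA]; exact Algebra.commutes κ y
    have hAs : star A = A + 1 := by rw [hA, hS.star_algebraMapD, hκ, map_add, map_one]
    have hAA : A * A + A = algebraMap k D ν := by
      rw [hA, ← map_mul, ← map_add, hν, ← IsScalarTower.algebraMap_apply]
    have hY₂ : (Y₁ + A) * (Y₁ + A) + (Y₁ + A) = algebraMap k D (b₁ + ν) := by
      have e : (Y₁ + A) * (Y₁ + A) + (Y₁ + A) = (Y₁ * Y₁ + Y₁) + (A * A + A) +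
        (Y₁ * A + A * Y₁) := by noncomm_ring
      rw [e, hY₁, hAA, hAc, ← two_mul, h2D, zero_mul, add_zero, map_add]
    have hK₂ : ∀ c : K, algebraMap K D c ≠ Y₁ + A := by
      intro c hc
      apply hK₁ (c - κ)
      rw [map_sub, hc, ← hA, add_sub_cancel_right]
    have hg₂ : star (g₁ * j) = g₁ * j := by rw [star_mul, hg₁, hjg]
    have h0₂ : g₁ * j ≠ 0 := mul_ne_zero h0₁ hj0
    have h₂ : g₁ * j * (Y₁ + A) = star (Y₁ + A) * (g₁ * j) := by
      rw [star_add, hAs]
      calc g₁ * j * (Y₁ + A) = g₁ * (j * Y₁) + g₁ * (j * A) := by noncomm_ring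
        _ = g₁ * Y₁ * j + g₁ * j + (A * g₁) * j := by rw [hjY, ← hAc j, hAc g₁]; noncomm_ring
        _ = _ := by rw [h₁]; noncomm_ring
    obtain ⟨r₁, hr₁, hν₁⟩ := exists_nrdG hS hdeg f hg₁ h0₁
    obtain ⟨r₂, hr₂, hν₂⟩ := exists_nrdG hS hdeg f hg₂ h0₂
    have hfin : ∀ c : k, {v : Place k | 1 < v.abv c}.Finite := by
      intro c
      rcases eq_or_ne c 0 with rfl | hc
      · refine Set.finite_empty.subset fun v hv => ?_
        rw [Set.mem_ofPred_eq, map_zero] at hv
        exact absurd hv (by norm_num)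
      · exact (place_finite hc).subset fun v hv => ne_of_gt hv
    refine ⟨{v | 1 < v.abv ν} ∪ {v | 1 < v.abv b₁} ∪
      {v | v.abv r₁ ≠ 1} ∪ {v | v.abv r₂ ≠ 1},
      (((hfin ν).union (hfin b₁)).union (place_finite hr₁)).union (place_finite hr₂), ?_⟩
    intro v hv hemp b Y g hY hK hb hg hg0 h r hr
    simp only [Set.mem_union, not_or, Set.mem_ofPred_eq, not_lt, not_not] at hv
    obtain ⟨⟨⟨vν, vb⟩, vr₁⟩, vr₂⟩ := hv
    have h4 : v.abv (1 - 4 * ν) = 1 := by
      have e : (1 : k) - 4 * ν = 1 := by linear_combination (-2 * ν) * h2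
      rw [e, map_one]
    -- from a reference of absolute value one
    have main : ∀ (c : k) (Z e : D) (q : k), Z * Z + Z = algebraMap k D c →
        (∀ c : K, algebraMap K D c ≠ Z) →
        (∃ z : v.comp, z * z + z = algebraMap k v.comp (c + ν)) → star e = e → e ≠ 0 →
        e * Z = star Z * e → (f e).det = algebraMap K Ω (algebraMap k K q) → v.abv q = 1 →
        ∃ x y : v.comp, nf (algebraMap k v.comp ν) x y = algebraMap k v.comp r := by
      intro c Z e q hZ hKZ hc he he0 heZ hq hq1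
      obtain ⟨x, y, hxy⟩ := mat_lemma hS h2 hdeg f hκ hν hemp hY hZ hK hKZ hb hc hg he he0 h heZ
        hr hq
      obtain ⟨z, w, hzw⟩ := loc_int (P := v) (a := ν) (s := q) (c := 1) vν h4 one_ne_zero
        (by rw [hq1, map_one, one_pow])
      have hq0 : q ≠ 0 := by
        rintro rfl
        rw [map_zero] at hq1
        exact zero_ne_one hq1
      have hq0' : algebraMap k v.comp q ≠ 0 := (_root_.map_ne_zero _).mpr hq0
      have e1 : nf (algebraMap k v.comp ν) x y * nf (algebraMap k v.comp ν) z w =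
          algebraMap k v.comp r * algebraMap k v.comp q ^ 2 := by
        rw [hxy, hzw, map_mul]
        ring
      rw [nf_mul] at e1
      obtain ⟨X, hX⟩ : ∃ X, X = x * z - algebraMap k v.comp ν * y * w := ⟨_, rfl⟩
      obtain ⟨W, hW⟩ : ∃ W, W = x * w + y * z + y * w := ⟨_, rfl⟩
      rw [← hX, ← hW] at e1
      refine ⟨X / algebraMap k v.comp q, W / algebraMap k v.comp q, ?_⟩
      have e2 : nf (algebraMap k v.comp ν) (X / algebraMap k v.comp q)
          (W / algebraMap k v.comp q) =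
          nf (algebraMap k v.comp ν) X W / algebraMap k v.comp q ^ 2 := by
        simp only [nf]
        field_simp
      rw [e2, e1, mul_div_assoc, div_self (pow_ne_zero 2 hq0'), mul_one]
    by_cases hb₁ : ∃ z : v.comp, z * z + z = algebraMap k v.comp (b₁ + ν)
    · exact main b₁ Y₁ g₁ r₁ hY₁ hK₁ hb₁ hg₁ h0₁ h₁ hν₁ vr₁
    · push Not at hb₁
      have hb₂ : ∃ z : v.comp, z * z + z = algebraMap k v.comp (b₁ + ν + ν) := by
        let _ : NontriviallyNormedField v.comp := nnfPlace v
        have h2v : (2 : v.comp) = 0 := by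
          rw [← map_ofNat (algebraMap k v.comp) 2, h2, map_zero]
        have hn : ∀ c : k, ‖algebraMap k v.comp c‖ = v.abv c := fun c => norm_alg v _
        obtain ⟨z, hz⟩ := index_two h2v (a := algebraMap k v.comp (b₁ + ν))
          (b := algebraMap k v.comp ν) (by
            rw [hn]
            exact (v.nonarch _ _).trans (max_le vb vν)) (by rw [hn]; exact vν) hb₁
          (nu_notMem hS hκ hν hemp)
        exact ⟨z, by rw [hz, map_add (algebraMap k v.comp) (b₁ + ν)]⟩
      exact main (b₁ + ν) (Y₁ + A) (g₁ * j) r₂ hY₂ hK₂ hb₂ hg₂ h0₂ h₂ hν₂ vr₂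
  · refine ⟨∅, Set.finite_empty, fun v _ _ b Y g hY hK _ hg hg0 h r _ => ?_⟩
    exact (hex ⟨b, Y, g, hY, hK, hg, hg0, h⟩).elim

end loc

end Vale.Agent.P011.H279.X2
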