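import Vale.Agent.P011.H279.X2B
import Vale.Agent.P011.H961.R5TwoLoc

/-!
Norms from biquadratic extensions in characteristic two.
-/

open Module

set_option linter.unusedSectionVars false

namespace Vale.Agent.P011.H279.X2

open Vale.Agent.P011.H738 Vale.Agent.P011.H271 Vale.Agent.P011.W Vale.Agent.P011.H279.Sq
open Vale.Agent.P011.H279.Art
open Vale.Agent.P011.H961 (SetG)
open Vale.Agent.P011.H477.C2 (nf nf_mul loc_int loc_ok_root loc_ok_norm' hasse4)

variable {k : Type} [Field k] [GFF k]

/-- A representative modulo the Artin-Schreier map. -/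
theorem exists_reduce (h2 : (2 : k) = 0) (v : Place k) (a : k) : ∃ z : k,
    v.abv (a + (z * z + z)) ≤ 1 ∨
      (1 < v.abv (a + (z * z + z)) ∧ ∀ c : k, v.abv (a + (z * z + z)) ≠ v.abv c ^ 2) := by
  have hq := one_lt_qq' v
  have key : ∀ (N : ℕ) (a : k), v.abv a ≤ (qq v : ℝ) ^ (N : ℤ) → ∃ z : k,
      v.abv (a + (z * z + z)) ≤ 1 ∨
      (1 < v.abv (a + (z * z + z)) ∧ ∀ c : k, v.abv (a + (z * z + z)) ≠ v.abv c ^ 2) := by
    intro N
    induction N with
    | zero =>
      intro a ha
      refine ⟨0, Or.inl ?_⟩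
      rw [mul_zero, add_zero, add_zero]
      simpa using ha
    | succ N ih =>
      intro a ha
      by_cases h1 : v.abv a ≤ 1
      · exact ⟨0, Or.inl (by rwa [mul_zero, add_zero, add_zero])⟩
      by_cases h3 : ∀ c : k, v.abv a ≠ v.abv c ^ 2
      · refine ⟨0, Or.inr ?_⟩
        rw [mul_zero, add_zero, add_zero]
        exact ⟨not_le.mp h1, h3⟩
      push Not at h1 h3
      obtain ⟨c, hc⟩ := h3
      have hc1 : 1 < v.abv c := by
        by_contra hcon
        push Not at hcon
        have := pow_le_one₀ (n := 2) (v.abv.nonneg c) hcon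
        rw [← hc] at this
        linarith
      have hc0 : c ≠ 0 := by
        rintro rfl
        rw [map_zero] at hc1
        linarith
      have hcc0 : v.abv c ^ 2 ≠ 0 := by positivity
      obtain ⟨s, hs⟩ := H961.C2.exists_sq_near h2 (ω := v) (c := a / c ^ 2) (by
        rw [map_div₀, map_pow, hc, div_self hcc0])
      have hlt : v.abv (a + (c * s) * (c * s)) < v.abv a := by
        have e : a + (c * s) * (c * s) = c ^ 2 * (a / c ^ 2 - s ^ 2) := by
          have : c ^ 2 * (a / c ^ 2 - s ^ 2) = a - (c * s) * (c * s) := by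
            field_simp
          rw [this]
          linear_combination ((c * s) * (c * s)) * h2
        rw [e, map_mul, map_pow, hc]
        have hpos : 0 < v.abv c ^ 2 := by positivity
        nlinarith
      have hs1 : v.abv s ≤ 1 := by
        by_contra hcon
        push Not at hcon
        have h4 : v.abv (s ^ 2) ≤ 1 := by
          have e : s ^ 2 = a / c ^ 2 + -(a / c ^ 2 - s ^ 2) := by ring
          rw [e]
          refine (v.nonarch _ _).trans (max_le ?_ ?_)
          · rw [map_div₀, map_pow, hc, div_self hcc0]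
          · rw [AbsoluteValue.map_neg]
            exact hs.le
        rw [map_pow] at h4
        nlinarith
      have hcs : v.abv (c * s) < v.abv a := by
        rw [map_mul, hc, pow_two]
        have h5 := v.abv.nonneg s
        nlinarith
      have ha' : v.abv (a + ((c * s) * (c * s) + c * s)) < v.abv a := by
        rw [← add_assoc]
        exact (v.nonarch _ _).trans_lt (max_lt hlt hcs)
      -- the exponent decreases
      have hN : v.abv (a + ((c * s) * (c * s) + c * s)) ≤ (qq v : ℝ) ^ (N : ℤ) := by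
        rcases eq_or_ne (a + ((c * s) * (c * s) + c * s)) 0 with h0 | h0
        · rw [h0, map_zero]
          positivity
        · obtain ⟨m, hm⟩ := exists_eq_zpow v h0
          have h6 := ha'.trans_le ha
          rw [hm] at h6 ⊢
          have h7 := (zpow_lt_zpow_iff_right₀ hq).mp h6
          exact (zpow_le_zpow_iff_right₀ hq).mpr (by push_cast at h7; omega)
      obtain ⟨z, hz⟩ := ih _ hN
      refine ⟨c * s + z, ?_⟩
      have e : a + ((c * s + z) * (c * s + z) + (c * s + z)) =
          a + ((c * s) * (c * s) + c * s) + (z * z + z) := by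
        linear_combination (c * s * z) * h2
      rw [e]
      exact hz
  rcases eq_or_ne a 0 with rfl | ha0
  · exact ⟨0, Or.inl (by rw [mul_zero, add_zero, add_zero, map_zero]; norm_num)⟩
  · obtain ⟨m, hm⟩ := exists_eq_zpow v ha0
    refine key m.toNat a ?_
    rw [hm]
    exact (zpow_le_zpow_iff_right₀ hq).mpr (Int.self_le_toNat m)

/-- The product of two elements of odd order has even order. -/
theorem even_of_odd {v : Place k} {x y : k} (hx0 : x ≠ 0) (hy0 : y ≠ 0)
    (hx : ∀ c : k, v.abv x ≠ v.abv c ^ 2) (hy : ∀ c : k, v.abv y ≠ v.abv c ^ 2) :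
    ∃ c : k, c ≠ 0 ∧ v.abv (x * y) = v.abv c ^ 2 := by
  have hq := one_lt_qq' v
  obtain ⟨π, hπ0, hπ⟩ := Hey.exists_unif v
  have hπz : ∀ l : ℤ, v.abv (π ^ (-l)) = (qq v : ℝ) ^ l := by
    intro l
    rw [map_zpow₀, hπ, inv_zpow, zpow_neg, inv_inv]
  have hodd : ∀ {x : k}, x ≠ 0 → (∀ c : k, v.abv x ≠ v.abv c ^ 2) →
      ∃ l : ℤ, v.abv x = (qq v : ℝ) ^ (2 * l + 1) := by
    intro x h0 h
    obtain ⟨m, hm⟩ := exists_eq_zpow v h0
    rcases Int.even_or_odd' m with ⟨l, hl | hl⟩
    · exfalso
      refine h (π ^ (-l)) ?_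
      rw [hπz, hm, hl, ← zpow_natCast, ← zpow_mul]
      congr 1
      push_cast
      ring
    · exact ⟨l, by rw [hm, hl]⟩
  obtain ⟨l, hl⟩ := hodd hx0 hx
  obtain ⟨l', hl'⟩ := hodd hy0 hy
  refine ⟨π ^ (-(l + l' + 1)), zpow_ne_zero _ hπ0, ?_⟩
  rw [hπz, map_mul, hl, hl', ← zpow_add₀ (by positivity), ← zpow_natCast, ← zpow_mul]
  congr 1
  push_cast
  ring

/-- **Two different quadratic extensions, one of them unramified**: every element is a product of
norms. -/
theorem loc_two (h2 : (2 : k) = 0) {v : Place k} {a ν r : k} (hr : r ≠ 0)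
    (hν1 : v.abv ν ≤ 1) (hν : ∀ z : v.comp, z * z + z ≠ algebraMap k v.comp ν)
    (ha : ∀ z : v.comp, z * z + z ≠ algebraMap k v.comp a)
    (haν : ∀ z : v.comp, z * z + z ≠ algebraMap k v.comp (a + ν)) :
    ∃ x y z w : v.comp, nf (algebraMap k v.comp a) x y ≠ 0 ∧
      algebraMap k v.comp r * nf (algebraMap k v.comp a) x y =
        nf (algebraMap k v.comp ν) z w := by
  have h2v : (2 : v.comp) = 0 := by
    rw [← map_ofNat (algebraMap k v.comp) 2, h2, map_zero]
  have h4 : v.abv (1 - 4 * ν) = 1 := by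
    have e : (1 : k) - 4 * ν = 1 := by linear_combination (-2 * ν) * h2
    rw [e, map_one]
  obtain ⟨z0, hz0⟩ := exists_reduce h2 v a
  obtain ⟨a', ha'⟩ : ∃ a', a' = a + (z0 * z0 + z0) := ⟨_, rfl⟩
  rw [← ha'] at hz0
  have hmap : algebraMap k v.comp a' = algebraMap k v.comp a +
      (algebraMap k v.comp z0 * algebraMap k v.comp z0 + algebraMap k v.comp z0) := by
    rw [ha', map_add, map_add, map_mul]
  rcases hz0 with h | ⟨h1, hodd⟩
  · exfalso
    have h5 : ∀ z : v.comp, z * z + z ≠ algebraMap k v.comp a' := by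
      intro z hz
      refine ha (z + algebraMap k v.comp z0) ?_
      rw [hmap] at hz
      linear_combination hz + (algebraMap k v.comp z0 * z + algebraMap k v.comp z0 *
        algebraMap k v.comp z0 + algebraMap k v.comp z0) * h2v
    let _ : NontriviallyNormedField v.comp := nnfPlace v
    have hn : ∀ c : k, ‖algebraMap k v.comp c‖ = v.abv c := fun c => norm_alg v _
    obtain ⟨z, hz⟩ := index_two h2v (a := algebraMap k v.comp a')
      (b := algebraMap k v.comp ν) (by rw [hn]; exact h) (by rw [hn]; exact hν1) h5 hν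
    refine haν (z + algebraMap k v.comp z0) ?_
    rw [hmap] at hz
    rw [map_add]
    linear_combination hz + (algebraMap k v.comp z0 * z + algebraMap k v.comp z0 *
        algebraMap k v.comp z0 + algebraMap k v.comp z0) * h2v
  · by_cases hre : ∃ c : k, v.abv r = v.abv c ^ 2
    · obtain ⟨c, hc⟩ := hre
      have hc0 : c ≠ 0 := by
        rintro rfl
        rw [map_zero] at hc
        have := v.abv.pos hr
        rw [hc] at this
        norm_num at this
      exact loc_ok_norm' hr (loc_int (P := v) hν1 h4 hc0 hc) a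
    · push Not at hre
      have ha'0 : a' ≠ 0 := by
        intro h0
        rw [h0, map_zero] at h1
        linarith
      obtain ⟨c, hc0, hc⟩ := even_of_odd hr ha'0 hre hodd
      obtain ⟨z, w, hzw⟩ := loc_int (P := v) hν1 h4 hc0 hc
      refine ⟨algebraMap k v.comp z0, 1, z, w, ?_, ?_⟩
      · have e : nf (algebraMap k v.comp a) (algebraMap k v.comp z0) 1 =
            algebraMap k v.comp a' := by
          rw [hmap, nf]
          ring
        rw [e]
        exact (_root_.map_ne_zero _).mpr ha'0
      · have e : nf (algebraMap k v.comp a) (algebraMap k v.comp z0) 1 =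
            algebraMap k v.comp a' := by
          rw [hmap, nf]
          ring
        rw [e, hzw, map_mul]

/-- **The biquadratic norm theorem.** -/
theorem exists_mu (h2 : (2 : k) = 0) {a ν r : k} (hr : r ≠ 0)
    (h : ∀ v : Place k, (∀ z : v.comp, z * z + z ≠ algebraMap k v.comp ν) →
      (∀ z : v.comp, z * z + z ≠ algebraMap k v.comp a) → v.abv ν ≤ 1 ∧
        ((∃ z : v.comp, z * z + z = algebraMap k v.comp (a + ν)) →
          ∃ x y : v.comp, nf (algebraMap k v.comp ν) x y = algebraMap k v.comp r)) :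
    ∃ x y z w : k, nf a x y ≠ 0 ∧ nf ν z w ≠ 0 ∧ r * nf a x y = nf ν z w := by
  have hd : ∀ c : k, 1 - 4 * c ≠ 0 := by
    intro c
    have e : (1 : k) - 4 * c = 1 := by linear_combination (-2 * c) * h2
    rw [e]
    exact one_ne_zero
  refine hasse4 (hd a) (hd ν) hr fun v => ?_
  have h2v : (2 : v.comp) = 0 := by
    rw [← map_ofNat (algebraMap k v.comp) 2, h2, map_zero]
  have hconv : ∀ c : k, (∃ z : v.comp, z * z + z = algebraMap k v.comp c) →
      ∃ α : v.comp, α ^ 2 - α + algebraMap k v.comp c = 0 := by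
    rintro c ⟨z, hz⟩
    refine ⟨z, ?_⟩
    rw [← hz]
    linear_combination (z * z) * h2v
  by_cases h1 : ∃ z : v.comp, z * z + z = algebraMap k v.comp ν
  · exact loc_ok_root (hd a) (hd ν) hr (Or.inr (hconv ν h1))
  by_cases h3 : ∃ z : v.comp, z * z + z = algebraMap k v.comp a
  · exact loc_ok_root (hd a) (hd ν) hr (Or.inl (hconv a h3))
  push Not at h1 h3
  obtain ⟨h4, h5⟩ := h v h1 h3
  by_cases h6 : ∃ z : v.comp, z * z + z = algebraMap k v.comp (a + ν)
  · exact loc_ok_norm' hr (h5 h6) a
  · push Not at h6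
    exact loc_two h2 hr h4 h1 h3 h6

end Vale.Agent.P011.H279.X2
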